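import Mathlib

/-!
Chebyshev-type supply of primes (helper lemmas for P012).
-/

namespace Vale.Agent.H79

open Finset

theorem two_pow_le_primeCounting (u : ℕ) :
    2 ^ u ≤ u * (Nat.primeCounting (2 ^ u) + 1) + 1 := by
  set n : ℕ := 2 ^ u with hn
  have hn0 : n ≠ 0 := by positivity
  have h1 : 2 ^ n ≤ (n + 1) * Nat.lcmUpto n := Chebyshev.two_pow_le_mul_lcmUpto n
  have h2 : Nat.lcmUpto n ≤ n ^ Nat.primeCounting n := by
    rw [Nat.lcmUpto_eq_prod_pow_log, ← Nat.primesLE_card_eq_primeCounting,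
      ← Finset.prod_const]
    apply Finset.prod_le_prod'
    intro p _
    exact Nat.pow_log_le_self p hn0
  have h3 : n + 1 ≤ 2 ^ (u + 1) := by
    rw [pow_succ]
    have : 1 ≤ n := Nat.one_le_iff_ne_zero.mpr hn0
    omega
  have h4 : n ^ Nat.primeCounting n = 2 ^ (u * Nat.primeCounting n) := by
    rw [hn, ← pow_mul]
  have h5 : 2 ^ n ≤ 2 ^ (u + 1 + u * Nat.primeCounting n) := by
    calc 2 ^ n ≤ (n + 1) * Nat.lcmUpto n := h1
      _ ≤ 2 ^ (u + 1) * n ^ Nat.primeCounting n := Nat.mul_le_mul h3 h2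
      _ = 2 ^ (u + 1 + u * Nat.primeCounting n) := by rw [h4, ← pow_add]
  have h6 : n ≤ u + 1 + u * Nat.primeCounting n :=
    (Nat.pow_le_pow_iff_right (by norm_num : 1 < 2)).mp h5
  calc n ≤ u + 1 + u * Nat.primeCounting n := h6
    _ = u * (Nat.primeCounting n + 1) + 1 := by ring

theorem primeCounting_le_self (n : ℕ) : Nat.primeCounting n ≤ n := by
  rw [← Nat.primesLE_card_eq_primeCounting, Nat.primesLE_eq_filter_Ioc_zero]
  calc ((Finset.Ioc 0 n).filter Nat.Prime).card ≤ (Finset.Ioc 0 n).card := Finset.card_filter_le _ _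
    _ = n := by simp

theorem primeCounting_eq_card_Ioc_add {a b : ℕ} (hab : a ≤ b) :
    Nat.primeCounting b
      = ((Finset.Ioc a b).filter Nat.Prime).card + Nat.primeCounting a := by
  rw [← Nat.primesLE_card_eq_primeCounting, ← Nat.primesLE_card_eq_primeCounting,
    Nat.primesLE_eq_filter_Ioc_zero, Nat.primesLE_eq_filter_Ioc_zero, add_comm,
    ← Finset.card_union_of_disjoint, ← Finset.filter_union]
  · congr 2
    ext x
    simp only [Finset.mem_union, Finset.mem_Ioc]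
    omega
  · apply Finset.disjoint_filter_filter
    rw [Finset.disjoint_left]
    intro x hx1 hx2
    simp only [Finset.mem_Ioc] at hx1 hx2
    omega

theorem card_primes_Ioc (v : ℕ) (hv : 5 ≤ v) :
    2 ^ (2 * v) ≤ 2 * v * (((Finset.Ioc (2 ^ v) (2 ^ (2 * v))).filter Nat.Prime).card
      + 2 ^ v + 2) := by
  have h1 := two_pow_le_primeCounting (2 * v)
  have hle : 2 ^ v ≤ 2 ^ (2 * v) := Nat.pow_le_pow_right (by norm_num) (by omega)
  have h2 := primeCounting_eq_card_Ioc_add hle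
  have h3 := primeCounting_le_self (2 ^ v)
  set C := ((Finset.Ioc (2 ^ v) (2 ^ (2 * v))).filter Nat.Prime).card
  have h4 : Nat.primeCounting (2 ^ (2 * v)) + 1 ≤ C + 2 ^ v + 1 := by omega
  calc 2 ^ (2 * v) ≤ 2 * v * (Nat.primeCounting (2 ^ (2 * v)) + 1) + 1 := h1
    _ ≤ 2 * v * (C + 2 ^ v + 1) + 1 := by
        have := Nat.mul_le_mul_left (2 * v) h4
        omega
    _ ≤ 2 * v * (C + 2 ^ v + 1) + 2 * v := by omega
    _ = 2 * v * (C + 2 ^ v + 2) := by ring

end Vale.Agent.H79
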