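import Mathlib

/-!
# Coordinates of polynomial rings: basic tools

Helper results on polynomial automorphisms over the complex numbers:

* conjugating a coordinate derivation by an automorphism (gradient criterion);
* a polynomial of total degree at most two without critical points is a coordinate.
-/

namespace Vale.Agent.H79

open MvPolynomial

section Gradient

variable {σ : Type*} [Fintype σ]

/-- Conjugating `pderiv j` by an automorphism `φ` gives a derivation, which is therefore
a combination of the coordinate derivations. -/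
theorem conj_pderiv_formula (φ : MvPolynomial σ ℂ ≃ₐ[ℂ] MvPolynomial σ ℂ) (j : σ)
    (p : MvPolynomial σ ℂ) :
    φ (pderiv j (φ.symm p)) = ∑ k, φ (pderiv j (φ.symm (X k))) * pderiv k p := by
  classical
  induction p using MvPolynomial.induction_on with
  | C a =>
    have h : φ.symm (C a) = C a := by
      have := φ.symm.commutes a
      simpa [MvPolynomial.algebraMap_eq] using this
    simp [h]
  | add p q hp hq =>
    simp only [map_add, hp, hq, mul_add, Finset.sum_add_distrib]
  | mul_X p i h =>
    simp only [map_mul, Derivation.leibniz, smul_eq_mul, map_add, AlgEquiv.apply_symm_apply, h,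
      pderiv_X, Pi.single_apply]
    rw [Finset.mul_sum]
    have : ∀ k, φ (pderiv j (φ.symm (X k))) * (p * (if i = k then (1 : MvPolynomial σ ℂ) else 0)
        + X i * pderiv k p) = (if i = k then p * φ (pderiv j (φ.symm (X k))) else 0)
        + X i * (φ (pderiv j (φ.symm (X k))) * pderiv k p) := by
      intro k
      split_ifs <;> ring
    simp only [this, Finset.sum_add_distrib, Finset.sum_ite_eq, Finset.mem_univ, if_true]

/-- If an automorphism maps a variable to `F`, then the gradient of `F` is unimodular. -/
theorem exists_sum_mul_pderiv_eq_one (φ : MvPolynomial σ ℂ ≃ₐ[ℂ] MvPolynomial σ ℂ) (j : σ)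
    (F : MvPolynomial σ ℂ) (h : φ (X j) = F) :
    ∃ g : σ → MvPolynomial σ ℂ, ∑ k, g k * pderiv k F = 1 := by
  refine ⟨fun k => φ (pderiv j (φ.symm (X k))), ?_⟩
  rw [← conj_pderiv_formula φ j F, ← h]
  simp

end Gradient

/-- A stable coordinate has no critical point. -/
theorem exists_pderiv_eval_ne_zero_of_stable {n m : ℕ} (f : MvPolynomial (Fin n) ℂ)
    (φ : MvPolynomial (Fin n ⊕ Fin m) ℂ ≃ₐ[ℂ] MvPolynomial (Fin n ⊕ Fin m) ℂ)
    (j : Fin n ⊕ Fin m) (h : φ (X j) = rename Sum.inl f) (a : Fin n → ℂ) :
    ∃ i, eval a (pderiv i f) ≠ 0 := by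
  classical
  obtain ⟨g, hg⟩ := exists_sum_mul_pderiv_eq_one φ j _ h
  by_contra hcon
  push Not at hcon
  have h1 := congrArg (eval (Sum.elim a (0 : Fin m → ℂ))) hg
  rw [map_sum, Fintype.sum_sum_type] at h1
  have hl : ∀ i : Fin n, eval (Sum.elim a (0 : Fin m → ℂ))
      (g (Sum.inl i) * pderiv (Sum.inl i) (rename Sum.inl f)) = 0 := by
    intro i
    rw [pderiv_rename Sum.inl_injective, map_mul, eval_rename]
    have : (Sum.elim a (0 : Fin m → ℂ)) ∘ Sum.inl = a := by
      funext x; simp
    rw [this, hcon i, mul_zero]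
  have hr : ∀ l : Fin m, eval (Sum.elim a (0 : Fin m → ℂ))
      (g (Sum.inr l) * pderiv (Sum.inr l) (rename Sum.inl f)) = 0 := by
    intro l
    have : pderiv (Sum.inr l) (rename (Sum.inl : Fin n → Fin n ⊕ Fin m) f) = 0 := by
      apply pderiv_eq_zero_of_notMem_vars
      intro hmem
      obtain ⟨i, -, hi⟩ := mem_vars_rename _ _ hmem
      exact Sum.inl_ne_inr hi
    rw [this, mul_zero, map_zero]
  simp [hl, hr] at h1

end Vale.Agent.H79
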