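import Mathlib
import Vale.Agent.H79.Coord

/-!
# Polynomials of total degree at most two without critical points are coordinates
-/

namespace Vale.Agent.H79

open MvPolynomial

section Quadratic

variable {σ : Type*} [Fintype σ] [DecidableEq σ]

/-- Second derivatives of a polynomial of total degree at most two are constants. -/
theorem pderiv_pderiv_eq_C (f : MvPolynomial σ ℂ) (hf : f.totalDegree ≤ 2) (i j : σ) :
    pderiv j (pderiv i f) = C (coeff 0 (pderiv j (pderiv i f))) := by
  ext m
  rw [coeff_C]
  split_ifs with h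
  · rw [h]
  · rw [coeff_pderiv, coeff_pderiv]
    have hm : 1 ≤ ∑ x ∈ m.support, m x := by
      have : m ≠ 0 := fun h0 => h h0.symm
      obtain ⟨x, hx⟩ : ∃ x, m x ≠ 0 := by
        by_contra hcon
        push Not at hcon
        exact this (Finsupp.ext hcon)
      have hxs : x ∈ m.support := Finsupp.mem_support_iff.mpr hx
      calc 1 ≤ m x := Nat.one_le_iff_ne_zero.mpr hx
        _ ≤ ∑ x ∈ m.support, m x := Finset.single_le_sum (f := fun x => m x)
            (fun _ _ => Nat.zero_le _) hxs
    have h3 : coeff (m + Finsupp.single j 1 + Finsupp.single i 1) f = 0 := by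
      apply coeff_eq_zero_of_totalDegree_lt
      set d : σ →₀ ℕ := m + Finsupp.single j 1 + Finsupp.single i 1 with hd
      have e1 : ∑ x ∈ d.support, d x = d.sum (fun _ e => e) := rfl
      have e2 : ∑ x ∈ m.support, m x = m.sum (fun _ e => e) := rfl
      rw [e1, hd, Finsupp.sum_add_index' (fun _ => rfl) (fun _ _ _ => rfl),
        Finsupp.sum_add_index' (fun _ => rfl) (fun _ _ _ => rfl),
        Finsupp.sum_single_index rfl, Finsupp.sum_single_index rfl]
      rw [e2] at hm
      omega
    rw [h3]
    simp

/-- In characteristic zero a polynomial all of whose first derivatives vanish is constant. -/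
theorem eq_C_of_pderiv_eq_zero (q : MvPolynomial σ ℂ) (h : ∀ i, pderiv i q = 0) :
    q = C (coeff 0 q) := by
  ext m
  rw [coeff_C]
  split_ifs with hm
  · rw [hm]
  · have hm0 : m ≠ 0 := fun h0 => hm h0.symm
    obtain ⟨i, hi⟩ : ∃ i, m i ≠ 0 := by
      by_contra hcon
      push Not at hcon
      exact hm0 (Finsupp.ext hcon)
    have h1 := congrArg (coeff (m - Finsupp.single i 1)) (h i)
    rw [coeff_pderiv] at h1
    have hm' : m - Finsupp.single i 1 + Finsupp.single i 1 = m := by
      ext x
      by_cases hx : x = i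
      · subst hx
        simp only [Finsupp.coe_add, Finsupp.coe_tsub, Pi.add_apply, Pi.sub_apply,
          Finsupp.single_eq_same]
        omega
      · simp [Ne.symm hx]
    rw [hm'] at h1
    simp only [coeff_zero, mul_eq_zero] at h1
    rcases h1 with h1 | h1
    · exact h1
    · exfalso
      exact Nat.cast_add_one_ne_zero _ h1

/-- A polynomial of total degree at most two without critical points has a constant nonzero
directional derivative. -/
theorem exists_direction (f : MvPolynomial σ ℂ) (hf : f.totalDegree ≤ 2)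
    (hcrit : ∀ a : σ → ℂ, ∃ i, eval a (pderiv i f) ≠ 0) :
    ∃ (v : σ → ℂ) (β : ℂ), β ≠ 0 ∧ ∑ i, C (v i) * pderiv i f = C β := by
  set h : σ → σ → ℂ := fun i j => coeff 0 (pderiv j (pderiv i f)) with hh
  set g : σ → ℂ := fun i => coeff 0 (pderiv i f) with hg
  have hgrad : ∀ i, pderiv i f = C (g i) + ∑ j, C (h i j) * X j := by
    intro i
    have hq : ∀ k, pderiv k (pderiv i f - ∑ j, C (h i j) * X j) = 0 := by
      intro k
      rw [map_sub, map_sum, pderiv_pderiv_eq_C f hf i k]
      simp only [Derivation.leibniz, pderiv_C, pderiv_X, smul_eq_mul, Pi.single_apply]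
      simp [hh]
    have h2 := eq_C_of_pderiv_eq_zero _ hq
    have h3 : coeff 0 (pderiv i f - ∑ j, C (h i j) * X j) = g i := by
      rw [coeff_sub, coeff_sum]
      have : ∀ j, coeff (0 : σ →₀ ℕ) (C (h i j) * X j) = 0 := by
        intro j
        rw [coeff_C_mul, coeff_zero_X, mul_zero]
      simp [this, hg]
    rw [h3] at h2
    rw [← h2]; ring
  have heval : ∀ (a : σ → ℂ) i, eval a (pderiv i f) = g i + ∑ j, h i j * a j := by
    intro a i
    rw [hgrad i]
    simp
  let H : (σ → ℂ) →ₗ[ℂ] (σ → ℂ) := Matrix.mulVecLin (Matrix.of h)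
  have hH : ∀ a i, H a i = ∑ j, h i j * a j := by
    intro a i
    simp [H, Matrix.mulVec, dotProduct]
  have hnot : (-g) ∉ LinearMap.range H := by
    rintro ⟨a, ha⟩
    obtain ⟨i, hi⟩ := hcrit a
    apply hi
    rw [heval a i, ← hH a i, ha]
    simp
  obtain ⟨lam, hlam, hker⟩ := Submodule.exists_le_ker_of_notMem hnot
  set v : σ → ℂ := fun i => lam (fun j => if i = j then 1 else 0) with hv
  have hlam' : ∀ x : σ → ℂ, lam x = ∑ i, x i * v i := by
    intro x
    rw [LinearMap.pi_apply_eq_sum_univ lam x]
    simp [hv]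
  have hD : ∀ k, pderiv k (∑ i, C (v i) * pderiv i f) = 0 := by
    intro k
    rw [map_sum]
    have : ∀ i, pderiv k (C (v i) * pderiv i f) = C (v i * h i k) := by
      intro i
      rw [pderiv_C_mul, pderiv_pderiv_eq_C f hf i k, ← C_mul]
    simp only [this]
    rw [← map_sum]
    have hz : lam (H (fun j => if k = j then 1 else 0)) = 0 := by
      have : H (fun j => if k = j then 1 else 0) ∈ LinearMap.ker lam :=
        hker (LinearMap.mem_range_self H _)
      simpa using this
    rw [hlam'] at hz
    have : ∑ i, v i * h i k = 0 := by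
      rw [← hz]
      apply Finset.sum_congr rfl
      intro i _
      rw [hH]
      simp [mul_comm]
    rw [this, map_zero]
  refine ⟨v, coeff 0 (∑ i, C (v i) * pderiv i f), ?_, eq_C_of_pderiv_eq_zero _ hD⟩
  have : coeff 0 (∑ i, C (v i) * pderiv i f) = lam g := by
    rw [hlam', coeff_sum]
    apply Finset.sum_congr rfl
    intro i _
    rw [coeff_C_mul, mul_comm]
  rw [this]
  intro h0
  apply hlam
  rw [map_neg, h0, neg_zero]

end Quadratic

section Shear

variable {σ : Type*} [Fintype σ] [DecidableEq σ]

/-- The shear map `X i ↦ X i + C (u i) * X k`. -/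
noncomputable def shear (u : σ → ℂ) (k : σ) : MvPolynomial σ ℂ →ₐ[ℂ] MvPolynomial σ ℂ :=
  aeval (fun i => X i + C (u i) * X k)

theorem shear_X (u : σ → ℂ) (k i : σ) : shear u k (X i) = X i + C (u i) * X k := by
  simp [shear]

theorem shear_C (u : σ → ℂ) (k : σ) (a : ℂ) : shear u k (C a) = C a := by
  simp [shear]

theorem shear_comp_shear (u : σ → ℂ) (k : σ) (hu : u k = 0) :
    (shear (-u) k).comp (shear u k) = AlgHom.id ℂ _ := by
  apply MvPolynomial.algHom_ext
  intro i
  simp only [AlgHom.coe_comp, Function.comp_apply, shear_X, map_add, map_mul, shear_C,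
    AlgHom.coe_id, id_eq, Pi.neg_apply, hu, neg_zero, map_zero, zero_mul, add_zero, map_neg]
  ring

/-- The shear map is an automorphism when `u k = 0`. -/
noncomputable def shearEquiv (u : σ → ℂ) (k : σ) (hu : u k = 0) :
    MvPolynomial σ ℂ ≃ₐ[ℂ] MvPolynomial σ ℂ :=
  AlgEquiv.ofAlgHom (shear u k) (shear (-u) k)
    (by
      have := shear_comp_shear (-u) k (by simp [hu])
      rwa [neg_neg] at this)
    (shear_comp_shear u k hu)

theorem shearEquiv_apply (u : σ → ℂ) (k : σ) (hu : u k = 0) (p : MvPolynomial σ ℂ) :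
    shearEquiv u k hu p = shear u k p := rfl

theorem pderiv_shear (u : σ → ℂ) (k : σ) (hu : u k = 0) (p : MvPolynomial σ ℂ) :
    pderiv k (shear u k p) = shear u k (pderiv k p + ∑ i, C (u i) * pderiv i p) := by
  induction p using MvPolynomial.induction_on with
  | C a => simp [shear_C]
  | add p q hp hq =>
    simp only [map_add, hp, hq, mul_add, Finset.sum_add_distrib]
    ring
  | mul_X p i h =>
    have h1 : ∑ l, C (u l) * pderiv l (p * X i)
        = (∑ l, C (u l) * pderiv l p) * X i + C (u i) * p := by
      have : ∀ l, C (u l) * pderiv l (p * X i)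
          = C (u l) * pderiv l p * X i + (if l = i then C (u l) * p else 0) := by
        intro l
        rw [Derivation.leibniz, pderiv_X]
        by_cases hl : l = i
        · subst hl
          simp only [smul_eq_mul, Pi.single_eq_same, if_true]
          ring
        · simp only [smul_eq_mul, Pi.single_apply, if_neg (Ne.symm hl), hl, if_false]
          ring
      simp only [this, Finset.sum_add_distrib, Finset.sum_ite_eq', Finset.mem_univ, if_true,
        Finset.sum_mul]
    have h2 : pderiv k (p * X i) = pderiv k p * X i + (if i = k then p else 0) := by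
      rw [Derivation.leibniz, pderiv_X]
      by_cases hl : i = k
      · subst hl
        simp only [smul_eq_mul, Pi.single_eq_same, if_true]
        ring
      · simp only [smul_eq_mul, Pi.single_apply, if_neg (Ne.symm hl), hl, if_false]
        ring
    rw [h1, h2, map_mul, Derivation.leibniz, h, shear_X]
    simp only [smul_eq_mul, map_add, Derivation.leibniz, pderiv_X, pderiv_C, Pi.single_apply,
      map_mul, shear_X, shear_C]
    by_cases hl : i = k
    · subst hl
      simp only [if_true, hu, map_zero, zero_mul, add_zero, smul_zero, mul_zero]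
      ring
    · simp only [if_neg hl, if_neg (Ne.symm hl), map_zero, add_zero, if_true]
      simp
      ring

/-- Setting the variable `k` to zero. -/
noncomputable def killVar (k : σ) : MvPolynomial σ ℂ →ₐ[ℂ] MvPolynomial σ ℂ :=
  aeval (fun i => if i = k then 0 else X i)

theorem killVar_X_self (k : σ) : killVar k (X k : MvPolynomial σ ℂ) = 0 := by
  simp [killVar]

theorem killVar_X_of_ne (k i : σ) (h : i ≠ k) : killVar k (X i : MvPolynomial σ ℂ) = X i := by
  simp [killVar, h]

theorem killVar_eq_self_of_pderiv_eq_zero (k : σ) (q : MvPolynomial σ ℂ)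
    (h : pderiv k q = 0) : killVar k q = q := by
  have hk : k ∉ q.vars := by
    intro hmem
    rw [mem_vars_iff_mem_support] at hmem
    obtain ⟨d, hd, hkd⟩ := hmem
    have h1 := congrArg (coeff (d - Finsupp.single k 1)) h
    rw [coeff_pderiv] at h1
    have hdk : d k ≠ 0 := Finsupp.mem_support_iff.mp hkd
    have hd' : d - Finsupp.single k 1 + Finsupp.single k 1 = d := by
      ext x
      by_cases hx : x = k
      · subst hx
        simp only [Finsupp.coe_add, Finsupp.coe_tsub, Pi.add_apply, Pi.sub_apply,
          Finsupp.single_eq_same]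
        omega
      · simp [Ne.symm hx]
    rw [hd'] at h1
    simp only [coeff_zero, mul_eq_zero] at h1
    rcases h1 with h1 | h1
    · exact (mem_support_iff.mp hd) h1
    · exact Nat.cast_add_one_ne_zero _ h1
  have := hom_congr_vars (f₁ := (killVar k : MvPolynomial σ ℂ →ₐ[ℂ] MvPolynomial σ ℂ).toRingHom)
    (f₂ := RingHom.id _) (p₁ := q) (p₂ := q)
    (by ext a; simp [killVar])
    (fun i hi _ => by
      have hik : i ≠ k := fun e => hk (e ▸ hi)
      simp [killVar, hik]) rfl
  simpa using this

theorem eq_of_pderiv_eq_C (k : σ) (p : MvPolynomial σ ℂ) (β : ℂ) (h : pderiv k p = C β) :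
    p = C β * X k + killVar k p := by
  have hq : pderiv k (p - C β * X k) = 0 := by
    rw [map_sub, h, pderiv_C_mul, pderiv_X_self, mul_one, sub_self]
  have h1 := killVar_eq_self_of_pderiv_eq_zero k _ hq
  rw [map_sub, map_mul, killVar_X_self, mul_zero, sub_zero] at h1
  rw [h1]; ring

/-- The elementary map `X k ↦ C β * X k + killVar k g`, fixing the other variables. -/
noncomputable def elemHom (k : σ) (β : ℂ) (g : MvPolynomial σ ℂ) :
    MvPolynomial σ ℂ →ₐ[ℂ] MvPolynomial σ ℂ :=
  aeval (fun i => if i = k then C β * X k + killVar k g else X i)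

theorem elemHom_X_self (k : σ) (β : ℂ) (g : MvPolynomial σ ℂ) :
    elemHom k β g (X k) = C β * X k + killVar k g := by
  simp [elemHom]

theorem elemHom_X_of_ne (k : σ) (β : ℂ) (g : MvPolynomial σ ℂ) (i : σ) (h : i ≠ k) :
    elemHom k β g (X i) = X i := by
  simp [elemHom, h]

theorem elemHom_C (k : σ) (β : ℂ) (g : MvPolynomial σ ℂ) (a : ℂ) :
    elemHom k β g (C a) = C a := by
  simp [elemHom]

theorem elemHom_killVar (k : σ) (β : ℂ) (g p : MvPolynomial σ ℂ) :
    elemHom k β g (killVar k p) = killVar k p := by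
  have : (elemHom k β g).comp (killVar k) = killVar k := by
    apply MvPolynomial.algHom_ext
    intro i
    by_cases hi : i = k
    · subst hi
      simp [killVar_X_self]
    · simp [killVar_X_of_ne k i hi, elemHom_X_of_ne k β g i hi]
  exact congrArg (fun F => F p) this

theorem elemHom_comp (k : σ) (β : ℂ) (hβ : β ≠ 0) (g : MvPolynomial σ ℂ) :
    (elemHom k β g).comp (elemHom k β⁻¹ (-(C β⁻¹) * g)) = AlgHom.id ℂ _ := by
  apply MvPolynomial.algHom_ext
  intro i
  by_cases hi : i = k
  · subst hi
    simp only [AlgHom.coe_comp, Function.comp_apply, elemHom_X_self, map_add, map_mul,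
      elemHom_C, elemHom_killVar, AlgHom.coe_id, id_eq, map_neg]
    have h1 : C β⁻¹ * C β = (1 : MvPolynomial σ ℂ) := by
      rw [← C_mul, inv_mul_cancel₀ hβ, C_1]
    have h2 : killVar i (C β⁻¹ : MvPolynomial σ ℂ) = C β⁻¹ := by simp [killVar]
    rw [h2]
    linear_combination (X i : MvPolynomial σ ℂ) * h1
  · simp [elemHom_X_of_ne _ _ _ i hi]

/-- The elementary map is an automorphism when `β ≠ 0`. -/
noncomputable def elemEquiv (k : σ) (β : ℂ) (hβ : β ≠ 0) (g : MvPolynomial σ ℂ) :
    MvPolynomial σ ℂ ≃ₐ[ℂ] MvPolynomial σ ℂ :=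
  AlgEquiv.ofAlgHom (elemHom k β g) (elemHom k β⁻¹ (-(C β⁻¹) * g))
    (elemHom_comp k β hβ g)
    (by
      have h := elemHom_comp k β⁻¹ (inv_ne_zero hβ) (-(C β⁻¹) * g)
      have e : -(C (β⁻¹)⁻¹ : MvPolynomial σ ℂ) * (-(C β⁻¹) * g) = g := by
        rw [inv_inv]
        have h1 : C β * C β⁻¹ = (1 : MvPolynomial σ ℂ) := by
          rw [← C_mul, mul_inv_cancel₀ hβ, C_1]
        linear_combination g * h1
      rwa [e, inv_inv] at h)

theorem elemEquiv_apply (k : σ) (β : ℂ) (hβ : β ≠ 0) (g p : MvPolynomial σ ℂ) :
    elemEquiv k β hβ g p = elemHom k β g p := rfl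

/-- A polynomial of total degree at most two without critical points is a coordinate. -/
theorem exists_equiv_of_totalDegree_le_two (f : MvPolynomial σ ℂ) (hf : f.totalDegree ≤ 2)
    (hcrit : ∀ a : σ → ℂ, ∃ i, eval a (pderiv i f) ≠ 0) :
    ∃ (ψ : MvPolynomial σ ℂ ≃ₐ[ℂ] MvPolynomial σ ℂ) (i : σ), ψ (X i) = f := by
  obtain ⟨v, β, hβ, hv⟩ := exists_direction f hf hcrit
  obtain ⟨k, hk⟩ : ∃ k, v k ≠ 0 := by
    by_contra hcon
    push Not at hcon
    apply hβ
    have : (C β : MvPolynomial σ ℂ) = 0 := by
      rw [← hv]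
      simp [hcon]
    simpa using this
  set u : σ → ℂ := fun i => if i = k then 0 else v i / v k with hu
  have huk : u k = 0 := by simp [hu]
  have hsum : pderiv k f + ∑ i, C (u i) * pderiv i f = C (β / v k) := by
    have h1 : ∑ i, C (v i / v k) * pderiv i f = pderiv k f + ∑ i, C (u i) * pderiv i f := by
      have : ∀ i, C (v i / v k) * pderiv i f
          = (if i = k then pderiv k f else 0) + C (u i) * pderiv i f := by
        intro i
        by_cases hi : i = k
        · subst hi
          simp [hu, div_self hk]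
        · simp [hu, hi]
      simp only [this, Finset.sum_add_distrib, Finset.sum_ite_eq', Finset.mem_univ, if_true]
    rw [← h1]
    have h2 : ∀ i, C (v i / v k) * pderiv i f = C (v k)⁻¹ * (C (v i) * pderiv i f) := by
      intro i
      rw [← mul_assoc, ← C_mul, inv_mul_eq_div]
    simp only [h2]
    rw [← Finset.mul_sum, hv, ← C_mul, inv_mul_eq_div]
  have hβ' : β / v k ≠ 0 := div_ne_zero hβ hk
  have h3 : pderiv k (shear u k f) = C (β / v k) := by
    rw [pderiv_shear u k huk, hsum, shear_C]
  have h4 := eq_of_pderiv_eq_C k (shear u k f) (β / v k) h3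
  refine ⟨(elemEquiv k (β / v k) hβ' (shear u k f)).trans (shearEquiv u k huk).symm, k, ?_⟩
  rw [AlgEquiv.trans_apply, elemEquiv_apply, elemHom_X_self, ← h4, ← shearEquiv_apply u k huk,
    AlgEquiv.symm_apply_apply]

end Shear

end Vale.Agent.H79
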