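import Mathlib
import Vale.Agent.H79.Quad

/-!
# Cancellation tools

* every `ℂ`-linear map on a polynomial ring satisfying the Leibniz rule is a combination of
  the coordinate derivations;
* `A ≃ A[X] / (X)`, and `ℂ[x_0, …, x_n] / (f) ≃ ℂ[x_1, …, x_n]` for a coordinate `f`.
-/

namespace Vale.Agent.H79

open MvPolynomial

/-- A `ℂ`-linear self-map of a polynomial ring satisfying the Leibniz rule is a combination
of the coordinate derivations. -/
theorem leibniz_formula {σ : Type*} [Fintype σ]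
    (D : MvPolynomial σ ℂ →ₗ[ℂ] MvPolynomial σ ℂ)
    (hD : ∀ a b, D (a * b) = a * D b + b * D a) (p : MvPolynomial σ ℂ) :
    D p = ∑ k, D (X k) * pderiv k p := by
  classical
  have h1 : D 1 = 0 := by
    have := hD 1 1
    simp only [mul_one, one_mul] at this
    have h2 : D 1 + D 1 = D 1 + 0 := by rw [add_zero]; exact this.symm
    exact add_left_cancel h2
  induction p using MvPolynomial.induction_on with
  | C a =>
    have : (C a : MvPolynomial σ ℂ) = a • (1 : MvPolynomial σ ℂ) := by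
      rw [smul_eq_C_mul, mul_one]
    rw [this, map_smul, h1]
    simp
  | add p q hp hq =>
    simp only [map_add, hp, hq, mul_add, Finset.sum_add_distrib]
  | mul_X p i h =>
    rw [hD, h]
    have : ∀ k, D (X k) * pderiv k (p * X i)
        = X i * (D (X k) * pderiv k p) + (if i = k then p * D (X k) else 0) := by
      intro k
      rw [Derivation.leibniz, pderiv_X]
      by_cases hk : i = k
      · subst hk
        simp only [smul_eq_mul, Pi.single_eq_same, if_true]
        ring
      · simp only [smul_eq_mul, Pi.single_apply, if_neg (Ne.symm hk), if_neg hk]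
        ring
    simp only [this, Finset.sum_add_distrib, Finset.sum_ite_eq, Finset.mem_univ, if_true,
      Finset.mul_sum]
    ring

/-- `B[X] / (X) ≃ B` as `ℂ`-algebras. -/
theorem nonempty_polyQuotX_equiv (B : Type*) [CommRing B] [Algebra ℂ B] :
    Nonempty ((Polynomial B ⧸ Ideal.span {(Polynomial.X : Polynomial B)}) ≃ₐ[ℂ] B) := by
  have h : Ideal.span {(Polynomial.X : Polynomial B)}
      = Ideal.span {(Polynomial.X : Polynomial B) - Polynomial.C 0} := by simp
  exact ⟨(Ideal.quotientEquivAlgOfEq ℂ h).trans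
    ((Polynomial.quotientSpanXSubCAlgEquiv (0 : B)).restrictScalars ℂ)⟩

/-- If `e : A[X] ≃ R`, then `A ≃ R / (e X)`. -/
theorem nonempty_equiv_quot_of_poly_equiv {A R : Type*} [CommRing A] [Algebra ℂ A] [CommRing R]
    [Algebra ℂ R] (e : Polynomial A ≃ₐ[ℂ] R) :
    Nonempty (A ≃ₐ[ℂ] (R ⧸ Ideal.span {e Polynomial.X})) := by
  obtain ⟨e1⟩ := nonempty_polyQuotX_equiv A
  have h : Ideal.span {e Polynomial.X}
      = (Ideal.span {(Polynomial.X : Polynomial A)}).map (e : Polynomial A →+* R) := by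
    rw [Ideal.map_span, Set.image_singleton]
    rfl
  exact ⟨e1.symm.trans (Ideal.quotientEquivAlg _ _ e h)⟩

/-- If an automorphism maps the variable `X i` to `f`, then `ℂ[x_0, …, x_n] / (f)` is a
polynomial ring in `n` variables. -/
theorem nonempty_quot_coord_equiv {n : ℕ}
    (ψ : MvPolynomial (Fin (n + 1)) ℂ ≃ₐ[ℂ] MvPolynomial (Fin (n + 1)) ℂ) (i : Fin (n + 1))
    (f : MvPolynomial (Fin (n + 1)) ℂ) (h : ψ (X i) = f) :
    Nonempty ((MvPolynomial (Fin (n + 1)) ℂ ⧸ Ideal.span {f}) ≃ₐ[ℂ] MvPolynomial (Fin n) ℂ) := by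
  obtain ⟨e1⟩ := nonempty_polyQuotX_equiv (MvPolynomial (Fin n) ℂ)
  let θ : MvPolynomial (Fin (n + 1)) ℂ ≃ₐ[ℂ] Polynomial (MvPolynomial (Fin n) ℂ) :=
    ψ.symm.trans ((renameEquiv ℂ (finSuccEquiv' i)).trans (optionEquivLeft ℂ (Fin n)))
  have hθ : θ f = Polynomial.X := by
    have h1 : ψ.symm f = X i := by rw [← h, AlgEquiv.symm_apply_apply]
    simp only [θ, AlgEquiv.trans_apply, h1, renameEquiv_apply, rename_X, finSuccEquiv'_at]
    exact optionEquivLeft_X_none ℂ (Fin n)
  have hI : Ideal.span {(Polynomial.X : Polynomial (MvPolynomial (Fin n) ℂ))}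
      = (Ideal.span {f}).map
        (θ : MvPolynomial (Fin (n + 1)) ℂ →+* Polynomial (MvPolynomial (Fin n) ℂ)) := by
    rw [Ideal.map_span, Set.image_singleton]
    congr 2
    exact hθ.symm
  exact ⟨(Ideal.quotientEquivAlg _ _ θ hI).trans e1⟩

/-- If `e : A[w] ≃ ℂ[x_0, …, x_n]`, then the gradient of `e w` has no zero. -/
theorem exists_pderiv_eval_ne_zero_of_poly_equiv {σ : Type*} [Fintype σ] {A : Type*} [CommRing A]
    [Algebra ℂ A] (e : Polynomial A ≃ₐ[ℂ] MvPolynomial σ ℂ) (a : σ → ℂ) :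
    ∃ i, eval a (pderiv i (e Polynomial.X)) ≠ 0 := by
  let D : MvPolynomial σ ℂ →ₗ[ℂ] MvPolynomial σ ℂ :=
    e.toLinearMap ∘ₗ ((Polynomial.derivative (R := A)).restrictScalars ℂ) ∘ₗ e.symm.toLinearMap
  have hD : ∀ x y, D (x * y) = x * D y + y * D x := by
    intro x y
    simp only [D, LinearMap.coe_comp, Function.comp_apply, AlgEquiv.toLinearMap_apply,
      LinearMap.coe_restrictScalars, map_mul, Polynomial.derivative_mul, map_add,
      AlgEquiv.apply_symm_apply]
    ring
  have h1 : D (e Polynomial.X) = 1 := by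
    simp [D]
  have h2 := leibniz_formula D hD (e Polynomial.X)
  rw [h1] at h2
  by_contra hcon
  push Not at hcon
  have h3 := congrArg (eval a) h2
  simp [hcon] at h3

/-- If some isomorphism `A[w] ≃ ℂ[x_0, …, x_n]` maps `w` to a polynomial of total degree at
most two, then `A` is a polynomial ring in `n` variables. -/
theorem nonempty_equiv_of_poly_equiv_of_totalDegree_le_two (n : ℕ) (A : Type*) [CommRing A]
    [Algebra ℂ A] (e : Polynomial A ≃ₐ[ℂ] MvPolynomial (Fin (n + 1)) ℂ)
    (hdeg : (e Polynomial.X).totalDegree ≤ 2) :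
    Nonempty (A ≃ₐ[ℂ] MvPolynomial (Fin n) ℂ) := by
  obtain ⟨ψ, i, hψ⟩ := exists_equiv_of_totalDegree_le_two (e Polynomial.X) hdeg
    (exists_pderiv_eval_ne_zero_of_poly_equiv e)
  obtain ⟨e1⟩ := nonempty_equiv_quot_of_poly_equiv e
  obtain ⟨e2⟩ := nonempty_quot_coord_equiv ψ i _ hψ
  exact ⟨e1.trans e2⟩

end Vale.Agent.H79
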