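import Mathlib

/-!
# Fixed points of automorphisms of prime power order of complex affine space

Every `ℂ`-algebra endomorphism `σ` of `ℂ[y_1, …, y_M]` with `σ^(p^k) = id` (`p` prime) has a
fixed point: a point `b ∈ ℂ^M` with `σ(y_j)(b) = b_j` for all `j`.  The proof follows
Serre's reduction to finite fields: spread the data out over a finitely generated subring
of `ℂ` in which `p` is invertible, specialise to a finite field of characteristic different
from `p`, and count points modulo `p`.
-/

namespace Vale.Agent.H79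

open MvPolynomial

section Jacobson

/-- The ring of integers is a Jacobson ring. -/
theorem int_isJacobsonRing : IsJacobsonRing ℤ := by
  rw [isJacobsonRing_iff_prime_eq]
  intro P hP
  by_cases h0 : P = ⊥
  · subst h0
    apply le_antisymm _ Ideal.le_jacobson
    intro x hx
    rw [Ideal.mem_bot]
    rw [Ideal.jacobson, Ideal.mem_sInf] at hx
    obtain ⟨p, hp1, hp2⟩ := Nat.exists_infinite_primes (x.natAbs + 1)
    have hprime : Prime (p : ℤ) := Nat.prime_iff_prime_int.mp hp2
    have hPr : (Ideal.span {(p : ℤ)}).IsPrime :=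
      (Ideal.span_singleton_prime hprime.ne_zero).mpr hprime
    have hmax : (Ideal.span {(p : ℤ)}).IsMaximal :=
      IsPrime.to_maximal_ideal (by simp [hp2.ne_zero])
    have hmem := hx ⟨bot_le, hmax⟩
    rw [Ideal.mem_span_singleton] at hmem
    by_contra hne
    have h1 : p ≤ x.natAbs := by
      have h2 : (p : ℤ).natAbs ∣ x.natAbs := Int.natAbs_dvd_natAbs.mpr hmem
      rw [Int.natAbs_natCast] at h2
      exact Nat.le_of_dvd (Int.natAbs_pos.mpr hne) h2
    omega
  · have := IsPrime.to_maximal_ideal (S := P) h0
    exact Ideal.jacobson_eq_self_of_isMaximal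

/-- A field which is finitely generated as a ring is finite. -/
theorem finite_of_field_finiteType (F : Type*) [Field F] [Algebra.FiniteType ℤ F] : Finite F := by
  have := int_isJacobsonRing
  have hfin : Module.Finite ℤ F := finite_of_finite_type_of_isJacobsonRing ℤ F
  obtain ⟨p, hp⟩ := CharP.exists F
  have hp0 : p ≠ 0 := by
    rintro rfl
    have : CharZero F := CharP.charP_to_charZero F
    have hinj : Function.Injective (algebraMap ℤ F) := (algebraMap ℤ F).injective_int
    exact Int.not_isField (isField_of_isIntegral_of_isField hinj (Field.toIsField F))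
  have : Fact p.Prime := ⟨(CharP.char_is_prime_or_zero F p).resolve_right hp0⟩
  let := ZMod.algebra F p
  have : Module.Finite (ZMod p) F := Module.Finite.of_restrictScalars_finite ℤ (ZMod p) F
  exact Module.finite_of_finite (ZMod p)

end Jacobson

section FixedPoint

variable {M : ℕ}

/-- Nullstellensatz step: without a fixed point, the equations of the fixed locus generate the
unit ideal. -/
theorem exists_combination_of_no_fixed_point (s : Fin M → MvPolynomial (Fin M) ℂ)
    (h : ∀ b : Fin M → ℂ, ∃ j, eval b (s j) ≠ b j) :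
    ∃ g : Fin M → MvPolynomial (Fin M) ℂ, ∑ j, g j * (s j - X j) = 1 := by
  let I : Ideal (MvPolynomial (Fin M) ℂ) := Ideal.span (Set.range fun j => s j - X j)
  have hz : zeroLocus ℂ I = ∅ := by
    ext x
    simp only [Set.mem_empty_iff_false, iff_false]
    intro hx
    obtain ⟨j, hj⟩ := h x
    apply hj
    have := hx (s j - X j) (Ideal.subset_span ⟨j, rfl⟩)
    simpa [sub_eq_zero] using this
  have hrad : I.radical = ⊤ := by
    rw [← vanishingIdeal_zeroLocus_eq_radical (K := ℂ) I, hz, vanishingIdeal_empty]
  have htop : I = ⊤ := Ideal.radical_eq_top.mp hrad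
  have h1 : (1 : MvPolynomial (Fin M) ℂ) ∈ I := by rw [htop]; trivial
  exact (Ideal.mem_span_range_iff_exists_fun).mp h1

/-- A finitely generated subring of `ℂ` containing `1/p` maps to a finite field in which `p`
is not zero. -/
theorem exists_finite_field_quotient (p : ℕ) (hp : p ≠ 0) (T : Finset ℂ)
    (hT : (p : ℂ)⁻¹ ∈ T) :
    ∃ (F : Type) (_ : Field F) (_ : Fintype F),
      Nonempty ((Algebra.adjoin ℤ (T : Set ℂ)) →+* F) ∧ (p : F) ≠ 0 := by
  let S : Subalgebra ℤ ℂ := Algebra.adjoin ℤ (T : Set ℂ)
  have hft : Algebra.FiniteType ℤ S := (Subalgebra.fg_iff_finiteType S).mp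
    (Subalgebra.fg_adjoin_finset T)
  obtain ⟨m, hm⟩ := Ideal.exists_maximal S
  let F := S ⧸ m
  let _ : Field F := Ideal.Quotient.field m
  have hftF : Algebra.FiniteType ℤ F :=
    Algebra.FiniteType.of_surjective (Ideal.Quotient.mkₐ ℤ m) (Ideal.Quotient.mkₐ_surjective ℤ m)
  have hfin : Finite F := @finite_of_field_finiteType F _ hftF
  let _ : Fintype F := Fintype.ofFinite F
  refine ⟨F, inferInstance, inferInstance, ⟨Ideal.Quotient.mk m⟩, ?_⟩
  intro h0
  let u : S := ⟨(p : ℂ)⁻¹, Algebra.subset_adjoin hT⟩
  have hu : u * (p : S) = 1 := by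
    apply Subtype.ext
    have h2 : ((p : S) : ℂ) = (p : ℂ) := SubringClass.coe_natCast S p
    rw [Subalgebra.coe_mul, h2, Subalgebra.coe_one]
    exact inv_mul_cancel₀ (Nat.cast_ne_zero.mpr hp)
  have h1 := congrArg (Ideal.Quotient.mk m) hu
  rw [map_mul, map_natCast, h0, mul_zero, map_one] at h1
  exact zero_ne_one h1

/-- **Fixed point theorem** (P. A. Smith; proof by reduction to finite fields after Serre).
A `ℂ`-algebra endomorphism `σ` of `ℂ[y_1, …, y_M]` whose `p^k`-th iterate is the identity
(`p` prime) has a fixed point in `ℂ^M`. -/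
theorem exists_fixed_point_of_iterate_eq (p k : ℕ) [hp : Fact p.Prime]
    (σ : MvPolynomial (Fin M) ℂ →ₐ[ℂ] MvPolynomial (Fin M) ℂ)
    (hσ : ∀ x, (σ^[p ^ k]) x = x) :
    ∃ b : Fin M → ℂ, ∀ j, eval b (σ (X j)) = b j := by
  classical
  by_contra hcon
  push Not at hcon
  obtain ⟨g, hg⟩ := exists_combination_of_no_fixed_point (fun j => σ (X j)) hcon
  let T : Finset ℂ := (Finset.univ.biUnion fun j : Fin M => (σ (X j)).coeffs) ∪
    (Finset.univ.biUnion fun j : Fin M => (g j).coeffs) ∪ {(p : ℂ)⁻¹}
  have hpT : (p : ℂ)⁻¹ ∈ T := by simp [T]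
  obtain ⟨F, _, _, ⟨π⟩, hpF⟩ := exists_finite_field_quotient p hp.out.ne_zero T hpT
  let S : Subalgebra ℤ ℂ := Algebra.adjoin ℤ (T : Set ℂ)
  let f : S →+* ℂ := (S.val : S →+* ℂ)
  have hf : Function.Injective f := Subtype.val_injective
  have hmem : ∀ c ∈ T, c ∈ Set.range f := fun c hc => ⟨⟨c, Algebra.subset_adjoin hc⟩, rfl⟩
  have hsr : ∀ j, σ (X j) ∈ Set.range (MvPolynomial.map f) := by
    intro j
    rw [mem_range_map_iff_coeffs_subset]
    intro c hc
    apply hmem
    simp only [T, Finset.mem_union, Finset.mem_biUnion, Finset.mem_univ, true_and,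
      Finset.mem_singleton]
    exact Or.inl (Or.inl ⟨j, hc⟩)
  have hgr : ∀ j, g j ∈ Set.range (MvPolynomial.map f) := by
    intro j
    rw [mem_range_map_iff_coeffs_subset]
    intro c hc
    apply hmem
    simp only [T, Finset.mem_union, Finset.mem_biUnion, Finset.mem_univ, true_and,
      Finset.mem_singleton]
    exact Or.inl (Or.inr ⟨j, hc⟩)
  choose s' hs' using hsr
  choose g' hg' using hgr
  -- the relation over `S`
  have hI2 : ∑ j, g' j * (s' j - X j) = 1 := by
    apply map_injective f hf
    simp only [map_sum, map_mul, map_sub, hs', hg', map_X, map_one]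
    exact hg
  -- the endomorphism over `S`
  let σS : MvPolynomial (Fin M) S →ₐ[S] MvPolynomial (Fin M) S := aeval s'
  have hσS : ∀ q, MvPolynomial.map f (σS q) = σ (MvPolynomial.map f q) := by
    have h1 : (MvPolynomial.map f).comp
          (σS : MvPolynomial (Fin M) S →+* MvPolynomial (Fin M) S)
        = (σ : MvPolynomial (Fin M) ℂ →+* MvPolynomial (Fin M) ℂ).comp (MvPolynomial.map f) := by
      apply MvPolynomial.ringHom_ext
      · intro c
        have : σ (C (f c)) = C (f c) := by
          have := σ.commutes (f c)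
          simpa [MvPolynomial.algebraMap_eq] using this
        simp [σS, this]
      · intro j
        simp [σS, hs']
    intro q
    exact RingHom.congr_fun h1 q
  have hσSn : ∀ (n : ℕ) q, MvPolynomial.map f (σS^[n] q) = σ^[n] (MvPolynomial.map f q) := by
    intro n
    induction n with
    | zero => intro q; rfl
    | succ n ih =>
      intro q
      rw [Function.iterate_succ_apply, Function.iterate_succ_apply, ih, hσS]
  have hI1 : ∀ j, σS^[p ^ k] (X j) = X j := by
    intro j
    apply map_injective f hf
    rw [hσSn, map_X, hσ]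
  -- specialise to the finite field `F`
  let sF : Fin M → MvPolynomial (Fin M) F := fun j => MvPolynomial.map π (s' j)
  let σF : MvPolynomial (Fin M) F →ₐ[F] MvPolynomial (Fin M) F := aeval sF
  have hσF : ∀ q, MvPolynomial.map π (σS q) = σF (MvPolynomial.map π q) := by
    have h1 : (MvPolynomial.map π).comp
          (σS : MvPolynomial (Fin M) S →+* MvPolynomial (Fin M) S)
        = (σF : MvPolynomial (Fin M) F →+* MvPolynomial (Fin M) F).comp (MvPolynomial.map π) := by
      apply MvPolynomial.ringHom_ext
      · intro c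
        simp [σS, σF]
      · intro j
        simp [σS, σF, sF]
    intro q
    exact RingHom.congr_fun h1 q
  have hσFn : ∀ (n : ℕ) q, MvPolynomial.map π (σS^[n] q) = σF^[n] (MvPolynomial.map π q) := by
    intro n
    induction n with
    | zero => intro q; rfl
    | succ n ih =>
      intro q
      rw [Function.iterate_succ_apply, Function.iterate_succ_apply, ih, hσF]
  have hF1 : ∀ j, σF^[p ^ k] (X j) = X j := by
    intro j
    have h1 := hσFn (p ^ k) (X j)
    rw [hI1, map_X] at h1
    exact h1.symm
  -- the induced self-map of `F^M`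
  let Tm : (Fin M → F) → (Fin M → F) := fun b j => eval b (sF j)
  have hT1 : ∀ (b : Fin M → F) q, eval b (σF q) = eval (Tm b) q := by
    intro b
    have h1 : (eval b).comp (σF : MvPolynomial (Fin M) F →+* MvPolynomial (Fin M) F)
        = eval (Tm b) := by
      apply MvPolynomial.ringHom_ext
      · intro c
        simp [σF]
      · intro j
        simp [σF, Tm]
    intro q
    exact RingHom.congr_fun h1 q
  have hTn : ∀ (n : ℕ) (b : Fin M → F) q, eval b (σF^[n] q) = eval (Tm^[n] b) q := by
    intro n
    induction n with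
    | zero => intro b q; rfl
    | succ n ih =>
      intro b q
      rw [Function.iterate_succ_apply, ih, hT1, Function.iterate_succ_apply']
  have hTper : ∀ b, Tm^[p ^ k] b = b := by
    intro b
    funext j
    have h1 := hTn (p ^ k) b (X j)
    rw [hF1] at h1
    simp at h1
    exact h1.symm
  have hpk : p ^ k - 1 + 1 = p ^ k := Nat.sub_add_cancel (Nat.one_le_pow k p hp.out.pos)
  let perm : Equiv.Perm (Fin M → F) :=
    ⟨Tm, Tm^[p ^ k - 1], fun b => by
      have h1 : Tm^[p ^ k - 1] (Tm b) = Tm^[p ^ k - 1 + 1] b :=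
        (Function.iterate_succ_apply Tm (p ^ k - 1) b).symm
      rw [h1, hpk]
      exact hTper b, fun b => by
      have h1 : Tm (Tm^[p ^ k - 1] b) = Tm^[p ^ k - 1 + 1] b :=
        (Function.iterate_succ_apply' Tm (p ^ k - 1) b).symm
      rw [h1, hpk]
      exact hTper b⟩
  have hperm : perm ^ p ^ k = 1 := by
    ext b : 1
    rw [← Equiv.Perm.iterate_eq_pow]
    exact hTper b
  have hcard : ¬p ∣ Fintype.card (Fin M → F) := by
    intro hdvd
    rw [Fintype.card_fun] at hdvd
    have h1 : p ∣ Fintype.card F := hp.out.dvd_of_dvd_pow hdvd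
    obtain ⟨l, hl⟩ := CharP.exists F
    obtain ⟨n, hlprime, hcardF⟩ := FiniteField.card F l
    rw [hcardF] at h1
    have h2 : p ∣ l := hp.out.dvd_of_dvd_pow h1
    have h3 : p = l := (Nat.prime_dvd_prime_iff_eq hp.out hlprime).mp h2
    apply hpF
    rw [h3]
    exact CharP.cast_eq_zero F l
  obtain ⟨b, hb⟩ := Equiv.Perm.exists_fixed_point_of_prime hcard hperm
  have hb' : ∀ j, eval b (MvPolynomial.map π (s' j)) = b j := fun j => congrFun hb j
  have h3 := congrArg (fun q => eval b (MvPolynomial.map π q)) hI2
  simp only [map_sum, map_mul, map_sub, map_X, map_one, eval_X, hb', sub_self, mul_zero,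
    Finset.sum_const_zero] at h3
  exact zero_ne_one h3

/-- Involutions of complex affine space have fixed points. -/
theorem exists_fixed_point_of_involution
    (σ : MvPolynomial (Fin M) ℂ →ₐ[ℂ] MvPolynomial (Fin M) ℂ)
    (hσ : ∀ x, σ (σ x) = x) :
    ∃ b : Fin M → ℂ, ∀ j, eval b (σ (X j)) = b j := by
  have : Fact (Nat.Prime 2) := ⟨Nat.prime_two⟩
  exact exists_fixed_point_of_iterate_eq 2 1 σ (fun x => by simpa using hσ x)

end FixedPoint

end Vale.Agent.H79
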