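import Mathlib
import Vale.Agent.H79.Cancel

/-!
# Tangent space arguments for polynomial rings

* the chain rule for algebra maps between polynomial rings;
* a surjection `ℂ[x_σ] → ℂ[y_τ]` whose kernel is generated by a polynomial `g` with a critical
  zero forces `card σ = card τ` (comparison of Zariski tangent spaces via Jacobian matrices);
* surjective endomorphisms of Noetherian rings are injective;
* invariance of the number of variables of polynomial rings.
-/

namespace Vale.Agent.H79

open MvPolynomial

section ChainRule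

variable {σ τ : Type*} [Fintype τ]

/-- The chain rule for an algebra map between polynomial rings. -/
theorem pderiv_algHom (θ : MvPolynomial τ ℂ →ₐ[ℂ] MvPolynomial σ ℂ) (k : σ)
    (p : MvPolynomial τ ℂ) :
    pderiv k (θ p) = ∑ j, θ (pderiv j p) * pderiv k (θ (X j)) := by
  classical
  induction p using MvPolynomial.induction_on with
  | C a =>
    have : θ (C a) = C a := by
      have := θ.commutes a
      simpa [MvPolynomial.algebraMap_eq] using this
    simp [this]
  | add p q hp hq =>
    simp only [map_add, hp, hq, add_mul, Finset.sum_add_distrib]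
  | mul_X p i h =>
    rw [map_mul, Derivation.leibniz, h]
    have : ∀ j, θ (pderiv j (p * X i)) * pderiv k (θ (X j))
        = θ (X i) * (θ (pderiv j p) * pderiv k (θ (X j)))
          + (if i = j then θ p * pderiv k (θ (X j)) else 0) := by
      intro j
      rw [Derivation.leibniz, pderiv_X]
      by_cases hj : i = j
      · subst hj
        simp only [smul_eq_mul, Pi.single_eq_same, if_true, map_add, map_mul, mul_one]
        ring
      · simp only [smul_eq_mul, Pi.single_apply, if_neg (Ne.symm hj), if_neg hj, map_add, map_mul,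
          mul_zero, map_zero, zero_add, add_zero]
        ring
    simp only [this, Finset.sum_add_distrib, Finset.sum_ite_eq, Finset.mem_univ, if_true,
      smul_eq_mul, Finset.mul_sum]
    ring

end ChainRule

section Rank

/-- Mutually inverse rectangular matrices are square. -/
theorem card_eq_of_mul_eq_one {σ τ : Type*} [Fintype σ] [Fintype τ] [DecidableEq σ]
    [DecidableEq τ] (J : Matrix τ σ ℂ) (J' : Matrix σ τ ℂ) (h1 : J * J' = 1) (h2 : J' * J = 1) :
    Fintype.card σ = Fintype.card τ := by
  apply le_antisymm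
  · calc Fintype.card σ = (1 : Matrix σ σ ℂ).rank := (Matrix.rank_one).symm
      _ = (J' * J).rank := by rw [h2]
      _ ≤ J.rank := Matrix.rank_mul_le_right _ _
      _ ≤ Fintype.card τ := Matrix.rank_le_card_height _
  · calc Fintype.card τ = (1 : Matrix τ τ ℂ).rank := (Matrix.rank_one).symm
      _ = (J * J').rank := by rw [h1]
      _ ≤ J'.rank := Matrix.rank_mul_le_right _ _
      _ ≤ Fintype.card σ := Matrix.rank_le_card_height _

end Rank

section Tangent

variable {σ τ : Type*} [Fintype σ] [Fintype τ] [DecidableEq σ] [DecidableEq τ]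

/-- If `ρ : ℂ[x_σ] → ℂ[y_τ]` is surjective with kernel generated by a polynomial `g` which
vanishes to second order at a point `a`, then `σ` and `τ` have the same cardinality. -/
theorem card_eq_of_surjective_of_critical
    (ρ : MvPolynomial σ ℂ →ₐ[ℂ] MvPolynomial τ ℂ) (hρ : Function.Surjective ρ)
    (g : MvPolynomial σ ℂ) (hker : ∀ x, ρ x = 0 → g ∣ x)
    (a : σ → ℂ) (hg : eval a g = 0) (hdg : ∀ k, eval a (pderiv k g) = 0) :
    Fintype.card σ = Fintype.card τ := by
  choose s hs using fun j : τ => hρ (X j)
  let sec : MvPolynomial τ ℂ →ₐ[ℂ] MvPolynomial σ ℂ := aeval s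
  have hsec : ∀ j, sec (X j) = s j := fun j => by simp [sec]
  have hρsec : ∀ p, ρ (sec p) = p := by
    have : ρ.comp sec = AlgHom.id ℂ _ := by
      apply MvPolynomial.algHom_ext
      intro j
      simp [hsec, hs]
    intro p
    exact congrArg (fun F : MvPolynomial τ ℂ →ₐ[ℂ] MvPolynomial τ ℂ => F p) this
  let b : τ → ℂ := fun j => eval a (s j)
  -- evaluation at `b` is evaluation at `a` after the section
  have hb : ∀ p : MvPolynomial τ ℂ, eval a (sec p) = eval b p := by
    have : ((aeval a : MvPolynomial σ ℂ →ₐ[ℂ] ℂ).comp sec) = aeval b := by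
      apply MvPolynomial.algHom_ext
      intro j
      simp [hsec, b]
    intro p
    have h := congrArg (fun F : MvPolynomial τ ℂ →ₐ[ℂ] ℂ => F p) this
    simpa [coe_aeval_eq_eval] using h
  -- the kernel of `ρ` vanishes at `a`
  have hkera : ∀ x, ρ x = 0 → eval a x = 0 := by
    intro x hx
    obtain ⟨y, rfl⟩ := hker x hx
    rw [map_mul, hg, zero_mul]
  have hkerd : ∀ x, ρ x = 0 → ∀ k, eval a (pderiv k x) = 0 := by
    intro x hx k
    obtain ⟨y, rfl⟩ := hker x hx
    rw [Derivation.leibniz]
    simp [hg, hdg k]
  have ha : ∀ x : MvPolynomial σ ℂ, eval b (ρ x) = eval a x := by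
    intro x
    rw [← hb]
    have : ρ (sec (ρ x) - x) = 0 := by rw [map_sub, hρsec, sub_self]
    have := hkera _ this
    rw [map_sub, sub_eq_zero] at this
    exact this
  let J : Matrix τ σ ℂ := fun j k => eval a (pderiv k (s j))
  let J' : Matrix σ τ ℂ := fun k j => eval b (pderiv j (ρ (X k)))
  apply card_eq_of_mul_eq_one J J'
  · ext j j'
    have h1 := pderiv_algHom ρ j' (s j)
    rw [hs j, pderiv_X] at h1
    have h2 := congrArg (eval b) h1
    rw [map_sum] at h2
    simp only [map_mul, ha] at h2
    rw [Matrix.mul_apply, Matrix.one_apply]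
    simp only [J, J']
    rw [← h2]
    simp [Pi.single_apply, eq_comm]
  · ext k k'
    have h0 : ρ (sec (ρ (X k)) - X k) = 0 := by rw [map_sub, hρsec, sub_self]
    have h1 := hkerd _ h0 k'
    rw [map_sub, map_sub, pderiv_X, pderiv_algHom sec k' (ρ (X k)), map_sum] at h1
    simp only [map_mul, hb, hsec] at h1
    rw [Matrix.mul_apply, Matrix.one_apply]
    simp only [J, J']
    rw [sub_eq_zero] at h1
    rw [h1]
    simp [Pi.single_apply, eq_comm]

/-- A surjection `ℂ[x_σ] → ℂ[y_τ]` forces `card τ ≤ card σ`. -/
theorem card_le_of_surjective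
    (ρ : MvPolynomial σ ℂ →ₐ[ℂ] MvPolynomial τ ℂ) (hρ : Function.Surjective ρ) :
    Fintype.card τ ≤ Fintype.card σ := by
  choose s hs using fun j : τ => hρ (X j)
  let b : τ → ℂ := fun _ => 0
  let a : σ → ℂ := fun k => eval b (ρ (X k))
  have ha : ∀ x : MvPolynomial σ ℂ, eval b (ρ x) = eval a x := by
    have : ((aeval b : MvPolynomial τ ℂ →ₐ[ℂ] ℂ).comp ρ) = aeval a := by
      apply MvPolynomial.algHom_ext
      intro k
      simp [a, coe_aeval_eq_eval]
    intro x
    have h := congrArg (fun F : MvPolynomial σ ℂ →ₐ[ℂ] ℂ => F x) this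
    simpa [coe_aeval_eq_eval] using h
  let J : Matrix τ σ ℂ := fun j k => eval a (pderiv k (s j))
  let J' : Matrix σ τ ℂ := fun k j => eval b (pderiv j (ρ (X k)))
  have h1 : J * J' = 1 := by
    ext j j'
    have h1 := pderiv_algHom ρ j' (s j)
    rw [hs j, pderiv_X] at h1
    have h2 := congrArg (eval b) h1
    rw [map_sum] at h2
    simp only [map_mul, ha] at h2
    rw [Matrix.mul_apply, Matrix.one_apply]
    simp only [J, J']
    rw [← h2]
    simp [Pi.single_apply]
  calc Fintype.card τ = (1 : Matrix τ τ ℂ).rank := (Matrix.rank_one).symm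
    _ = (J * J').rank := by rw [h1]
    _ ≤ J'.rank := Matrix.rank_mul_le_right _ _
    _ ≤ Fintype.card σ := Matrix.rank_le_card_height _

end Tangent

section Noetherian

/-- A surjective endomorphism of a Noetherian ring is injective. -/
theorem injective_of_surjective_endo {R : Type*} [CommRing R] [IsNoetherianRing R]
    (f : R →+* R) (hf : Function.Surjective f) : Function.Injective f := by
  let K : ℕ →o Ideal R :=
    ⟨fun n => RingHom.ker (f ^ n), by
      intro m n hmn x hx
      obtain ⟨d, rfl⟩ := Nat.exists_eq_add_of_le hmn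
      rw [RingHom.mem_ker] at hx ⊢
      rw [add_comm, pow_add, RingHom.mul_def, RingHom.comp_apply, hx, map_zero]⟩
  obtain ⟨n, hn⟩ := monotone_stabilizes_iff_noetherian.mpr inferInstance K
  have hsurj : ∀ m : ℕ, Function.Surjective (f ^ m) := by
    intro m
    induction m with
    | zero => exact fun x => ⟨x, rfl⟩
    | succ m ih =>
      intro x
      obtain ⟨y, rfl⟩ := hf x
      obtain ⟨z, rfl⟩ := ih y
      exact ⟨z, by rw [pow_succ', RingHom.mul_def, RingHom.comp_apply]⟩
  rw [injective_iff_map_eq_zero]
  intro x hx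
  obtain ⟨y, rfl⟩ := hsurj n x
  have h1 : y ∈ K (n + 1) := by
    change y ∈ RingHom.ker (f ^ (n + 1))
    rw [RingHom.mem_ker, pow_succ', RingHom.mul_def, RingHom.comp_apply]
    exact hx
  rw [← hn (n + 1) (Nat.le_succ n)] at h1
  exact h1

end Noetherian

section Dimension

/-- If `ρ : ℂ[x_1..x_K] → ℂ[y_1..y_M]` is surjective with kernel generated by a polynomial `g`
which vanishes to second order at some point, then `K = M` and `g = 0`. -/
theorem eq_zero_of_surjective_of_critical {K M : ℕ}
    (ρ : MvPolynomial (Fin K) ℂ →ₐ[ℂ] MvPolynomial (Fin M) ℂ) (hρ : Function.Surjective ρ)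
    (g : MvPolynomial (Fin K) ℂ) (hg0 : ρ g = 0) (hker : ∀ x, ρ x = 0 → g ∣ x)
    (a : Fin K → ℂ) (hg : eval a g = 0) (hdg : ∀ k, eval a (pderiv k g) = 0) :
    K = M ∧ g = 0 := by
  have hcard := card_eq_of_surjective_of_critical ρ hρ g hker a hg hdg
  simp only [Fintype.card_fin] at hcard
  subst hcard
  refine ⟨rfl, ?_⟩
  have hinj := injective_of_surjective_endo (ρ : MvPolynomial (Fin K) ℂ →+* MvPolynomial (Fin K) ℂ) hρ
  apply hinj
  rw [map_zero]
  exact hg0

/-- Polynomial rings in different numbers of variables are not isomorphic. -/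
theorem eq_of_mvPolynomial_equiv {K M : ℕ}
    (e : MvPolynomial (Fin K) ℂ ≃ₐ[ℂ] MvPolynomial (Fin M) ℂ) : K = M := by
  have h := card_eq_of_surjective_of_critical (e : MvPolynomial (Fin K) ℂ →ₐ[ℂ] MvPolynomial (Fin M) ℂ)
    e.surjective 0 (fun x hx => by
      have : x = 0 := by
        apply e.injective
        rw [map_zero]
        exact hx
      rw [this]) (fun _ => 0) (by simp) (by simp)
  simpa using h

end Dimension

end Vale.Agent.H79
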