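import Mathlib
import Vale.Agent.H79.Cancel
import Vale.Agent.H79.Tangent
import Vale.Agent.H79.Serre

/-!
# Zariski cancellation for affine quadric hypersurfaces

If `q ∈ ℂ[x_1, …, x_N]` has total degree at most two and `(ℂ[x]/(q))[w] ≃ ℂ^[n+1]`, then
`ℂ[x]/(q) ≃ ℂ^[n]`.

Three cases: `q` has no critical point (then `q` is a coordinate); `q` has a critical point on
`q = 0` (tangent space argument: forces `q = 0`); `q` has a critical point off `q = 0` (then the
reflection through that point is a fixed point free involution, contradicting the fixed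
point theorem for involutions of affine space).
-/

namespace Vale.Agent.H79

open MvPolynomial

section Reflection

variable {σ : Type*} [Fintype σ] [DecidableEq σ]

/-- First derivatives of a polynomial of total degree at most two are affine. -/
theorem pderiv_eq_affine (f : MvPolynomial σ ℂ) (hf : f.totalDegree ≤ 2) (i : σ) :
    pderiv i f = C (coeff 0 (pderiv i f))
      + ∑ j, C (coeff 0 (pderiv j (pderiv i f))) * X j := by
  have hq : ∀ k, pderiv k (pderiv i f
      - ∑ j, C (coeff 0 (pderiv j (pderiv i f))) * X j) = 0 := by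
    intro k
    rw [map_sub, map_sum]
    conv_lhs => rw [pderiv_pderiv_eq_C f hf i k]
    simp only [Derivation.leibniz, pderiv_C, pderiv_X, smul_eq_mul, Pi.single_apply]
    simp
  have h2 := eq_C_of_pderiv_eq_zero _ hq
  have h3 : coeff 0 (pderiv i f - ∑ j, C (coeff 0 (pderiv j (pderiv i f))) * X j)
      = coeff 0 (pderiv i f) := by
    rw [coeff_sub, coeff_sum]
    have : ∀ j, coeff (0 : σ →₀ ℕ) (C (coeff 0 (pderiv j (pderiv i f))) * X j) = 0 := by
      intro j
      rw [coeff_C_mul, coeff_zero_X, mul_zero]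
    simp [this]
  rw [h3] at h2
  rw [← h2]; ring

/-- The point reflection `x ↦ 2a - x`. -/
noncomputable def reflect (a : σ → ℂ) : MvPolynomial σ ℂ →ₐ[ℂ] MvPolynomial σ ℂ :=
  aeval (fun i => C (2 * a i) - X i)

theorem reflect_X (a : σ → ℂ) (i : σ) : reflect a (X i) = C (2 * a i) - X i := by
  simp [reflect]

theorem reflect_C (a : σ → ℂ) (c : ℂ) : reflect a (C c) = C c := by
  simp [reflect]

theorem reflect_reflect (a : σ → ℂ) (x : MvPolynomial σ ℂ) : reflect a (reflect a x) = x := by
  have : (reflect a).comp (reflect a) = AlgHom.id ℂ _ := by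
    apply MvPolynomial.algHom_ext
    intro i
    simp [reflect_X]
  exact congrArg (fun F : MvPolynomial σ ℂ →ₐ[ℂ] MvPolynomial σ ℂ => F x) this

theorem eval_reflect (a : σ → ℂ) (x : MvPolynomial σ ℂ) : eval a (reflect a x) = eval a x := by
  have : (aeval a : MvPolynomial σ ℂ →ₐ[ℂ] ℂ).comp (reflect a) = aeval a := by
    apply MvPolynomial.algHom_ext
    intro i
    simp [reflect_X]
    ring
  have h := congrArg (fun F : MvPolynomial σ ℂ →ₐ[ℂ] ℂ => F x) this
  simpa [coe_aeval_eq_eval] using h

/-- A polynomial of total degree at most two is invariant under the point reflection through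
any of its critical points. -/
theorem reflect_eq_self_of_critical (q : MvPolynomial σ ℂ) (hq : q.totalDegree ≤ 2)
    (a : σ → ℂ) (ha : ∀ i, eval a (pderiv i q) = 0) : reflect a q = q := by
  have hd : ∀ k, pderiv k (reflect a q - q) = 0 := by
    intro k
    rw [map_sub, pderiv_algHom (reflect a) k q]
    have h1 : ∀ j, reflect a (pderiv j q) * pderiv k (reflect a (X j))
        = if j = k then -reflect a (pderiv k q) else 0 := by
      intro j
      rw [reflect_X, map_sub, pderiv_C, pderiv_X]
      by_cases hj : j = k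
      · subst hj
        simp
      · simp [hj]
    simp only [h1, Finset.sum_ite_eq', Finset.mem_univ, if_true]
    -- now use that the derivative is affine and vanishes at `a`
    have h2 := pderiv_eq_affine q hq k
    have h3 := ha k
    rw [h2] at h3
    simp only [map_add, eval_C, map_sum, map_mul, eval_X] at h3
    have h4 : reflect a (pderiv k q) = -pderiv k q := by
      conv_lhs => rw [h2]
      conv_rhs => rw [h2]
      simp only [map_add, reflect_C, map_sum, map_mul, reflect_X]
      have hC2 : (C (2 : ℂ) : MvPolynomial σ ℂ) = 2 := map_ofNat C 2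
      have h5 : ∑ j, C (coeff 0 (pderiv j (pderiv k q))) * (C 2 * C (a j) - X j)
          = 2 * C (∑ j, coeff 0 (pderiv j (pderiv k q)) * a j)
            - ∑ j, C (coeff 0 (pderiv j (pderiv k q))) * X j := by
        rw [map_sum, Finset.mul_sum, ← Finset.sum_sub_distrib]
        apply Finset.sum_congr rfl
        intro j _
        rw [C_mul, hC2]
        ring
      rw [h5]
      have h6 : ∑ j, coeff 0 (pderiv j (pderiv k q)) * a j = -coeff 0 (pderiv k q) := by
        linear_combination h3
      rw [h6]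
      simp only [C_neg]
      ring
    rw [h4]
    ring
  have h1 := eq_C_of_pderiv_eq_zero _ hd
  have h2 : eval a (reflect a q - q) = 0 := by
    rw [map_sub, eval_reflect, sub_self]
  rw [h1, eval_C] at h2
  rw [h2, C_0, sub_eq_zero] at h1
  exact h1

end Reflection

section Main

/-- The surjection `ℂ[x_0, …, x_N] → (ℂ[x_1, …, x_N]/(q))[w]`. -/
noncomputable def quotPolyHom {N : ℕ} (q : MvPolynomial (Fin N) ℂ) :
    MvPolynomial (Fin (N + 1)) ℂ →ₐ[ℂ] Polynomial (MvPolynomial (Fin N) ℂ ⧸ Ideal.span {q}) :=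
  (Polynomial.mapAlgHom (Ideal.Quotient.mkₐ ℂ (Ideal.span {q}))).comp
    (finSuccEquiv ℂ N : MvPolynomial (Fin (N + 1)) ℂ →ₐ[ℂ] Polynomial (MvPolynomial (Fin N) ℂ))

theorem finSuccEquiv_rename_succ {N : ℕ} (q : MvPolynomial (Fin N) ℂ) :
    finSuccEquiv ℂ N (rename Fin.succ q) = Polynomial.C q := by
  have : ((finSuccEquiv ℂ N : MvPolynomial (Fin (N + 1)) ℂ →ₐ[ℂ]
        Polynomial (MvPolynomial (Fin N) ℂ)).comp (rename Fin.succ))
      = (Polynomial.CAlgHom : MvPolynomial (Fin N) ℂ →ₐ[ℂ] Polynomial (MvPolynomial (Fin N) ℂ)) := by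
    apply MvPolynomial.algHom_ext
    intro i
    simp [finSuccEquiv_X_succ]
  exact congrArg (fun F : MvPolynomial (Fin N) ℂ →ₐ[ℂ] Polynomial (MvPolynomial (Fin N) ℂ) =>
    F q) this

theorem quotPolyHom_surjective {N : ℕ} (q : MvPolynomial (Fin N) ℂ) :
    Function.Surjective (quotPolyHom q) := by
  intro y
  obtain ⟨z, rfl⟩ := Polynomial.map_surjective _
    (Ideal.Quotient.mk_surjective (I := Ideal.span {q})) y
  refine ⟨(finSuccEquiv ℂ N).symm z, ?_⟩
  have h1 : quotPolyHom q ((finSuccEquiv ℂ N).symm z)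
      = Polynomial.map (Ideal.Quotient.mk (Ideal.span {q}))
        (finSuccEquiv ℂ N ((finSuccEquiv ℂ N).symm z)) := rfl
  rw [h1, AlgEquiv.apply_symm_apply]

theorem quotPolyHom_rename {N : ℕ} (q : MvPolynomial (Fin N) ℂ) :
    quotPolyHom q (rename Fin.succ q) = 0 := by
  have h : Ideal.Quotient.mk (Ideal.span {q}) q = 0 :=
    Ideal.Quotient.eq_zero_iff_mem.mpr (Ideal.mem_span_singleton_self q)
  have h1 : quotPolyHom q (rename Fin.succ q)
      = Polynomial.map (Ideal.Quotient.mk (Ideal.span {q}))
        (finSuccEquiv ℂ N (rename Fin.succ q)) := rfl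
  rw [h1, finSuccEquiv_rename_succ, Polynomial.map_C, h, Polynomial.C_0]

theorem dvd_of_quotPolyHom_eq_zero {N : ℕ} (q : MvPolynomial (Fin N) ℂ)
    (x : MvPolynomial (Fin (N + 1)) ℂ) (hx : quotPolyHom q x = 0) : rename Fin.succ q ∣ x := by
  have h1 : finSuccEquiv ℂ N x ∈ RingHom.ker
      (Polynomial.mapRingHom (Ideal.Quotient.mk (Ideal.span {q}))) := by
    rw [RingHom.mem_ker]
    exact hx
  rw [Polynomial.ker_mapRingHom, Ideal.mk_ker, Ideal.map_span, Set.image_singleton,
    Ideal.mem_span_singleton] at h1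
  obtain ⟨z, hz⟩ := h1
  refine ⟨(finSuccEquiv ℂ N).symm z, ?_⟩
  apply (finSuccEquiv ℂ N).injective
  rw [map_mul, finSuccEquiv_rename_succ, AlgEquiv.apply_symm_apply]
  exact hz

/-- **Zariski cancellation for affine quadrics.** If `q ∈ ℂ[x_1, …, x_N]` has total degree at
most `2` and `A = ℂ[x_1, …, x_N]/(q)` satisfies `A[w] ≃ ℂ^[n+1]`, then `A ≃ ℂ^[n]`. -/
theorem nonempty_equiv_of_quadric (N n : ℕ) (q : MvPolynomial (Fin N) ℂ)
    (hq : q.totalDegree ≤ 2)
    (e : Polynomial (MvPolynomial (Fin N) ℂ ⧸ Ideal.span {q}) ≃ₐ[ℂ]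
      MvPolynomial (Fin (n + 1)) ℂ) :
    Nonempty ((MvPolynomial (Fin N) ℂ ⧸ Ideal.span {q}) ≃ₐ[ℂ] MvPolynomial (Fin n) ℂ) := by
  classical
  by_cases hcrit : ∀ a : Fin N → ℂ, ∃ i, eval a (pderiv i q) ≠ 0
  · -- no critical point: `q` is a coordinate
    obtain ⟨ψ, i, hψ⟩ := exists_equiv_of_totalDegree_le_two q hq hcrit
    obtain ⟨N', rfl⟩ : ∃ N', N = N' + 1 :=
      Nat.exists_eq_succ_of_ne_zero (by rintro rfl; exact i.elim0)
    obtain ⟨e2⟩ := nonempty_quot_coord_equiv ψ i q hψ
    have e3 : MvPolynomial (Fin (N' + 1)) ℂ ≃ₐ[ℂ] MvPolynomial (Fin (n + 1)) ℂ :=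
      (finSuccEquiv ℂ N').trans ((Polynomial.mapAlgEquiv e2.symm).trans e)
    have hN : N' + 1 = n + 1 := eq_of_mvPolynomial_equiv e3
    have hN' : N' = n := Nat.succ_injective hN
    subst hN'
    exact ⟨e2⟩
  · push Not at hcrit
    obtain ⟨a, ha⟩ := hcrit
    by_cases hqa : eval a q = 0
    · -- a critical point on the hypersurface: tangent space argument
      let ρ : MvPolynomial (Fin (N + 1)) ℂ →ₐ[ℂ] MvPolynomial (Fin (n + 1)) ℂ :=
        (e : Polynomial (MvPolynomial (Fin N) ℂ ⧸ Ideal.span {q}) →ₐ[ℂ]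
          MvPolynomial (Fin (n + 1)) ℂ).comp (quotPolyHom q)
      have hρ : Function.Surjective ρ := e.surjective.comp (quotPolyHom_surjective q)
      have hg0 : ρ (rename Fin.succ q) = 0 := by
        simp only [ρ, AlgHom.coe_comp, Function.comp_apply, quotPolyHom_rename]
        exact map_zero _
      have hker : ∀ x, ρ x = 0 → rename Fin.succ q ∣ x := by
        intro x hx
        apply dvd_of_quotPolyHom_eq_zero
        apply e.injective
        rw [map_zero]
        exact hx
      let a' : Fin (N + 1) → ℂ := Fin.cons 0 a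
      have ha' : a' ∘ Fin.succ = a := by
        funext i
        simp [a']
      have hg : eval a' (rename Fin.succ q) = 0 := by
        rw [eval_rename, ha', hqa]
      have hdg : ∀ k, eval a' (pderiv k (rename Fin.succ q)) = 0 := by
        intro k
        refine Fin.cases ?_ (fun i => ?_) k
        · have : pderiv (0 : Fin (N + 1)) (rename Fin.succ q) = 0 := by
            apply pderiv_eq_zero_of_notMem_vars
            intro hmem
            obtain ⟨i, -, hi⟩ := mem_vars_rename _ _ hmem
            exact Fin.succ_ne_zero i hi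
          rw [this, map_zero]
        · rw [pderiv_rename (Fin.succ_injective N), eval_rename, ha', ha i]
      obtain ⟨hNn, hq0⟩ := eq_zero_of_surjective_of_critical ρ hρ _ hg0 hker a' hg hdg
      have hNn' : N = n := Nat.succ_injective hNn
      subst hNn'
      have hq0' : q = 0 := by
        apply rename_injective _ (Fin.succ_injective N)
        rw [hq0, map_zero]
      subst hq0'
      have hbot : Ideal.span {(0 : MvPolynomial (Fin N) ℂ)} = ⊥ := by simp
      exact ⟨(Ideal.quotientEquivAlgOfEq ℂ hbot).trans (AlgEquiv.quotientBot ℂ _)⟩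
    · -- a critical point off the hypersurface: a fixed point free involution
      exfalso
      let I : Ideal (MvPolynomial (Fin N) ℂ) := Ideal.span {q}
      have hι : reflect a q = q := reflect_eq_self_of_critical q hq a ha
      let ιbar : (MvPolynomial (Fin N) ℂ ⧸ I) →ₐ[ℂ] (MvPolynomial (Fin N) ℂ ⧸ I) :=
        Ideal.Quotient.liftₐ I ((Ideal.Quotient.mkₐ ℂ I).comp (reflect a)) (by
          intro x hx
          obtain ⟨y, rfl⟩ := Ideal.mem_span_singleton'.mp hx
          have hq0 : Ideal.Quotient.mk I q = 0 :=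
            Ideal.Quotient.eq_zero_iff_mem.mpr (Ideal.mem_span_singleton_self q)
          simp only [AlgHom.coe_comp, Function.comp_apply, map_mul, hι]
          change Ideal.Quotient.mk I (reflect a y) * Ideal.Quotient.mk I q = 0
          rw [hq0, mul_zero])
      have hιbar : ∀ x, ιbar (Ideal.Quotient.mk I x) = Ideal.Quotient.mk I (reflect a x) :=
        fun x => rfl
      have hιbar2 : ∀ z, ιbar (ιbar z) = z := by
        intro z
        obtain ⟨x, rfl⟩ := Ideal.Quotient.mk_surjective z
        rw [hιbar, hιbar, reflect_reflect]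
      let τ : Polynomial (MvPolynomial (Fin N) ℂ ⧸ I) →ₐ[ℂ]
          Polynomial (MvPolynomial (Fin N) ℂ ⧸ I) := Polynomial.mapAlgHom ιbar
      have hτ2 : ∀ y, τ (τ y) = y := by
        intro y
        simp only [τ, Polynomial.coe_mapAlgHom, Polynomial.map_map]
        have : ((ιbar : (MvPolynomial (Fin N) ℂ ⧸ I) →+* (MvPolynomial (Fin N) ℂ ⧸ I)).comp
            (ιbar : (MvPolynomial (Fin N) ℂ ⧸ I) →+* (MvPolynomial (Fin N) ℂ ⧸ I)))
            = RingHom.id _ := RingHom.ext (fun z => hιbar2 z)
        rw [this, Polynomial.map_id]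
      let σ : MvPolynomial (Fin (n + 1)) ℂ →ₐ[ℂ] MvPolynomial (Fin (n + 1)) ℂ :=
        (e : Polynomial (MvPolynomial (Fin N) ℂ ⧸ I) →ₐ[ℂ] MvPolynomial (Fin (n + 1)) ℂ).comp
          (τ.comp (e.symm : MvPolynomial (Fin (n + 1)) ℂ →ₐ[ℂ]
            Polynomial (MvPolynomial (Fin N) ℂ ⧸ I)))
      have hσe : ∀ y, σ (e y) = e (τ y) := by
        intro y
        simp [σ]
      have hσ2 : ∀ x, σ (σ x) = x := by
        intro x
        obtain ⟨y, rfl⟩ := e.surjective x
        rw [hσe, hσe, hτ2]
      obtain ⟨b, hb⟩ := exists_fixed_point_of_involution σ hσ2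
      have hbσ : ∀ x, eval b (σ x) = eval b x := by
        have : (aeval b : MvPolynomial (Fin (n + 1)) ℂ →ₐ[ℂ] ℂ).comp σ = aeval b := by
          apply MvPolynomial.algHom_ext
          intro j
          simpa [coe_aeval_eq_eval] using hb j
        intro x
        have h := congrArg (fun F : MvPolynomial (Fin (n + 1)) ℂ →ₐ[ℂ] ℂ => F x) this
        simpa [coe_aeval_eq_eval] using h
      -- the induced point of the quadric
      let pt0 : MvPolynomial (Fin N) ℂ →ₐ[ℂ] ℂ :=
        ((aeval b : MvPolynomial (Fin (n + 1)) ℂ →ₐ[ℂ] ℂ).comp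
          (e : Polynomial (MvPolynomial (Fin N) ℂ ⧸ I) →ₐ[ℂ] MvPolynomial (Fin (n + 1)) ℂ)).comp
          ((Polynomial.CAlgHom : (MvPolynomial (Fin N) ℂ ⧸ I) →ₐ[ℂ]
            Polynomial (MvPolynomial (Fin N) ℂ ⧸ I)).comp (Ideal.Quotient.mkₐ ℂ I))
      have hpt0 : ∀ x, pt0 x = eval b (e (Polynomial.C (Ideal.Quotient.mk I x))) := by
        intro x
        simp [pt0, coe_aeval_eq_eval]
      have hpt0ι : ∀ x, pt0 (reflect a x) = pt0 x := by
        intro x
        rw [hpt0, hpt0, ← hιbar]
        have : Polynomial.C (ιbar (Ideal.Quotient.mk I x)) = τ (Polynomial.C (Ideal.Quotient.mk I x)) := by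
          simp [τ, Polynomial.coe_mapAlgHom]
        rw [this, ← hσe, hbσ]
      have hc : ∀ i, pt0 (X i) = a i := by
        intro i
        have h1 := hpt0ι (X i)
        rw [reflect_X, map_sub] at h1
        have h2 : pt0 (C (2 * a i)) = 2 * a i := by
          have := pt0.commutes (2 * a i)
          simpa [MvPolynomial.algebraMap_eq] using this
        rw [h2] at h1
        linear_combination (-1 / 2 : ℂ) * h1
      have hpt0a : pt0 = aeval a := by
        apply MvPolynomial.algHom_ext
        intro i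
        simp [hc]
      have h0 : pt0 q = 0 := by
        rw [hpt0]
        have : Ideal.Quotient.mk I q = 0 := by
          rw [Ideal.Quotient.eq_zero_iff_mem]
          exact Ideal.mem_span_singleton_self q
        rw [this, Polynomial.C_0, map_zero, map_zero]
      rw [hpt0a] at h0
      apply hqa
      simpa [coe_aeval_eq_eval] using h0

end Main

end Vale.Agent.H79
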