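import Mathlib
import Vale.Agent.H79.Serre

/-!
# Reduction of polynomial automorphisms to finite fields: balanced fibres

Let `φ` be an automorphism of the complex polynomial ring in finitely many variables.  After
spreading `φ` and its inverse out over a finitely generated subring `S` of `ℂ` and reducing
to a finite field `K`, the images of the variables induce a bijection of `K^σ`.  Hence the
reduction of every `φ (X j)` takes every value of `K` equally often.
-/

namespace Vale.Agent.H79

open MvPolynomial

section Spread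

variable {σ : Type*} [Fintype σ] [DecidableEq σ]

/-- A coordinate hyperplane of `K^σ` has `|K|^(|σ| - 1)` points. -/
theorem card_coord_fiber (K : Type*) [Field K] [Fintype K] (j : σ) (c : K) :
    Nat.card {w : σ → K // w j = c} * Nat.card K = Nat.card K ^ Fintype.card σ := by
  classical
  let e : {w : σ → K // w j = c} × K ≃ (σ → K) :=
    { toFun := fun p => Function.update p.1.1 j p.2
      invFun := fun u => (⟨Function.update u j c, by simp⟩, u j)
      left_inv := by
        rintro ⟨⟨w, hw⟩, a⟩
        simp [← hw]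
      right_inv := by
        intro u
        simp }
  rw [← Nat.card_prod, Nat.card_congr e, Nat.card_fun, Nat.card_eq_fintype_card (α := σ)]

omit [Fintype σ] [DecidableEq σ] in
/-- Evaluation of a substituted polynomial. -/
theorem eval_bind₁' {K : Type*} [CommRing K] {τ : Type*} (G : σ → MvPolynomial τ K)
    (v : τ → K) (p : MvPolynomial σ K) :
    eval v (bind₁ G p) = eval (fun i => eval v (G i)) p := by
  have h1 : (eval v).comp (bind₁ G : MvPolynomial σ K →+* MvPolynomial τ K)
      = eval (fun i => eval v (G i)) := by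
    apply MvPolynomial.ringHom_ext
    · intro c
      simp
    · intro i
      simp
  exact RingHom.congr_fun h1 p

/-- **Balanced reduction.**  For an automorphism `φ` of `ℂ[x_σ]` and finitely many prescribed
complex numbers there are a subring `S` of `ℂ` containing them, a finite field `K` of odd
characteristic and a ring homomorphism `π : S → K` such that the reduction of (the unique
lift to `S` of) every `φ (X j)` takes every value of `K` exactly `|K|^(|σ| - 1)` times. -/
theorem exists_balanced_reduction (φ : MvPolynomial σ ℂ ≃ₐ[ℂ] MvPolynomial σ ℂ)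
    (T₀ : Finset ℂ) :
    ∃ (S : Subalgebra ℤ ℂ) (K : Type) (_ : Field K) (_ : Fintype K) (π : S →+* K),
      (∀ c ∈ T₀, c ∈ S) ∧ (2 : K) ≠ 0 ∧
      ∀ (j : σ) (P : MvPolynomial σ S), MvPolynomial.map (S.val : S →+* ℂ) P = φ (X j) →
        ∀ c : K, Nat.card {v : σ → K // eval v (MvPolynomial.map π P) = c} * Nat.card K
          = Nat.card K ^ Fintype.card σ := by
  classical
  let T : Finset ℂ := T₀ ∪ (Finset.univ.biUnion fun i : σ => (φ (X i)).coeffs) ∪
    (Finset.univ.biUnion fun i : σ => (φ.symm (X i)).coeffs) ∪ {((2 : ℕ) : ℂ)⁻¹}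
  have h2T : ((2 : ℕ) : ℂ)⁻¹ ∈ T := by simp [T]
  obtain ⟨K, _, _, ⟨π⟩, h2K⟩ := exists_finite_field_quotient 2 (by norm_num) T h2T
  let S : Subalgebra ℤ ℂ := Algebra.adjoin ℤ (T : Set ℂ)
  let f : S →+* ℂ := (S.val : S →+* ℂ)
  have hf : Function.Injective f := Subtype.val_injective
  have hmem : ∀ c ∈ T, c ∈ Set.range f := fun c hc => ⟨⟨c, Algebra.subset_adjoin hc⟩, rfl⟩
  have hPr : ∀ i, φ (X i) ∈ Set.range (MvPolynomial.map f) := by
    intro i
    rw [mem_range_map_iff_coeffs_subset]
    intro c hc
    apply hmem
    simp only [T, Finset.mem_union, Finset.mem_biUnion, Finset.mem_univ, true_and,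
      Finset.mem_singleton]
    exact Or.inl (Or.inl (Or.inr ⟨i, hc⟩))
  have hRr : ∀ i, φ.symm (X i) ∈ Set.range (MvPolynomial.map f) := by
    intro i
    rw [mem_range_map_iff_coeffs_subset]
    intro c hc
    apply hmem
    simp only [T, Finset.mem_union, Finset.mem_biUnion, Finset.mem_univ, true_and,
      Finset.mem_singleton]
    exact Or.inl (Or.inr ⟨i, hc⟩)
  choose P' hP' using hPr
  choose R' hR' using hRr
  have hφ : ∀ p, bind₁ (fun i => φ (X i)) p = φ p := by
    intro p
    have h1 : (bind₁ (fun i => φ (X i)) : MvPolynomial σ ℂ →ₐ[ℂ] MvPolynomial σ ℂ)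
        = (φ : MvPolynomial σ ℂ →ₐ[ℂ] MvPolynomial σ ℂ) := by
      apply MvPolynomial.algHom_ext
      intro i
      simp
    exact congrArg (fun F : MvPolynomial σ ℂ →ₐ[ℂ] MvPolynomial σ ℂ => F p) h1
  have hφs : ∀ p, bind₁ (fun i => φ.symm (X i)) p = φ.symm p := by
    intro p
    have h1 : (bind₁ (fun i => φ.symm (X i)) : MvPolynomial σ ℂ →ₐ[ℂ] MvPolynomial σ ℂ)
        = (φ.symm : MvPolynomial σ ℂ →ₐ[ℂ] MvPolynomial σ ℂ) := by
      apply MvPolynomial.algHom_ext
      intro i
      simp
    exact congrArg (fun F : MvPolynomial σ ℂ →ₐ[ℂ] MvPolynomial σ ℂ => F p) h1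
  have hPR : ∀ i, bind₁ P' (R' i) = X i := by
    intro i
    apply map_injective f hf
    rw [map_bind₁, hR', map_X]
    simp only [hP']
    rw [hφ, AlgEquiv.apply_symm_apply]
  have hRP : ∀ i, bind₁ R' (P' i) = X i := by
    intro i
    apply map_injective f hf
    rw [map_bind₁, hP', map_X]
    simp only [hR']
    rw [hφs, AlgEquiv.symm_apply_apply]
  let Pb : σ → MvPolynomial σ K := fun i => MvPolynomial.map π (P' i)
  let Rb : σ → MvPolynomial σ K := fun i => MvPolynomial.map π (R' i)
  have hPRb : ∀ i, bind₁ Pb (Rb i) = X i := by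
    intro i
    have h1 := congrArg (MvPolynomial.map π) (hPR i)
    rwa [map_bind₁, map_X] at h1
  have hRPb : ∀ i, bind₁ Rb (Pb i) = X i := by
    intro i
    have h1 := congrArg (MvPolynomial.map π) (hRP i)
    rwa [map_bind₁, map_X] at h1
  let Φ : (σ → K) ≃ (σ → K) :=
    { toFun := fun v i => eval v (Pb i)
      invFun := fun v i => eval v (Rb i)
      left_inv := by
        intro v
        funext i
        show eval (fun i => eval v (Pb i)) (Rb i) = v i
        rw [← eval_bind₁', hPRb, eval_X]
      right_inv := by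
        intro v
        funext i
        show eval (fun i => eval v (Rb i)) (Pb i) = v i
        rw [← eval_bind₁', hRPb, eval_X] }
  refine ⟨S, K, inferInstance, inferInstance, π, ?_, ?_, ?_⟩
  · intro c hc
    exact Algebra.subset_adjoin (by simp [T, hc])
  · simpa using h2K
  · intro j P hP c
    have hPj : P = P' j := map_injective f hf (hP.trans (hP' j).symm)
    rw [hPj]
    have e : {v : σ → K // eval v (MvPolynomial.map π (P' j)) = c} ≃ {w : σ → K // w j = c} :=
      Φ.subtypeEquiv (fun v => Iff.rfl)
    rw [Nat.card_congr e]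
    exact card_coord_fiber K j c

end Spread

end Vale.Agent.H79
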