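import Mathlib
import Vale.Agent.H79.Serre
import Vale.Agent.H79.Quadric
import Vale.Agent.H79.Spread

/-!
# Point counts of hypersurfaces with polynomial cylinder

Let `G ∈ ℂ[x_1, …, x_N]` and `A = ℂ[x_1, …, x_N]/(G)`.  If `A[w] ≃ ℂ^[n+1]`, then after
spreading out over a finitely generated subring `S` of `ℂ` and reducing to a finite field `K`,
the isomorphism induces a bijection between `K^(n+1)` and `{G = 0}(K) × K`.  Hence the
hypersurface `G = 0` has exactly `|K|^n` points over `K`.
-/

namespace Vale.Agent.H79

open MvPolynomial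

/-- **Cylinder point count.**  If `(ℂ[x_1, …, x_N]/(G))[w] ≃ ℂ^[n+1]`, then for finitely many
prescribed complex numbers there are a subring `S` of `ℂ` containing them, a finite field `K`
of odd characteristic and a ring homomorphism `π : S → K` such that the reduction of (the lift
to `S` of) `G` has exactly `|K|^n` zeros in `K^N`. -/
theorem exists_cylinder_reduction (N n : ℕ) (G : MvPolynomial (Fin N) ℂ)
    (e : Polynomial (MvPolynomial (Fin N) ℂ ⧸ Ideal.span {G}) ≃ₐ[ℂ]
      MvPolynomial (Fin (n + 1)) ℂ) (T₀ : Finset ℂ) :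
    ∃ (S : Subalgebra ℤ ℂ) (K : Type) (_ : Field K) (_ : Fintype K) (π : S →+* K),
      (∀ c ∈ T₀, c ∈ S) ∧ (2 : K) ≠ 0 ∧
      ∀ (G' : MvPolynomial (Fin N) S), MvPolynomial.map (S.val : S →+* ℂ) G' = G →
        Nat.card {v : Fin N → K // eval v (MvPolynomial.map π G') = 0} * Nat.card K
          = Nat.card K ^ (n + 1) := by
  classical
  let ρ : MvPolynomial (Fin (N + 1)) ℂ →ₐ[ℂ] MvPolynomial (Fin (n + 1)) ℂ :=
    (e : Polynomial (MvPolynomial (Fin N) ℂ ⧸ Ideal.span {G}) →ₐ[ℂ]
      MvPolynomial (Fin (n + 1)) ℂ).comp (quotPolyHom G)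
  have hρ : Function.Surjective ρ := e.surjective.comp (quotPolyHom_surjective G)
  have hg0 : ρ (rename Fin.succ G) = 0 := by
    simp only [ρ, AlgHom.coe_comp, Function.comp_apply, quotPolyHom_rename]
    exact map_zero _
  have hker : ∀ x, ρ x = 0 → rename Fin.succ G ∣ x := by
    intro x hx
    apply dvd_of_quotPolyHom_eq_zero
    apply e.injective
    rw [map_zero]
    exact hx
  let a : Fin (N + 1) → MvPolynomial (Fin (n + 1)) ℂ := fun i => ρ (X i)
  have hρa : ∀ p, bind₁ a p = ρ p := by
    intro p
    have h1 : (bind₁ a : MvPolynomial (Fin (N + 1)) ℂ →ₐ[ℂ] MvPolynomial (Fin (n + 1)) ℂ)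
        = ρ := by
      apply MvPolynomial.algHom_ext
      intro i
      simp [a]
    exact congrArg
      (fun F : MvPolynomial (Fin (N + 1)) ℂ →ₐ[ℂ] MvPolynomial (Fin (n + 1)) ℂ => F p) h1
  choose c hc using fun l : Fin (n + 1) => hρ (X l)
  have hdiv : ∀ i, rename Fin.succ G ∣ bind₁ c (a i) - X i := by
    intro i
    apply hker
    rw [map_sub, ← hρa (bind₁ c (a i)), bind₁_bind₁]
    have h1 : (fun l => bind₁ a (c l)) = X := by
      funext l
      rw [hρa, hc]
    rw [h1, bind₁_X_left]
    simp [a]
  choose h hh using hdiv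
  let T : Finset ℂ := T₀ ∪ (Finset.univ.biUnion fun i => (a i).coeffs) ∪
    (Finset.univ.biUnion fun l => (c l).coeffs) ∪ (Finset.univ.biUnion fun i => (h i).coeffs)
    ∪ {((2 : ℕ) : ℂ)⁻¹}
  have h2T : ((2 : ℕ) : ℂ)⁻¹ ∈ T := by simp [T]
  obtain ⟨K, _, _, ⟨π⟩, h2K⟩ := exists_finite_field_quotient 2 (by norm_num) T h2T
  let S : Subalgebra ℤ ℂ := Algebra.adjoin ℤ (T : Set ℂ)
  let f : S →+* ℂ := (S.val : S →+* ℂ)
  have hf : Function.Injective f := Subtype.val_injective
  have hmem : ∀ x ∈ T, x ∈ Set.range f := fun x hx => ⟨⟨x, Algebra.subset_adjoin hx⟩, rfl⟩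
  have har : ∀ i, a i ∈ Set.range (MvPolynomial.map f) := by
    intro i
    rw [mem_range_map_iff_coeffs_subset]
    intro x hx
    apply hmem
    simp only [T, Finset.mem_union, Finset.mem_biUnion, Finset.mem_univ, true_and,
      Finset.mem_singleton]
    exact Or.inl (Or.inl (Or.inl (Or.inr ⟨i, hx⟩)))
  have hcr : ∀ l, c l ∈ Set.range (MvPolynomial.map f) := by
    intro l
    rw [mem_range_map_iff_coeffs_subset]
    intro x hx
    apply hmem
    simp only [T, Finset.mem_union, Finset.mem_biUnion, Finset.mem_univ, true_and,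
      Finset.mem_singleton]
    exact Or.inl (Or.inl (Or.inr ⟨l, hx⟩))
  have hhr : ∀ i, h i ∈ Set.range (MvPolynomial.map f) := by
    intro i
    rw [mem_range_map_iff_coeffs_subset]
    intro x hx
    apply hmem
    simp only [T, Finset.mem_union, Finset.mem_biUnion, Finset.mem_univ, true_and,
      Finset.mem_singleton]
    exact Or.inl (Or.inr ⟨i, hx⟩)
  choose a' ha' using har
  choose c' hc' using hcr
  choose h' hh' using hhr
  refine ⟨S, K, inferInstance, inferInstance, π, ?_, ?_, ?_⟩
  · intro x hx
    exact Algebra.subset_adjoin (by simp [T, hx])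
  · simpa using h2K
  · intro G' hG'
    -- identities over `S`
    have hF1 : bind₁ a' (rename Fin.succ G') = 0 := by
      apply map_injective f hf
      rw [map_bind₁, map_rename, hG', map_zero]
      simp only [ha']
      rw [hρa, hg0]
    have hF2 : ∀ l, bind₁ a' (c' l) = X l := by
      intro l
      apply map_injective f hf
      rw [map_bind₁, hc', map_X]
      simp only [ha']
      rw [hρa, hc]
    have hF3 : ∀ i, bind₁ c' (a' i) = X i + rename Fin.succ G' * h' i := by
      intro i
      apply map_injective f hf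
      rw [map_bind₁, ha', map_add, map_mul, map_X, map_rename, hG', hh']
      simp only [hc']
      rw [← hh i]
      ring
    -- identities over `K`
    let ab : Fin (N + 1) → MvPolynomial (Fin (n + 1)) K := fun i => MvPolynomial.map π (a' i)
    let cb : Fin (n + 1) → MvPolynomial (Fin (N + 1)) K := fun l => MvPolynomial.map π (c' l)
    set Gb : MvPolynomial (Fin N) K := MvPolynomial.map π G' with hGb
    have hK1 : bind₁ ab (rename Fin.succ Gb) = 0 := by
      have h1 := congrArg (MvPolynomial.map π) hF1
      rwa [map_bind₁, map_rename, map_zero] at h1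
    have hK2 : ∀ l, bind₁ ab (cb l) = X l := by
      intro l
      have h1 := congrArg (MvPolynomial.map π) (hF2 l)
      rwa [map_bind₁, map_X] at h1
    have hK3 : ∀ i, bind₁ cb (ab i)
        = X i + rename Fin.succ Gb * MvPolynomial.map π (h' i) := by
      intro i
      have h1 := congrArg (MvPolynomial.map π) (hF3 i)
      rwa [map_bind₁, map_add, map_mul, map_X, map_rename] at h1
    let Ψ : (Fin (n + 1) → K) ≃ {u : Fin (N + 1) → K // eval u (rename Fin.succ Gb) = 0} :=
      { toFun := fun y => ⟨fun i => eval y (ab i), by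
          rw [← eval_bind₁', hK1, map_zero]⟩
        invFun := fun u l => eval u.1 (cb l)
        left_inv := by
          intro y
          funext l
          show eval (fun i => eval y (ab i)) (cb l) = y l
          rw [← eval_bind₁', hK2, eval_X]
        right_inv := by
          intro u
          apply Subtype.ext
          funext i
          show eval (fun l => eval u.1 (cb l)) (ab i) = u.1 i
          rw [← eval_bind₁', hK3, map_add, map_mul, u.2, zero_mul, add_zero, eval_X] }
    let Θ : {u : Fin (N + 1) → K // eval u (rename Fin.succ Gb) = 0}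
        ≃ {v : Fin N → K // eval v Gb = 0} × K :=
      { toFun := fun u => (⟨fun i => u.1 (Fin.succ i), by
          have h1 := u.2
          rw [eval_rename] at h1
          exact h1⟩, u.1 0)
        invFun := fun s => ⟨Fin.cons s.2 s.1.1, by
          rw [eval_rename]
          have h1 : (Fin.cons s.2 s.1.1 : Fin (N + 1) → K) ∘ Fin.succ = s.1.1 := by
            funext i
            simp
          rw [h1]
          exact s.1.2⟩
        left_inv := by
          intro u
          apply Subtype.ext
          funext i
          refine Fin.cases ?_ (fun j => ?_) i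
          · simp
          · simp
        right_inv := by
          rintro ⟨⟨v, hv⟩, x⟩
          simp }
    rw [← Nat.card_prod, ← Nat.card_congr (Ψ.trans Θ), Nat.card_fun,
      Nat.card_eq_fintype_card (α := Fin (n + 1)), Fintype.card_fin]

end Vale.Agent.H79
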