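import Mathlib
import Vale.Agent.H79.Tangent
import Vale.Agent.H79.Quadric

/-!
# Dimension of a hypersurface whose cylinder is an affine space

If `ρ : ℂ[x_σ] → ℂ[y_τ]` is surjective with kernel generated by one polynomial, then
`card σ ≤ card τ + 1`.  Consequently, if `G ≠ 0` and `(ℂ[x_1, …, x_N]/(G))[w] ≃ ℂ^[n+1]`, then
`N = n + 1`.
-/

namespace Vale.Agent.H79

open MvPolynomial

section DimBound

variable {σ τ : Type*} [Fintype σ] [Fintype τ] [DecidableEq σ] [DecidableEq τ]

omit [DecidableEq τ] in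
/-- If `ρ : ℂ[x_σ] → ℂ[y_τ]` is surjective with kernel generated by one polynomial `g`, then
`card σ ≤ card τ + 1`. -/
theorem card_le_succ_of_surjective
    (ρ : MvPolynomial σ ℂ →ₐ[ℂ] MvPolynomial τ ℂ) (hρ : Function.Surjective ρ)
    (g : MvPolynomial σ ℂ) (hg0 : ρ g = 0) (hker : ∀ x, ρ x = 0 → g ∣ x) :
    Fintype.card σ ≤ Fintype.card τ + 1 := by
  choose s hs using fun j : τ => hρ (X j)
  let sec : MvPolynomial τ ℂ →ₐ[ℂ] MvPolynomial σ ℂ := aeval s
  have hsec : ∀ j, sec (X j) = s j := fun j => by simp [sec]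
  have hρsec : ∀ p, ρ (sec p) = p := by
    have : ρ.comp sec = AlgHom.id ℂ _ := by
      apply MvPolynomial.algHom_ext
      intro j
      simp [hsec, hs]
    intro p
    exact congrArg (fun F : MvPolynomial τ ℂ →ₐ[ℂ] MvPolynomial τ ℂ => F p) this
  let b : τ → ℂ := fun _ => 0
  let a : σ → ℂ := fun k => eval b (ρ (X k))
  have ha : ∀ x : MvPolynomial σ ℂ, eval b (ρ x) = eval a x := by
    have : ((aeval b : MvPolynomial τ ℂ →ₐ[ℂ] ℂ).comp ρ) = aeval a := by
      apply MvPolynomial.algHom_ext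
      intro k
      simp [a]
    intro x
    have h := congrArg (fun F : MvPolynomial σ ℂ →ₐ[ℂ] ℂ => F x) this
    simpa [coe_aeval_eq_eval] using h
  have hb : ∀ p : MvPolynomial τ ℂ, eval a (sec p) = eval b p := by
    intro p
    rw [← ha, hρsec]
  have hga : eval a g = 0 := by
    rw [← ha, hg0, map_zero]
  have hdiv : ∀ k, g ∣ sec (ρ (X k)) - X k := by
    intro k
    apply hker
    rw [map_sub, hρsec, sub_self]
  choose y hy using hdiv
  let J : Matrix τ σ ℂ := fun j k => eval a (pderiv k (s j))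
  let J' : Matrix σ τ ℂ := fun k j => eval b (pderiv j (ρ (X k)))
  let γ : σ → ℂ := fun k => eval a (pderiv k g)
  let c : σ → ℂ := fun k => eval a (y k)
  have key : ∀ k k', ∑ j, J' k j * J j k' = (if k = k' then 1 else 0) + c k * γ k' := by
    intro k k'
    have h1 : eval a (pderiv k' (sec (ρ (X k)) - X k)) = c k * γ k' := by
      rw [hy k, Derivation.leibniz]
      simp [hga, c, γ]
    rw [map_sub, map_sub, pderiv_X, pderiv_algHom sec k' (ρ (X k)), map_sum] at h1
    simp only [map_mul, hb, hsec] at h1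
    have h2 : eval a (Pi.single (M := fun _ => MvPolynomial σ ℂ) k' 1 k)
        = if k = k' then 1 else 0 := by
      by_cases hkk : k = k'
      · subst hkk
        simp
      · simp [hkk]
    rw [h2] at h1
    simp only [J, J']
    linear_combination h1
  let Jh : Matrix (Option τ) σ ℂ := fun o k' => o.elim (γ k') (fun j => J j k')
  let Jh' : Matrix σ (Option τ) ℂ := fun k o => o.elim (-c k) (fun j => J' k j)
  have hprod : Jh' * Jh = 1 := by
    ext k k'
    rw [Matrix.mul_apply, Fintype.sum_option, Matrix.one_apply]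
    simp only [Jh, Jh', Option.elim_none, Option.elim_some]
    rw [key]
    ring
  calc Fintype.card σ = (1 : Matrix σ σ ℂ).rank := (Matrix.rank_one).symm
    _ = (Jh' * Jh).rank := by rw [hprod]
    _ ≤ Jh.rank := Matrix.rank_mul_le_right _ _
    _ ≤ Fintype.card (Option τ) := Matrix.rank_le_card_height _
    _ = Fintype.card τ + 1 := Fintype.card_option

end DimBound

/-- If `G ≠ 0` and `(ℂ[x_1, …, x_N]/(G))[w] ≃ ℂ^[n+1]`, then `N = n + 1`. -/
theorem eq_succ_of_cylinder (N n : ℕ) (G : MvPolynomial (Fin N) ℂ) (hG : G ≠ 0)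
    (e : Polynomial (MvPolynomial (Fin N) ℂ ⧸ Ideal.span {G}) ≃ₐ[ℂ]
      MvPolynomial (Fin (n + 1)) ℂ) : N = n + 1 := by
  let ρ : MvPolynomial (Fin (N + 1)) ℂ →ₐ[ℂ] MvPolynomial (Fin (n + 1)) ℂ :=
    (e : Polynomial (MvPolynomial (Fin N) ℂ ⧸ Ideal.span {G}) →ₐ[ℂ]
      MvPolynomial (Fin (n + 1)) ℂ).comp (quotPolyHom G)
  have hρ : Function.Surjective ρ := e.surjective.comp (quotPolyHom_surjective G)
  have hg0 : ρ (rename Fin.succ G) = 0 := by
    simp only [ρ, AlgHom.coe_comp, Function.comp_apply, quotPolyHom_rename]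
    exact map_zero _
  have hker : ∀ x, ρ x = 0 → rename Fin.succ G ∣ x := by
    intro x hx
    apply dvd_of_quotPolyHom_eq_zero
    apply e.injective
    rw [map_zero]
    exact hx
  have h1 := card_le_succ_of_surjective ρ hρ (rename Fin.succ G) hg0 hker
  have h2 := card_le_of_surjective ρ hρ
  simp only [Fintype.card_fin] at h1 h2
  have h3 : N ≠ n := by
    intro hNn
    subst hNn
    have hinj := injective_of_surjective_endo
      (ρ : MvPolynomial (Fin (N + 1)) ℂ →+* MvPolynomial (Fin (N + 1)) ℂ) hρ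
    apply hG
    apply rename_injective (Fin.succ : Fin N → Fin (N + 1)) (Fin.succ_injective N)
    rw [map_zero]
    apply hinj
    rw [map_zero]
    exact hg0
  omega

end Vale.Agent.H79
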