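import Mathlib
import Vale.Agent.H79.Tangent
import Vale.Agent.H79.Quadric

/-!
# Polynomials `x^m y + b(x, z)` whose restriction to `x = 0` is a coordinate are coordinates

Let `b ∈ ℂ[x, z_1, …, z_k]` be such that `b(0, z)` is a coordinate of `ℂ[z_1, …, z_k]`.  Then
`x^m y + b(x, z)` is a coordinate of `ℂ[x, y, z_1, …, z_k]`, for every `m`.

The key step: if `F(t) = t + x B` then `F` has a two-sided compositional inverse `G` modulo `x^m`,
and `t ↦ F(t) + x^m y`, `y ↦ (G(F(t) + x^m y) - t) / x^m` is an automorphism.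
-/

namespace Vale.Agent.H79

open MvPolynomial

section Subst

variable {τ : Type*} [DecidableEq τ]

/-- Substitute `q` for the variable `t`. -/
noncomputable def substT (t : τ) (q : MvPolynomial τ ℂ) :
    MvPolynomial τ ℂ →ₐ[ℂ] MvPolynomial τ ℂ :=
  aeval (Function.update X t q)

theorem substT_X_self (t : τ) (q : MvPolynomial τ ℂ) : substT t q (X t) = q := by
  simp [substT]

theorem substT_X_of_ne (t : τ) (q : MvPolynomial τ ℂ) (i : τ) (h : i ≠ t) :
    substT t q (X i) = X i := by
  simp [substT, h]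

theorem substT_self (t : τ) (p : MvPolynomial τ ℂ) : substT t (X t) p = p := by
  have h1 : substT t (X t) = AlgHom.id ℂ (MvPolynomial τ ℂ) := by
    apply algHom_ext
    intro i
    by_cases h : i = t
    · subst h
      simp [substT_X_self]
    · simp [substT_X_of_ne _ _ _ h]
  rw [h1]
  rfl

theorem substT_comp (t : τ) (q r p : MvPolynomial τ ℂ) :
    substT t r (substT t q p) = substT t (substT t r q) p := by
  have h1 : (substT t r).comp (substT t q) = substT t (substT t r q) := by
    apply algHom_ext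
    intro i
    by_cases h : i = t
    · subst h
      simp [substT_X_self]
    · simp [substT_X_of_ne _ _ _ h]
  exact congrArg (fun F : MvPolynomial τ ℂ →ₐ[ℂ] MvPolynomial τ ℂ => F p) h1

theorem substT_sub_mem (t : τ) (I : Ideal (MvPolynomial τ ℂ)) (q q' : MvPolynomial τ ℂ)
    (h : q - q' ∈ I) (p : MvPolynomial τ ℂ) : substT t q p - substT t q' p ∈ I := by
  have h1 : (Ideal.Quotient.mkₐ ℂ I).comp (substT t q)
      = (Ideal.Quotient.mkₐ ℂ I).comp (substT t q') := by
    apply algHom_ext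
    intro i
    by_cases hi : i = t
    · subst hi
      simp only [AlgHom.comp_apply, substT_X_self, Ideal.Quotient.mkₐ_eq_mk]
      exact Ideal.Quotient.eq.mpr h
    · simp [substT_X_of_ne _ _ _ hi]
  have h2 := congrArg (fun F : MvPolynomial τ ℂ →ₐ[ℂ] MvPolynomial τ ℂ ⧸ I => F p) h1
  simp only [AlgHom.comp_apply, Ideal.Quotient.mkₐ_eq_mk] at h2
  exact Ideal.Quotient.eq.mp h2

theorem substT_dvd_sub (t : τ) (a q q' : MvPolynomial τ ℂ) (h : a ∣ q - q')
    (p : MvPolynomial τ ℂ) : a ∣ substT t q p - substT t q' p := by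
  rw [← Ideal.mem_span_singleton] at h ⊢
  exact substT_sub_mem t _ q q' h p

variable (x t : τ)

/-- Approximations to the compositional inverse of `t ↦ t + x B`. -/
noncomputable def gseq (B : MvPolynomial τ ℂ) : ℕ → MvPolynomial τ ℂ
  | 0 => X t
  | j + 1 => X t - X x * substT t (gseq B j) B

theorem gseq_zero (B : MvPolynomial τ ℂ) : gseq x t B 0 = X t := rfl

theorem gseq_succ (B : MvPolynomial τ ℂ) (j : ℕ) :
    gseq x t B (j + 1) = X t - X x * substT t (gseq x t B j) B := rfl

theorem gseq_succ_sub (B : MvPolynomial τ ℂ) (j : ℕ) :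
    X x ^ (j + 1) ∣ gseq x t B (j + 1) - gseq x t B j := by
  induction j with
  | zero =>
    rw [gseq_succ, gseq_zero, substT_self]
    exact ⟨-B, by ring⟩
  | succ j ih =>
    have h1 := substT_dvd_sub t _ _ _ ih B
    obtain ⟨c, hc⟩ := h1
    refine ⟨-c, ?_⟩
    have e1 : gseq x t B (j + 1 + 1) = X t - X x * substT t (gseq x t B (j + 1)) B := rfl
    have e2 : gseq x t B (j + 1) = X t - X x * substT t (gseq x t B j) B := rfl
    have e3 : gseq x t B (j + 1 + 1) - gseq x t B (j + 1)
        = -(X x * (substT t (gseq x t B (j + 1)) B - substT t (gseq x t B j) B)) := by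
      rw [e1]
      have := congrArg (fun z => X t - X x * substT t (gseq x t B (j + 1)) B - z) e2
      rw [this]
      ring
    rw [e3, hc]
    ring

theorem substT_gseq (hxt : x ≠ t) (B : MvPolynomial τ ℂ) (j : ℕ) :
    X x ^ (j + 1) ∣ substT t (gseq x t B j) (X t + X x * B) - X t := by
  have hF : ∀ q : MvPolynomial τ ℂ, substT t q (X t + X x * B) = q + X x * substT t q B := by
    intro q
    rw [map_add, map_mul, substT_X_self, substT_X_of_ne _ _ _ hxt]
  rw [hF]
  cases j with
  | zero =>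
    rw [gseq_zero, substT_self]
    exact ⟨B, by ring⟩
  | succ j =>
    obtain ⟨c, hc⟩ := substT_dvd_sub t _ _ _ (gseq_succ_sub x t B j) B
    refine ⟨c, ?_⟩
    have e2 : gseq x t B (j + 1) = X t - X x * substT t (gseq x t B j) B := rfl
    have e3 : gseq x t B (j + 1) + X x * substT t (gseq x t B (j + 1)) B - X t
        = X x * (substT t (gseq x t B (j + 1)) B - substT t (gseq x t B j) B) := by
      have := congrArg (fun z => z + X x * substT t (gseq x t B (j + 1)) B - X t) e2
      rw [this]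
      ring
    rw [e3, hc]
    ring

/-- A right compositional inverse of `t + x B` modulo `x^m`, of the same shape. -/
theorem exists_right_inverse (hxt : x ≠ t) (B : MvPolynomial τ ℂ) (m : ℕ) :
    ∃ B' : MvPolynomial τ ℂ,
      X x ^ m ∣ substT t (X t + X x * B') (X t + X x * B) - X t := by
  refine ⟨-substT t (gseq x t B m) B, ?_⟩
  have h1 := substT_gseq x t hxt B (m + 1)
  have h2 : gseq x t B (m + 1) = X t + X x * -substT t (gseq x t B m) B := by
    rw [gseq_succ]
    ring
  rw [h2] at h1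
  exact dvd_trans (pow_dvd_pow _ (by omega)) h1

/-- A two-sided compositional inverse of `t + x B` modulo `x^m`. -/
theorem exists_two_sided_inverse (hxt : x ≠ t) (B : MvPolynomial τ ℂ) (m : ℕ) :
    ∃ B' : MvPolynomial τ ℂ,
      X x ^ m ∣ substT t (X t + X x * B') (X t + X x * B) - X t ∧
      X x ^ m ∣ substT t (X t + X x * B) (X t + X x * B') - X t := by
  obtain ⟨B', hR⟩ := exists_right_inverse x t hxt B m
  obtain ⟨B'', hR'⟩ := exists_right_inverse x t hxt B' m
  refine ⟨B', hR, ?_⟩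
  set F : MvPolynomial τ ℂ := X t + X x * B with hF
  set G : MvPolynomial τ ℂ := X t + X x * B' with hG
  set H : MvPolynomial τ ℂ := X t + X x * B'' with hH
  set I : Ideal (MvPolynomial τ ℂ) := Ideal.span {X x ^ m} with hI
  have h1 : substT t G F - X t ∈ I := Ideal.mem_span_singleton.mpr hR
  have h2 : substT t H G - X t ∈ I := Ideal.mem_span_singleton.mpr hR'
  have hfix : substT t H (X x ^ m) = X x ^ m := by
    rw [map_pow, substT_X_of_ne _ _ _ hxt]
  have hmap : ∀ y, y ∈ I → substT t H y ∈ I := by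
    intro y hy
    rw [hI, Ideal.mem_span_singleton] at hy ⊢
    have := map_dvd (substT t H) hy
    rwa [hfix] at this
  -- `F ≡ H`
  have h3 : substT t (substT t H G) F - F ∈ I := by
    have := substT_sub_mem t I _ _ h2 F
    rwa [substT_self] at this
  have h4 : substT t H (substT t G F) - H ∈ I := by
    have := hmap _ h1
    rwa [map_sub, substT_X_self] at this
  have h5 : F - H ∈ I := by
    have h6 : F - H = (substT t H (substT t G F) - H) - (substT t (substT t H G) F - F) := by
      rw [substT_comp]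
      ring
    rw [h6]
    exact I.sub_mem h4 h3
  have h7 : substT t F G - substT t H G ∈ I := substT_sub_mem t I _ _ h5 G
  have h8 : substT t F G - X t = (substT t F G - substT t H G) + (substT t H G - X t) := by ring
  rw [← Ideal.mem_span_singleton, h8]
  exact I.add_mem h7 h2

end Subst

section PolyEquiv

variable {τ : Type*} [DecidableEq τ] [Finite τ]

/-- The automorphism `t ↦ t + x B + x^m y` of `ℂ[τ][y]`. -/
theorem exists_polyEquiv (x t : τ) (hxt : x ≠ t) (B : MvPolynomial τ ℂ) (m : ℕ) :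
    ∃ S : Polynomial (MvPolynomial τ ℂ) ≃ₐ[ℂ] Polynomial (MvPolynomial τ ℂ),
      S (Polynomial.C (X t))
        = Polynomial.C (X t + X x * B) + Polynomial.C (X x ^ m) * Polynomial.X := by
  classical
  obtain ⟨B', hR, hL⟩ := exists_two_sided_inverse x t hxt B m
  set F : MvPolynomial τ ℂ := X t + X x * B with hF
  set G : MvPolynomial τ ℂ := X t + X x * B' with hG
  set a : MvPolynomial τ ℂ := X x ^ m with ha
  have ha0 : (Polynomial.C a : Polynomial (MvPolynomial τ ℂ)) ≠ 0 := by
    rw [Ne, Polynomial.C_eq_zero, ha]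
    exact pow_ne_zero _ (X_ne_zero x)
  -- a general congruence for substitution homomorphisms into `ℂ[τ][y]`
  have key : ∀ (g : Polynomial (MvPolynomial τ ℂ)) (q : MvPolynomial τ ℂ),
      Polynomial.C a ∣ g - Polynomial.C q → ∀ p : MvPolynomial τ ℂ,
      Polynomial.C a ∣ aeval (Function.update (fun i => Polynomial.C (X i)) t g) p
        - Polynomial.C (substT t q p) := by
    intro g q hgq p
    set J : Ideal (Polynomial (MvPolynomial τ ℂ)) := Ideal.span {Polynomial.C a} with hJ
    have h1 : (Ideal.Quotient.mkₐ ℂ J).comp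
          (aeval (Function.update (fun i => Polynomial.C (X i)) t g) :
            MvPolynomial τ ℂ →ₐ[ℂ] Polynomial (MvPolynomial τ ℂ))
        = (Ideal.Quotient.mkₐ ℂ J).comp
          ((Polynomial.CAlgHom : MvPolynomial τ ℂ →ₐ[ℂ] Polynomial (MvPolynomial τ ℂ)).comp
            (substT t q)) := by
      apply algHom_ext
      intro i
      by_cases hi : i = t
      · subst hi
        simp only [AlgHom.comp_apply, aeval_X, Function.update_self, substT_X_self,
          Ideal.Quotient.mkₐ_eq_mk, Polynomial.CAlgHom_apply]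
        exact Ideal.Quotient.eq.mpr (Ideal.mem_span_singleton.mpr hgq)
      · simp [substT_X_of_ne _ _ _ hi, hi]
    have h2 := congrArg (fun Φ : MvPolynomial τ ℂ →ₐ[ℂ] Polynomial (MvPolynomial τ ℂ) ⧸ J =>
      Φ p) h1
    simp only [AlgHom.comp_apply, Ideal.Quotient.mkₐ_eq_mk, Polynomial.CAlgHom_apply] at h2
    exact Ideal.mem_span_singleton.mp (Ideal.Quotient.eq.mp h2)
  set u : Polynomial (MvPolynomial τ ℂ) := Polynomial.C F + Polynomial.C a * Polynomial.X with hu
  let ψu : MvPolynomial τ ℂ →ₐ[ℂ] Polynomial (MvPolynomial τ ℂ) :=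
    aeval (Function.update (fun i => Polynomial.C (X i)) t u)
  have hψt : ψu (X t) = u := by simp [ψu]
  have hψne : ∀ i, i ≠ t → ψu (X i) = Polynomial.C (X i) := by
    intro i hi
    simp [ψu, hi]
  have hψa : ψu a = Polynomial.C a := by
    rw [ha, map_pow, hψne x hxt, Polynomial.C_pow]
  have hv : Polynomial.C a ∣ ψu G - Polynomial.C (X t) := by
    have h1 := key u F ⟨Polynomial.X, by rw [hu]; ring⟩ G
    have h2 : Polynomial.C a ∣ Polynomial.C (substT t F G) - Polynomial.C (X t) := by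
      rw [← Polynomial.C_sub]
      exact map_dvd Polynomial.C hL
    have h3 : ψu G - Polynomial.C (X t)
        = (ψu G - Polynomial.C (substT t F G))
          + (Polynomial.C (substT t F G) - Polynomial.C (X t)) := by ring
    rw [h3]
    exact dvd_add h1 h2
  obtain ⟨v, hv⟩ := hv
  let Sg : Polynomial (MvPolynomial τ ℂ) →ₐ[ℂ] Polynomial (MvPolynomial τ ℂ) :=
    Polynomial.eval₂AlgHom ψu v (fun _ => Commute.all _ _)
  have hSC : ∀ p, Sg (Polynomial.C p) = ψu p := fun p => Polynomial.eval₂_C _ _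
  have hSX : Sg Polynomial.X = v := Polynomial.eval₂_X _ _
  set g' : Polynomial (MvPolynomial τ ℂ) := Polynomial.C G - Polynomial.C a * Polynomial.X
    with hg'
  have hSg' : Sg g' = Polynomial.C (X t) := by
    rw [hg', map_sub, map_mul, hSC, hSC, hSX, hψa, ← hv]
    ring
  let Ξ : MvPolynomial τ ℂ →ₐ[ℂ] Polynomial (MvPolynomial τ ℂ) :=
    aeval (Function.update (fun i => Polynomial.C (X i)) t g')
  have hΞ : ∀ p, Sg (Ξ p) = Polynomial.C p := by
    have h1 : Sg.comp Ξ
        = (Polynomial.CAlgHom : MvPolynomial τ ℂ →ₐ[ℂ] Polynomial (MvPolynomial τ ℂ)) := by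
      apply algHom_ext
      intro i
      by_cases hi : i = t
      · subst hi
        simp only [AlgHom.comp_apply, Ξ, aeval_X, Function.update_self,
          Polynomial.CAlgHom_apply]
        exact hSg'
      · simp only [AlgHom.comp_apply, Ξ, aeval_X, Function.update_of_ne hi,
          Polynomial.CAlgHom_apply]
        rw [hSC, hψne i hi]
    intro p
    exact congrArg (fun Φ : MvPolynomial τ ℂ →ₐ[ℂ] Polynomial (MvPolynomial τ ℂ) => Φ p) h1
  have hw : Polynomial.C a ∣ Polynomial.C (X t) - Ξ F := by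
    have h1 := key g' G ⟨-Polynomial.X, by rw [hg']; ring⟩ F
    have h2 : Polynomial.C a ∣ Polynomial.C (substT t G F) - Polynomial.C (X t) := by
      rw [← Polynomial.C_sub]
      exact map_dvd Polynomial.C hR
    have h3 : Polynomial.C (X t) - Ξ F
        = -((Ξ F - Polynomial.C (substT t G F))
          + (Polynomial.C (substT t G F) - Polynomial.C (X t))) := by ring
    rw [h3]
    exact (dvd_add h1 h2).neg_right
  obtain ⟨w2, hw2⟩ := hw
  have hXmem : Sg w2 = Polynomial.X := by
    have h1 : Sg (Polynomial.C (X t) - Ξ F) = Polynomial.C a * Polynomial.X := by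
      rw [map_sub, hSC, hψt, hΞ, hu]
      ring
    rw [hw2, map_mul, hSC, hψa] at h1
    exact mul_left_cancel₀ ha0 h1
  have hsurj : Function.Surjective Sg := by
    intro q
    induction q using Polynomial.induction_on with
    | C p => exact ⟨Ξ p, hΞ p⟩
    | add p q hp hq =>
      obtain ⟨p', rfl⟩ := hp
      obtain ⟨q', rfl⟩ := hq
      exact ⟨p' + q', map_add _ _ _⟩
    | monomial n p _ =>
      refine ⟨Ξ p * w2 ^ (n + 1), ?_⟩
      rw [map_mul, map_pow, hΞ, hXmem]
  have hinj : Function.Injective Sg :=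
    injective_of_surjective_endo
      (Sg : Polynomial (MvPolynomial τ ℂ) →+* Polynomial (MvPolynomial τ ℂ)) hsurj
  refine ⟨AlgEquiv.ofBijective Sg ⟨hinj, hsurj⟩, ?_⟩
  change Sg (Polynomial.C (X t)) = _
  rw [hSC, hψt]

end PolyEquiv

section Assembly

/-- Evaluation at `x = 0`: `b = b(0, z) + x * B`. -/
theorem exists_eq_rename_add_mul {k : ℕ} (b : MvPolynomial (Fin (k + 1)) ℂ) :
    ∃ B : MvPolynomial (Fin (k + 1)) ℂ,
      b = rename Fin.succ (aeval (Fin.cons 0 X : Fin (k + 1) → MvPolynomial (Fin k) ℂ) b)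
        + X 0 * B := by
  let ε : MvPolynomial (Fin (k + 1)) ℂ →ₐ[ℂ] MvPolynomial (Fin (k + 1)) ℂ :=
    (rename Fin.succ).comp (aeval (Fin.cons 0 X : Fin (k + 1) → MvPolynomial (Fin k) ℂ))
  set I : Ideal (MvPolynomial (Fin (k + 1)) ℂ) := Ideal.span {X 0} with hI
  have h1 : (Ideal.Quotient.mkₐ ℂ I).comp ε = Ideal.Quotient.mkₐ ℂ I := by
    apply algHom_ext
    intro i
    refine Fin.cases ?_ (fun j => ?_) i
    · simp only [AlgHom.comp_apply, ε, aeval_X, Fin.cons_zero, map_zero,
        Ideal.Quotient.mkₐ_eq_mk]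
      symm
      rw [Ideal.Quotient.eq_zero_iff_mem]
      exact Ideal.subset_span rfl
    · simp [ε]
  have h2 := congrArg (fun Φ : MvPolynomial (Fin (k + 1)) ℂ →ₐ[ℂ]
    MvPolynomial (Fin (k + 1)) ℂ ⧸ I => Φ b) h1
  simp only [AlgHom.comp_apply, Ideal.Quotient.mkₐ_eq_mk] at h2
  have h3 : b - ε b ∈ I := Ideal.Quotient.eq.mp h2.symm
  rw [hI, Ideal.mem_span_singleton] at h3
  obtain ⟨B, hB⟩ := h3
  refine ⟨B, ?_⟩
  have : ε b = rename Fin.succ
      (aeval (Fin.cons 0 X : Fin (k + 1) → MvPolynomial (Fin k) ℂ) b) := rfl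
  rw [← this, ← hB]
  ring

/-- Extend an automorphism of `ℂ[z]` to an automorphism of `ℂ[x, z]` fixing `x`. -/
theorem exists_extend_equiv {k : ℕ}
    (θ : MvPolynomial (Fin k) ℂ ≃ₐ[ℂ] MvPolynomial (Fin k) ℂ) :
    ∃ Θ : MvPolynomial (Fin (k + 1)) ℂ ≃ₐ[ℂ] MvPolynomial (Fin (k + 1)) ℂ,
      Θ (X 0) = X 0 ∧ ∀ p, Θ (rename Fin.succ p) = rename Fin.succ (θ p) := by
  refine ⟨(finSuccEquiv ℂ k).trans
    ((Polynomial.mapAlgEquiv θ).trans (finSuccEquiv ℂ k).symm), ?_, ?_⟩
  · simp only [AlgEquiv.trans_apply]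
    rw [AlgEquiv.symm_apply_eq, finSuccEquiv_X_zero]
    simp [Polynomial.mapAlgEquiv]
  · intro p
    simp only [AlgEquiv.trans_apply]
    rw [AlgEquiv.symm_apply_eq, finSuccEquiv_rename_succ, finSuccEquiv_rename_succ]
    simp [Polynomial.mapAlgEquiv]

/-- If `b(0, z)` is a coordinate of `ℂ[z_1, …, z_k]`, then `x^m y + b(x, z)` is a coordinate of
`ℂ[x, y, z_1, …, z_k]` (variables: `x = X 0`, `y = X 1`, `z_i = X (i + 2)`). -/
theorem exists_equiv_of_coord_at_zero (k m : ℕ) (b : MvPolynomial (Fin (k + 1)) ℂ)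
    (θ : MvPolynomial (Fin k) ℂ ≃ₐ[ℂ] MvPolynomial (Fin k) ℂ) (i₀ : Fin k)
    (hθ : θ (X i₀) = aeval (Fin.cons 0 X : Fin (k + 1) → MvPolynomial (Fin k) ℂ) b) :
    ∃ (ψ : MvPolynomial (Fin (k + 2)) ℂ ≃ₐ[ℂ] MvPolynomial (Fin (k + 2)) ℂ) (i : Fin (k + 2)),
      ψ (X i) = X 0 ^ m * X 1 + rename (Fin.succAbove 1) b := by
  obtain ⟨B, hB⟩ := exists_eq_rename_add_mul b
  obtain ⟨Θ, hΘ0, hΘ⟩ := exists_extend_equiv θ
  set t : Fin (k + 1) := Fin.succ i₀ with ht
  have hxt : (0 : Fin (k + 1)) ≠ t := (Fin.succ_ne_zero i₀).symm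
  obtain ⟨S, hS⟩ := exists_polyEquiv (0 : Fin (k + 1)) t hxt (Θ.symm B) m
  have hΘF : Θ (X t + X 0 * Θ.symm B) = b := by
    rw [map_add, map_mul, hΘ0, AlgEquiv.apply_symm_apply]
    have h1 : (X t : MvPolynomial (Fin (k + 1)) ℂ) = rename Fin.succ (X i₀) := by
      rw [rename_X]
    rw [h1, hΘ, hθ]
    exact hB.symm
  let e : MvPolynomial (Fin (k + 2)) ℂ ≃ₐ[ℂ] Polynomial (MvPolynomial (Fin (k + 1)) ℂ) :=
    (renameEquiv ℂ (finSuccEquiv' (1 : Fin (k + 2)))).trans (optionEquivLeft ℂ (Fin (k + 1)))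
  have he1 : e (X 1) = Polynomial.X := by
    simp only [e, AlgEquiv.trans_apply, renameEquiv_apply, rename_X, finSuccEquiv'_at]
    exact optionEquivLeft_X_none ℂ _
  have hesucc : ∀ j : Fin (k + 1), e (X (Fin.succAbove 1 j)) = Polynomial.C (X j) := by
    intro j
    simp only [e, AlgEquiv.trans_apply, renameEquiv_apply, rename_X, finSuccEquiv'_succAbove]
    exact optionEquivLeft_X_some ℂ _ j
  have he0 : e (X 0) = Polynomial.C (X 0) := by
    have h1 := hesucc 0
    rwa [Fin.one_succAbove_zero] at h1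
  have heb : ∀ p : MvPolynomial (Fin (k + 1)) ℂ,
      e (rename (Fin.succAbove 1) p) = Polynomial.C p := by
    have h1 : (e : MvPolynomial (Fin (k + 2)) ℂ →ₐ[ℂ]
          Polynomial (MvPolynomial (Fin (k + 1)) ℂ)).comp (rename (Fin.succAbove 1))
        = Polynomial.CAlgHom := by
      apply algHom_ext
      intro j
      simp only [AlgHom.comp_apply, rename_X, Polynomial.CAlgHom_apply]
      exact hesucc j
    intro p
    exact congrArg (fun Φ : MvPolynomial (Fin (k + 1)) ℂ →ₐ[ℂ]
      Polynomial (MvPolynomial (Fin (k + 1)) ℂ) => Φ p) h1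
  refine ⟨e.trans ((S.trans (Polynomial.mapAlgEquiv Θ)).trans e.symm), Fin.succAbove 1 t, ?_⟩
  have hef : e (X 0 ^ m * X 1 + rename (Fin.succAbove 1) b)
      = Polynomial.C (X 0) ^ m * Polynomial.X + Polynomial.C b := by
    rw [map_add, map_mul, map_pow, he0, he1, heb]
  simp only [AlgEquiv.trans_apply]
  rw [hesucc, hS, AlgEquiv.symm_apply_eq, hef]
  have h2 : Polynomial.mapAlgEquiv Θ
        (Polynomial.C (X t + X 0 * Θ.symm B) + Polynomial.C (X 0 ^ m) * Polynomial.X)
      = Polynomial.C (Θ (X t + X 0 * Θ.symm B)) + Polynomial.C (Θ (X 0 ^ m)) * Polynomial.X := by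
    simp [Polynomial.mapAlgEquiv]
  rw [h2, hΘF, map_pow, hΘ0, Polynomial.C_pow]
  ring

end Assembly

end Vale.Agent.H79
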