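import Mathlib
import Vale.Agent.H79.Tangent
import Vale.Agent.H79.LinY

/-!
# Automorphisms `t ↦ t + P B + a y` when `a` divides a power of `P`

Let `P` and `a ≠ 0` be polynomials in variables different from `t` such that `a` divides a
power of `P`.  For every `B`, the map `F(t) = t + P B` has a two-sided compositional inverse
`G` modulo `P^m`, hence modulo `a`, and `t ↦ F(t) + a y`, `y ↦ (G(F(t) + a y) - t) / a` is an
automorphism of `ℂ[τ][y]`.
-/

namespace Vale.Agent.H79

open MvPolynomial

section SubstG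

variable {τ : Type*} [DecidableEq τ]

/-- Substituting for `t` does not change polynomials in variables different from `t`. -/
theorem substT_rename {ρ : Type*} (t : τ) (ι : ρ → τ) (hι : ∀ i, ι i ≠ t)
    (q : MvPolynomial τ ℂ) (p : MvPolynomial ρ ℂ) : substT t q (rename ι p) = rename ι p := by
  have h1 : (substT t q).comp (rename ι) = rename ι := by
    apply algHom_ext
    intro i
    simp [substT_X_of_ne _ _ _ (hι i)]
  exact congrArg (fun F : MvPolynomial ρ ℂ →ₐ[ℂ] MvPolynomial τ ℂ => F p) h1

variable (t : τ) (P : MvPolynomial τ ℂ)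

/-- Approximations to the compositional inverse of `t ↦ t + P B`. -/
noncomputable def gseqG (B : MvPolynomial τ ℂ) : ℕ → MvPolynomial τ ℂ
  | 0 => X t
  | j + 1 => X t - P * substT t (gseqG B j) B

theorem gseqG_zero (B : MvPolynomial τ ℂ) : gseqG t P B 0 = X t := rfl

theorem gseqG_succ (B : MvPolynomial τ ℂ) (j : ℕ) :
    gseqG t P B (j + 1) = X t - P * substT t (gseqG t P B j) B := rfl

theorem gseqG_succ_sub (B : MvPolynomial τ ℂ) (j : ℕ) :
    P ^ (j + 1) ∣ gseqG t P B (j + 1) - gseqG t P B j := by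
  induction j with
  | zero =>
    rw [gseqG_succ, gseqG_zero, substT_self]
    exact ⟨-B, by ring⟩
  | succ j ih =>
    have h1 := substT_dvd_sub t _ _ _ ih B
    obtain ⟨c, hc⟩ := h1
    refine ⟨-c, ?_⟩
    have e1 : gseqG t P B (j + 1 + 1) = X t - P * substT t (gseqG t P B (j + 1)) B := rfl
    have e2 : gseqG t P B (j + 1) = X t - P * substT t (gseqG t P B j) B := rfl
    have e3 : gseqG t P B (j + 1 + 1) - gseqG t P B (j + 1)
        = -(P * (substT t (gseqG t P B (j + 1)) B - substT t (gseqG t P B j) B)) := by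
      rw [e1]
      have := congrArg (fun z => X t - P * substT t (gseqG t P B (j + 1)) B - z) e2
      rw [this]
      ring
    rw [e3, hc]
    ring

theorem substT_gseqG (hP : ∀ q, substT t q P = P) (B : MvPolynomial τ ℂ) (j : ℕ) :
    P ^ (j + 1) ∣ substT t (gseqG t P B j) (X t + P * B) - X t := by
  have hF : ∀ q : MvPolynomial τ ℂ, substT t q (X t + P * B) = q + P * substT t q B := by
    intro q
    rw [map_add, map_mul, substT_X_self, hP]
  rw [hF]
  cases j with
  | zero =>
    rw [gseqG_zero, substT_self]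
    exact ⟨B, by ring⟩
  | succ j =>
    obtain ⟨c, hc⟩ := substT_dvd_sub t _ _ _ (gseqG_succ_sub t P B j) B
    refine ⟨c, ?_⟩
    have e2 : gseqG t P B (j + 1) = X t - P * substT t (gseqG t P B j) B := rfl
    have e3 : gseqG t P B (j + 1) + P * substT t (gseqG t P B (j + 1)) B - X t
        = P * (substT t (gseqG t P B (j + 1)) B - substT t (gseqG t P B j) B) := by
      have := congrArg (fun z => z + P * substT t (gseqG t P B (j + 1)) B - X t) e2
      rw [this]
      ring
    rw [e3, hc]
    ring

/-- A right compositional inverse of `t + P B` modulo `P^m`, of the same shape. -/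
theorem exists_right_inverseG (hP : ∀ q, substT t q P = P) (B : MvPolynomial τ ℂ) (m : ℕ) :
    ∃ B' : MvPolynomial τ ℂ,
      P ^ m ∣ substT t (X t + P * B') (X t + P * B) - X t := by
  refine ⟨-substT t (gseqG t P B m) B, ?_⟩
  have h1 := substT_gseqG t P hP B (m + 1)
  have h2 : gseqG t P B (m + 1) = X t + P * -substT t (gseqG t P B m) B := by
    rw [gseqG_succ]
    ring
  rw [h2] at h1
  exact dvd_trans (pow_dvd_pow _ (by omega)) h1

/-- A two-sided compositional inverse of `t + P B` modulo `P^m`. -/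
theorem exists_two_sided_inverseG (hP : ∀ q, substT t q P = P) (B : MvPolynomial τ ℂ)
    (m : ℕ) :
    ∃ B' : MvPolynomial τ ℂ,
      P ^ m ∣ substT t (X t + P * B') (X t + P * B) - X t ∧
      P ^ m ∣ substT t (X t + P * B) (X t + P * B') - X t := by
  obtain ⟨B', hR⟩ := exists_right_inverseG t P hP B m
  obtain ⟨B'', hR'⟩ := exists_right_inverseG t P hP B' m
  refine ⟨B', hR, ?_⟩
  set F : MvPolynomial τ ℂ := X t + P * B with hF
  set G : MvPolynomial τ ℂ := X t + P * B' with hG
  set H : MvPolynomial τ ℂ := X t + P * B'' with hH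
  set I : Ideal (MvPolynomial τ ℂ) := Ideal.span {P ^ m} with hI
  have h1 : substT t G F - X t ∈ I := Ideal.mem_span_singleton.mpr hR
  have h2 : substT t H G - X t ∈ I := Ideal.mem_span_singleton.mpr hR'
  have hfix : substT t H (P ^ m) = P ^ m := by
    rw [map_pow, hP]
  have hmap : ∀ y, y ∈ I → substT t H y ∈ I := by
    intro y hy
    rw [hI, Ideal.mem_span_singleton] at hy ⊢
    have := map_dvd (substT t H) hy
    rwa [hfix] at this
  -- `F ≡ H`
  have h3 : substT t (substT t H G) F - F ∈ I := by
    have := substT_sub_mem t I _ _ h2 F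
    rwa [substT_self] at this
  have h4 : substT t H (substT t G F) - H ∈ I := by
    have := hmap _ h1
    rwa [map_sub, substT_X_self] at this
  have h5 : F - H ∈ I := by
    have h6 : F - H = (substT t H (substT t G F) - H) - (substT t (substT t H G) F - F) := by
      rw [substT_comp]
      ring
    rw [h6]
    exact I.sub_mem h4 h3
  have h7 : substT t F G - substT t H G ∈ I := substT_sub_mem t I _ _ h5 G
  have h8 : substT t F G - X t = (substT t F G - substT t H G) + (substT t H G - X t) := by ring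
  rw [← Ideal.mem_span_singleton, h8]
  exact I.add_mem h7 h2

end SubstG

section PolyEquivG

variable {τ : Type*} [DecidableEq τ] [Finite τ]

/-- The automorphism `t ↦ t + P B + a y` of `ℂ[τ][y]`, for `P`, `a` in variables different
from `t`, `a ≠ 0` dividing a power of `P`. -/
theorem exists_polyEquivG {ρ : Type*} (t : τ) (ι : ρ → τ) (hι : ∀ i, ι i ≠ t)
    (P₀ a₀ : MvPolynomial ρ ℂ) (ha0 : rename ι a₀ ≠ 0) (m : ℕ) (ham : a₀ ∣ P₀ ^ m)
    (B : MvPolynomial τ ℂ) :
    ∃ S : Polynomial (MvPolynomial τ ℂ) ≃ₐ[ℂ] Polynomial (MvPolynomial τ ℂ),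
      S (Polynomial.C (X t))
        = Polynomial.C (X t + rename ι P₀ * B) + Polynomial.C (rename ι a₀) * Polynomial.X := by
  classical
  set P : MvPolynomial τ ℂ := rename ι P₀ with hPdef
  set a : MvPolynomial τ ℂ := rename ι a₀ with ha
  have hP : ∀ q, substT t q P = P := fun q => substT_rename t ι hι q P₀
  have ham' : a ∣ P ^ m := by
    rw [hPdef, ha, ← map_pow]
    exact map_dvd (rename ι) ham
  obtain ⟨B', hR0, hL0⟩ := exists_two_sided_inverseG t P hP B m
  set F : MvPolynomial τ ℂ := X t + P * B with hF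
  set G : MvPolynomial τ ℂ := X t + P * B' with hG
  have hR : a ∣ substT t G F - X t := dvd_trans ham' hR0
  have hL : a ∣ substT t F G - X t := dvd_trans ham' hL0
  have hCa0 : (Polynomial.C a : Polynomial (MvPolynomial τ ℂ)) ≠ 0 := by
    rw [Ne, Polynomial.C_eq_zero]
    exact ha0
  -- a general congruence for substitution homomorphisms into `ℂ[τ][y]`
  have key : ∀ (g : Polynomial (MvPolynomial τ ℂ)) (q : MvPolynomial τ ℂ),
      Polynomial.C a ∣ g - Polynomial.C q → ∀ p : MvPolynomial τ ℂ,
      Polynomial.C a ∣ aeval (Function.update (fun i => Polynomial.C (X i)) t g) p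
        - Polynomial.C (substT t q p) := by
    intro g q hgq p
    set J : Ideal (Polynomial (MvPolynomial τ ℂ)) := Ideal.span {Polynomial.C a} with hJ
    have h1 : (Ideal.Quotient.mkₐ ℂ J).comp
          (aeval (Function.update (fun i => Polynomial.C (X i)) t g) :
            MvPolynomial τ ℂ →ₐ[ℂ] Polynomial (MvPolynomial τ ℂ))
        = (Ideal.Quotient.mkₐ ℂ J).comp
          ((Polynomial.CAlgHom : MvPolynomial τ ℂ →ₐ[ℂ] Polynomial (MvPolynomial τ ℂ)).comp
            (substT t q)) := by
      apply algHom_ext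
      intro i
      by_cases hi : i = t
      · subst hi
        simp only [AlgHom.comp_apply, aeval_X, Function.update_self, substT_X_self,
          Ideal.Quotient.mkₐ_eq_mk, Polynomial.CAlgHom_apply]
        exact Ideal.Quotient.eq.mpr (Ideal.mem_span_singleton.mpr hgq)
      · simp [substT_X_of_ne _ _ _ hi, hi]
    have h2 := congrArg (fun Φ : MvPolynomial τ ℂ →ₐ[ℂ] Polynomial (MvPolynomial τ ℂ) ⧸ J =>
      Φ p) h1
    simp only [AlgHom.comp_apply, Ideal.Quotient.mkₐ_eq_mk, Polynomial.CAlgHom_apply] at h2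
    exact Ideal.mem_span_singleton.mp (Ideal.Quotient.eq.mp h2)
  set u : Polynomial (MvPolynomial τ ℂ) := Polynomial.C F + Polynomial.C a * Polynomial.X with hu
  let ψu : MvPolynomial τ ℂ →ₐ[ℂ] Polynomial (MvPolynomial τ ℂ) :=
    aeval (Function.update (fun i => Polynomial.C (X i)) t u)
  have hψt : ψu (X t) = u := by simp [ψu]
  have hψne : ∀ i, i ≠ t → ψu (X i) = Polynomial.C (X i) := by
    intro i hi
    simp [ψu, hi]
  have hψa : ψu a = Polynomial.C a := by
    have h1 : ψu.comp (rename ι)
        = (Polynomial.CAlgHom : MvPolynomial τ ℂ →ₐ[ℂ] Polynomial (MvPolynomial τ ℂ)).comp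
          (rename ι) := by
      apply algHom_ext
      intro i
      simp only [AlgHom.comp_apply, rename_X, Polynomial.CAlgHom_apply]
      exact hψne (ι i) (hι i)
    have h2 := congrArg (fun Φ : MvPolynomial ρ ℂ →ₐ[ℂ] Polynomial (MvPolynomial τ ℂ) =>
      Φ a₀) h1
    simpa only [AlgHom.comp_apply, Polynomial.CAlgHom_apply] using h2
  have hv : Polynomial.C a ∣ ψu G - Polynomial.C (X t) := by
    have h1 := key u F ⟨Polynomial.X, by rw [hu]; ring⟩ G
    have h2 : Polynomial.C a ∣ Polynomial.C (substT t F G) - Polynomial.C (X t) := by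
      rw [← Polynomial.C_sub]
      exact map_dvd Polynomial.C hL
    have h3 : ψu G - Polynomial.C (X t)
        = (ψu G - Polynomial.C (substT t F G))
          + (Polynomial.C (substT t F G) - Polynomial.C (X t)) := by ring
    rw [h3]
    exact dvd_add h1 h2
  obtain ⟨v, hv⟩ := hv
  let Sg : Polynomial (MvPolynomial τ ℂ) →ₐ[ℂ] Polynomial (MvPolynomial τ ℂ) :=
    Polynomial.eval₂AlgHom ψu v (fun _ => Commute.all _ _)
  have hSC : ∀ p, Sg (Polynomial.C p) = ψu p := fun p => Polynomial.eval₂_C _ _
  have hSX : Sg Polynomial.X = v := Polynomial.eval₂_X _ _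
  set g' : Polynomial (MvPolynomial τ ℂ) := Polynomial.C G - Polynomial.C a * Polynomial.X
    with hg'
  have hSg' : Sg g' = Polynomial.C (X t) := by
    rw [hg', map_sub, map_mul, hSC, hSC, hSX, hψa, ← hv]
    ring
  let Ξ : MvPolynomial τ ℂ →ₐ[ℂ] Polynomial (MvPolynomial τ ℂ) :=
    aeval (Function.update (fun i => Polynomial.C (X i)) t g')
  have hΞ : ∀ p, Sg (Ξ p) = Polynomial.C p := by
    have h1 : Sg.comp Ξ
        = (Polynomial.CAlgHom : MvPolynomial τ ℂ →ₐ[ℂ] Polynomial (MvPolynomial τ ℂ)) := by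
      apply algHom_ext
      intro i
      by_cases hi : i = t
      · subst hi
        simp only [AlgHom.comp_apply, Ξ, aeval_X, Function.update_self,
          Polynomial.CAlgHom_apply]
        exact hSg'
      · simp only [AlgHom.comp_apply, Ξ, aeval_X, Function.update_of_ne hi,
          Polynomial.CAlgHom_apply]
        rw [hSC, hψne i hi]
    intro p
    exact congrArg (fun Φ : MvPolynomial τ ℂ →ₐ[ℂ] Polynomial (MvPolynomial τ ℂ) => Φ p) h1
  have hw : Polynomial.C a ∣ Polynomial.C (X t) - Ξ F := by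
    have h1 := key g' G ⟨-Polynomial.X, by rw [hg']; ring⟩ F
    have h2 : Polynomial.C a ∣ Polynomial.C (substT t G F) - Polynomial.C (X t) := by
      rw [← Polynomial.C_sub]
      exact map_dvd Polynomial.C hR
    have h3 : Polynomial.C (X t) - Ξ F
        = -((Ξ F - Polynomial.C (substT t G F))
          + (Polynomial.C (substT t G F) - Polynomial.C (X t))) := by ring
    rw [h3]
    exact (dvd_add h1 h2).neg_right
  obtain ⟨w2, hw2⟩ := hw
  have hXmem : Sg w2 = Polynomial.X := by
    have h1 : Sg (Polynomial.C (X t) - Ξ F) = Polynomial.C a * Polynomial.X := by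
      rw [map_sub, hSC, hψt, hΞ, hu]
      ring
    rw [hw2, map_mul, hSC, hψa] at h1
    exact mul_left_cancel₀ hCa0 h1
  have hsurj : Function.Surjective Sg := by
    intro q
    induction q using Polynomial.induction_on with
    | C p => exact ⟨Ξ p, hΞ p⟩
    | add p q hp hq =>
      obtain ⟨p', rfl⟩ := hp
      obtain ⟨q', rfl⟩ := hq
      exact ⟨p' + q', map_add _ _ _⟩
    | monomial n p _ =>
      refine ⟨Ξ p * w2 ^ (n + 1), ?_⟩
      rw [map_mul, map_pow, hΞ, hXmem]
  have hinj : Function.Injective Sg :=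
    injective_of_surjective_endo
      (Sg : Polynomial (MvPolynomial τ ℂ) →+* Polynomial (MvPolynomial τ ℂ)) hsurj
  refine ⟨AlgEquiv.ofBijective Sg ⟨hinj, hsurj⟩, ?_⟩
  change Sg (Polynomial.C (X t)) = _
  rw [hSC, hψt]

end PolyEquivG

end Vale.Agent.H79
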