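import Mathlib

/-!
# Point counts over finite fields for `x^m y + b(x, z)`

Elementary counting over a finite field `K`:

* the fibres of `(y, x, z) ↦ x^m y + B(x, z)` (with `m ≥ 1`) are governed by the fibres of
  `z ↦ B(0, z)`;
* a function invariant under a point reflection has fibres of even size away from the value
  at the centre (odd characteristic).
-/

namespace Vale.Agent.H79

open MvPolynomial

section Count

variable (K : Type*) [Field K] [Fintype K]

/-- In a finite field in which `2 ≠ 0` the number of elements is odd. -/
theorem not_two_dvd_card (h2 : (2 : K) ≠ 0) : ¬ 2 ∣ Fintype.card K := by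
  intro hdvd
  obtain ⟨l, hl⟩ := CharP.exists K
  obtain ⟨n, hlprime, hcardK⟩ := FiniteField.card K l
  rw [hcardK] at hdvd
  have h2l : 2 ∣ l := Nat.prime_two.dvd_of_dvd_pow hdvd
  have h3 : 2 = l := (Nat.prime_dvd_prime_iff_eq Nat.prime_two hlprime).mp h2l
  apply h2
  have h4 := CharP.cast_eq_zero K l
  rw [← h3] at h4
  simpa using h4

/-- Fibres of a function invariant under the point reflection through `p` have even size,
except possibly the fibre through `p`. -/
theorem even_card_fiber_of_reflection (h2 : (2 : K) ≠ 0) (k : ℕ)
    (B : (Fin k → K) → K) (p : Fin k → K) (hB : ∀ z, B (fun i => 2 * p i - z i) = B z)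
    (c : K) (hc : c ≠ B p) :
    Even (Nat.card {z : Fin k → K // B z = c}) := by
  classical
  rw [Nat.card_eq_fintype_card]
  by_contra hodd
  have hnd : ¬ 2 ∣ Fintype.card {z : Fin k → K // B z = c} := by
    intro h
    exact hodd (even_iff_two_dvd.mpr h)
  let τ : Equiv.Perm {z : Fin k → K // B z = c} :=
    { toFun := fun z => ⟨fun i => 2 * p i - z.1 i, by rw [hB]; exact z.2⟩
      invFun := fun z => ⟨fun i => 2 * p i - z.1 i, by rw [hB]; exact z.2⟩
      left_inv := by
        intro z
        apply Subtype.ext
        funext i
        simp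
      right_inv := by
        intro z
        apply Subtype.ext
        funext i
        simp }
  have hτ : τ ^ 2 ^ 1 = 1 := by
    ext z : 1
    rw [pow_one, sq]
    apply Subtype.ext
    funext i
    simp [τ]
  have : Fact (Nat.Prime 2) := ⟨Nat.prime_two⟩
  obtain ⟨a, ha⟩ := Equiv.Perm.exists_fixed_point_of_prime hnd hτ
  have hap : a.1 = p := by
    funext i
    have h1 : 2 * p i - a.1 i = a.1 i := congrFun (congrArg Subtype.val ha) i
    have h3 : (2 : K) * (p i - a.1 i) = 0 := by linear_combination h1
    rcases mul_eq_zero.mp h3 with h4 | h4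
    · exact absurd h4 h2
    · exact (sub_eq_zero.mp h4).symm
  apply hc
  rw [← hap]
  exact a.2.symm

/-- Fibre count for `(y, w) ↦ w_0^m y + B(w)`. -/
theorem card_graph_fiber (k m : ℕ) (hm : 1 ≤ m) (B : (Fin (k + 1) → K) → K) (c : K) :
    Nat.card {s : K × (Fin (k + 1) → K) // s.2 0 ^ m * s.1 + B s.2 = c} + Nat.card K ^ k
      = Nat.card K * Nat.card {z : Fin k → K // B (Fin.cons 0 z) = c}
        + Nat.card K ^ (k + 1) := by
  classical
  simp only [Nat.card_eq_fintype_card]
  rw [Fintype.card_subtype, Fintype.card_subtype, Finset.card_filter, Finset.card_filter,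
    Fintype.sum_prod_type_right]
  have hinner : ∀ w : Fin (k + 1) → K,
      (∑ y : K, if w 0 ^ m * y + B w = c then 1 else 0)
        = if w 0 = 0 then (if B w = c then Fintype.card K else 0) else 1 := by
    intro w
    by_cases hw : w 0 = 0
    · rw [if_pos hw, hw, zero_pow (by omega)]
      simp only [zero_mul, zero_add]
      by_cases hBc : B w = c
      · simp [hBc]
      · simp [hBc]
    · rw [if_neg hw]
      have hne : w 0 ^ m ≠ 0 := pow_ne_zero m hw
      have hiff : ∀ y : K, (w 0 ^ m * y + B w = c) ↔ y = (c - B w) / w 0 ^ m := by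
        intro y
        constructor
        · intro h
          rw [eq_div_iff hne]
          linear_combination h
        · intro h
          rw [h]
          field_simp
          ring
      simp only [hiff]
      simp
  simp only [hinner]
  rw [← (Fin.consEquiv (fun _ : Fin (k + 1) => K)).sum_comp, Fintype.sum_prod_type]
  have hce : ∀ (x : K) (z : Fin k → K),
      (Fin.consEquiv (fun _ : Fin (k + 1) => K)) (x, z) = Fin.cons x z := fun _ _ => rfl
  simp only [hce, Fin.cons_zero]
  have hx : ∀ x : K, (∑ z : Fin k → K,
      if x = 0 then (if B (Fin.cons x z) = c then Fintype.card K else 0) else 1)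
        + (if x = 0 then Fintype.card K ^ k else 0)
      = (if x = 0 then Fintype.card K * ∑ z : Fin k → K,
          (if B (Fin.cons 0 z) = c then 1 else 0) else 0) + Fintype.card K ^ k := by
    intro x
    by_cases hx0 : x = 0
    · subst hx0
      simp only [if_true]
      rw [Finset.mul_sum]
      congr 1
      apply Finset.sum_congr rfl
      intro z _
      split_ifs <;> simp
    · simp [hx0]
  have hsum := Finset.sum_congr (s₁ := (Finset.univ : Finset K)) rfl (fun x _ => hx x)
  rw [Finset.sum_add_distrib, Finset.sum_add_distrib] at hsum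
  simp only [Finset.sum_ite_eq', Finset.mem_univ, if_true, Finset.sum_const, Finset.card_univ,
    smul_eq_mul] at hsum
  rw [hsum, pow_succ]
  ring

end Count

end Vale.Agent.H79
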