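import Mathlib
import Vale.Agent.H79.Quad
import Vale.Agent.H79.Quadric
import Vale.Agent.H79.LinY
import Vale.Agent.H79.Spread
import Vale.Agent.H79.XmYCount

/-!
# Stable coordinates of the form `x^m y + b(x, z)`

Variables of `ℂ[x, y, z_1, …, z_k]`: `x = X 0`, `y = X 1`, `z_i = X (i + 2)`.  For `m ≥ 1` and
`b ∈ ℂ[x, z_1, …, z_k]` such that `b(0, z)` has total degree at most two: if
`f = x^m y + b(x, z)` is a stable coordinate, then `f` is a coordinate.
-/

namespace Vale.Agent.H79

open MvPolynomial

/-- Fibre count of `x^m y + β(x, z)` over a finite field in terms of the fibres of `β(0, z)`. -/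
theorem card_fiber_xmy (K : Type) [Field K] [Fintype K] (k m M : ℕ) (hm : 1 ≤ m)
    (β : MvPolynomial (Fin (k + 1)) K) (c : K) :
    Nat.card {v : Fin (k + 2) ⊕ Fin M → K //
        eval v (rename Sum.inl (X 0 ^ m * X 1 + rename (Fin.succAbove 1) β)) = c}
      + Nat.card K ^ (k + M)
    = Nat.card K ^ (M + 1) * Nat.card {z : Fin k → K // eval (Fin.cons 0 z) β = c}
      + Nat.card K ^ (k + 1 + M) := by
  classical
  let E : (Fin (k + 2) ⊕ Fin M → K) ≃ (K × (Fin (k + 1) → K)) × (Fin M → K) :=
    (Equiv.sumArrowEquivProdArrow (Fin (k + 2)) (Fin M) K).trans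
      (Equiv.prodCongr (Fin.insertNthEquiv (fun _ : Fin (k + 2) => K) 1).symm (Equiv.refl _))
  have hE : ∀ v : Fin (k + 2) ⊕ Fin M → K,
      eval v (rename Sum.inl (X 0 ^ m * X 1 + rename (Fin.succAbove 1) β)) = c ↔
        (E v).1.2 0 ^ m * (E v).1.1 + eval (E v).1.2 β = c := by
    intro v
    have h1 : (E v).1.1 = v (Sum.inl 1) := rfl
    have h2 : (E v).1.2 = fun i => v (Sum.inl (Fin.succAbove 1 i)) := rfl
    have h3 : (E v).1.2 0 = v (Sum.inl 0) := by
      rw [h2]
      show v (Sum.inl (Fin.succAbove 1 0)) = v (Sum.inl 0)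
      rw [Fin.one_succAbove_zero]
    rw [h3, h1, h2]
    simp only [eval_rename, map_add, map_mul, map_pow, eval_X, Function.comp_apply]
    rfl
  let e : {v : Fin (k + 2) ⊕ Fin M → K //
        eval v (rename Sum.inl (X 0 ^ m * X 1 + rename (Fin.succAbove 1) β)) = c}
      ≃ {s : K × (Fin (k + 1) → K) // s.2 0 ^ m * s.1 + eval s.2 β = c} × (Fin M → K) :=
    (E.subtypeEquiv (p := fun v => eval v
        (rename Sum.inl (X 0 ^ m * X 1 + rename (Fin.succAbove 1) β)) = c)
      (q := fun t : (K × (Fin (k + 1) → K)) × (Fin M → K) =>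
        t.1.2 0 ^ m * t.1.1 + eval t.1.2 β = c) hE).trans
      (Equiv.prodSubtypeFstEquivSubtypeProd
        (p := fun s : K × (Fin (k + 1) → K) => s.2 0 ^ m * s.1 + eval s.2 β = c))
  have hgr := card_graph_fiber K k m hm (fun w => eval w β) c
  rw [Nat.card_congr e, Nat.card_prod, Nat.card_fun, Nat.card_eq_fintype_card (α := Fin M),
    Fintype.card_fin]
  calc Nat.card {s : K × (Fin (k + 1) → K) // s.2 0 ^ m * s.1 + eval s.2 β = c}
        * Nat.card K ^ M + Nat.card K ^ (k + M)
      = (Nat.card {s : K × (Fin (k + 1) → K) // s.2 0 ^ m * s.1 + eval s.2 β = c}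
        + Nat.card K ^ k) * Nat.card K ^ M := by ring
    _ = (Nat.card K * Nat.card {z : Fin k → K // eval (Fin.cons 0 z) β = c}
        + Nat.card K ^ (k + 1)) * Nat.card K ^ M := by rw [hgr]
    _ = Nat.card K ^ (M + 1) * Nat.card {z : Fin k → K // eval (Fin.cons 0 z) β = c}
        + Nat.card K ^ (k + 1 + M) := by ring

/-- `Fin.cons 0` of a family after applying a ring homomorphism coordinatewise. -/
theorem funext_cons_zero {k : ℕ} {A B : Type*} [Zero A] [Zero B] (F : A → B) (hF : F 0 = 0)
    (r : Fin k → A) :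
    (fun i => F ((Fin.cons 0 r : Fin (k + 1) → A) i)) = Fin.cons 0 (fun i => F (r i)) := by
  funext i
  refine Fin.cases ?_ (fun j => ?_) i
  · simp [hF]
  · simp

/-- **Stable coordinates `x^m y + b(x, z)` with `deg b(0, z) ≤ 2` are coordinates.** -/
theorem exists_equiv_of_stable_xmy (k m M : ℕ) (hm : 1 ≤ m) (b : MvPolynomial (Fin (k + 1)) ℂ)
    (hb : (aeval (Fin.cons 0 X : Fin (k + 1) → MvPolynomial (Fin k) ℂ) b).totalDegree ≤ 2)
    (φ : MvPolynomial (Fin (k + 2) ⊕ Fin M) ℂ ≃ₐ[ℂ] MvPolynomial (Fin (k + 2) ⊕ Fin M) ℂ)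
    (j : Fin (k + 2) ⊕ Fin M)
    (hφ : φ (X j) = rename Sum.inl (X 0 ^ m * X 1 + rename (Fin.succAbove 1) b)) :
    ∃ (ψ : MvPolynomial (Fin (k + 2)) ℂ ≃ₐ[ℂ] MvPolynomial (Fin (k + 2)) ℂ) (i : Fin (k + 2)),
      ψ (X i) = X 0 ^ m * X 1 + rename (Fin.succAbove 1) b := by
  classical
  by_cases hcrit : ∀ a : Fin k → ℂ, ∃ i, eval a
      (pderiv i (aeval (Fin.cons 0 X : Fin (k + 1) → MvPolynomial (Fin k) ℂ) b)) ≠ 0
  · obtain ⟨θ, i₀, hθ⟩ := exists_equiv_of_totalDegree_le_two _ hb hcrit
    exact exists_equiv_of_coord_at_zero k m b θ i₀ hθ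
  · exfalso
    push Not at hcrit
    obtain ⟨p, hp⟩ := hcrit
    have hrefl := reflect_eq_self_of_critical _ hb p hp
    obtain ⟨S, K, _, _, π, hT, h2, hbal⟩ :=
      exists_balanced_reduction φ (b.coeffs ∪ Finset.univ.image p)
    let f : S →+* ℂ := (S.val : S →+* ℂ)
    have hf : Function.Injective f := Subtype.val_injective
    have hbr : b ∈ Set.range (MvPolynomial.map f) := by
      rw [mem_range_map_iff_coeffs_subset]
      intro c hc
      exact ⟨⟨c, hT c (Finset.mem_union_left _ hc)⟩, rfl⟩
    obtain ⟨b', hb'⟩ := hbr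
    let p' : Fin k → S := fun i =>
      ⟨p i, hT (p i) (Finset.mem_union_right _ (Finset.mem_image_of_mem p (Finset.mem_univ i)))⟩
    have hp' : ∀ i, f (p' i) = p i := fun i => rfl
    -- the reflection identity over `S`
    let u' : Fin (k + 1) → MvPolynomial (Fin k) S :=
      Fin.cons 0 (fun i => C (2 * p' i) - X i)
    let v' : Fin (k + 1) → MvPolynomial (Fin k) S := Fin.cons 0 X
    have hu' : (fun i => MvPolynomial.map f (u' i))
        = Fin.cons 0 (fun i => C (2 * p i) - X i) := by
      rw [funext_cons_zero (MvPolynomial.map f) (map_zero _)]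
      congr 1
      funext i
      simp [hp', map_ofNat]
    have hv' : (fun i => MvPolynomial.map f (v' i)) = Fin.cons 0 X := by
      rw [funext_cons_zero (MvPolynomial.map f) (map_zero _)]
      congr 1
      funext i
      simp
    have hS : bind₁ u' b' = bind₁ v' b' := by
      apply map_injective f hf
      rw [map_bind₁, map_bind₁, hb', hu', hv']
      have h1 : reflect p (bind₁ (Fin.cons 0 X : Fin (k + 1) → MvPolynomial (Fin k) ℂ) b)
          = bind₁ (Fin.cons 0 (fun i => C (2 * p i) - X i)) b := by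
        have h2 : reflect p = bind₁ (fun i => C (2 * p i) - X i) := rfl
        rw [h2, bind₁_bind₁,
          funext_cons_zero (bind₁ (fun i => (C (2 * p i) - X i : MvPolynomial (Fin k) ℂ)))
            (map_zero _)]
        congr 2
        funext i
        simp
      rw [← h1]
      exact hrefl
    -- reduce to `K`
    set β : MvPolynomial (Fin (k + 1)) K := MvPolynomial.map π b' with hβ
    let pb : Fin k → K := fun i => π (p' i)
    have hsym : ∀ z : Fin k → K,
        eval (Fin.cons 0 (fun i => 2 * pb i - z i) : Fin (k + 1) → K) β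
          = eval (Fin.cons 0 z : Fin (k + 1) → K) β := by
      intro z
      have h1 := congrArg (fun q => eval z (MvPolynomial.map π q)) hS
      simp only [map_bind₁, eval_bind₁'] at h1
      rw [funext_cons_zero (fun q => eval z (MvPolynomial.map π q)) (by simp),
        funext_cons_zero (fun q => eval z (MvPolynomial.map π q)) (by simp)] at h1
      have h3 : (fun i => eval z (MvPolynomial.map π (C (2 * p' i) - X i)))
          = fun i => 2 * pb i - z i := by
        funext i
        simp [pb, map_ofNat]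
      have h4 : (fun i => eval z (MvPolynomial.map π (X i : MvPolynomial (Fin k) S))) = z := by
        funext i
        simp
      rw [h3, h4] at h1
      exact h1
    -- the counting identity
    let P : MvPolynomial (Fin (k + 2) ⊕ Fin M) S :=
      rename Sum.inl (X 0 ^ m * X 1 + rename (Fin.succAbove 1) b')
    have hP : MvPolynomial.map f P = φ (X j) := by
      rw [hφ]
      simp [P, map_rename, hb']
    have hPπ : MvPolynomial.map π P
        = rename Sum.inl (X 0 ^ m * X 1 + rename (Fin.succAbove 1) β) := by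
      simp [P, map_rename, hβ]
    have hcount := hbal j P hP
    rw [hPπ] at hcount
    -- choose a value different from the value at the centre
    set c : K := eval (Fin.cons 0 pb : Fin (k + 1) → K) β + 1 with hc
    have hcne : c ≠ eval (Fin.cons 0 pb : Fin (k + 1) → K) β := by
      rw [hc]
      intro h
      exact one_ne_zero (add_eq_left.mp h)
    have heven := even_card_fiber_of_reflection K h2 k
      (fun z => eval (Fin.cons 0 z : Fin (k + 1) → K) β) pb hsym c hcne
    have h5 := card_fiber_xmy K k m M hm β c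
    have h6 := hcount c
    rw [Fintype.card_sum, Fintype.card_fin, Fintype.card_fin] at h6
    set N := Nat.card {v : Fin (k + 2) ⊕ Fin M → K //
        eval v (rename Sum.inl (X 0 ^ m * X 1 + rename (Fin.succAbove 1) β)) = c} with hN
    set N₀ := Nat.card {z : Fin k → K // eval (Fin.cons 0 z : Fin (k + 1) → K) β = c} with hN₀
    set q := Nat.card K with hq
    have hqpos : 0 < q := Nat.card_pos
    -- `q^(M+1) * (q * N₀) = q^(M+1) * q^k`
    have h7 : q ^ (M + 1) * (q * N₀) = q ^ (M + 1) * q ^ k := by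
      have h8 : (N + q ^ (k + M)) * q = (q ^ (M + 1) * N₀ + q ^ (k + 1 + M)) * q := by
        rw [h5]
      have h9 : N * q + q ^ (k + M) * q = q ^ (M + 1) * (q * N₀) + q ^ (k + 1 + M) * q := by
        linarith [h8]
      rw [h6] at h9
      have h10 : q ^ (k + 2 + M) = q ^ (k + 1 + M) * q := by ring
      have h11 : q ^ (k + M) * q = q ^ (M + 1) * q ^ k := by ring
      linarith [h9, h10, h11]
    have h12 : q * N₀ = q ^ k := Nat.eq_of_mul_eq_mul_left (pow_pos hqpos _) h7
    have h13 : 2 ∣ q ^ k := by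
      rw [← h12]
      exact Dvd.dvd.mul_left (even_iff_two_dvd.mp heven) q
    have h14 : 2 ∣ q := Nat.prime_two.dvd_of_dvd_pow h13
    rw [hq, Nat.card_eq_fintype_card] at h14
    exact not_two_dvd_card K h2 h14

end Vale.Agent.H79
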