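import Mathlib
import Vale.Agent.H79.Quad
import Vale.Agent.H79.Quadric
import Vale.Agent.H79.Cancel
import Vale.Agent.H79.Tangent
import Vale.Agent.H79.LinY
import Vale.Agent.H79.Spread
import Vale.Agent.H79.XmYCount
import Vale.Agent.H79.XmY
import Vale.Agent.H79.Cylinder

/-!
# Cancellation for the hypersurfaces `x^m y + b(x, z) = 0`

Variables of `ℂ[x, y, z_1, …, z_k]`: `x = X 0`, `y = X 1`, `z_i = X (i + 1)`.  Let `m ≥ 1` and
let `b ∈ ℂ[x, z_1, …, z_k]` be such that `b(0, z)` has total degree at most two and its zero set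
in `ℂ^k` is smooth.  If `A = ℂ[x, y, z]/(x^m y + b)` satisfies `A[w] ≃ ℂ^[n+1]`, then
`A ≃ ℂ^[n]`.
-/

namespace Vale.Agent.H79

open MvPolynomial

/-- Fibre count of `x^m y + β(x, z)` over a finite field in terms of the fibres of `β(0, z)`. -/
theorem card_fiber_xmy_base (K : Type) [Field K] [Fintype K] (k m : ℕ) (hm : 1 ≤ m)
    (β : MvPolynomial (Fin (k + 1)) K) (c : K) :
    Nat.card {u : Fin (k + 2) → K //
        eval u (X 0 ^ m * X 1 + rename (Fin.succAbove 1) β) = c} + Nat.card K ^ k
    = Nat.card K * Nat.card {z : Fin k → K // eval (Fin.cons 0 z) β = c}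
      + Nat.card K ^ (k + 1) := by
  classical
  let E : (Fin (k + 2) → K) ≃ K × (Fin (k + 1) → K) :=
    (Fin.insertNthEquiv (fun _ : Fin (k + 2) => K) 1).symm
  have hE : ∀ u : Fin (k + 2) → K,
      eval u (X 0 ^ m * X 1 + rename (Fin.succAbove 1) β) = c ↔
        (E u).2 0 ^ m * (E u).1 + eval (E u).2 β = c := by
    intro u
    have h1 : (E u).1 = u 1 := rfl
    have h2 : (E u).2 = fun i => u (Fin.succAbove 1 i) := rfl
    have h3 : (E u).2 0 = u 0 := by
      rw [h2]
      show u (Fin.succAbove 1 0) = u 0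
      rw [Fin.one_succAbove_zero]
    rw [h3, h1, h2]
    simp only [eval_rename, map_add, map_mul, map_pow, eval_X]
    rfl
  let e : {u : Fin (k + 2) → K //
        eval u (X 0 ^ m * X 1 + rename (Fin.succAbove 1) β) = c}
      ≃ {s : K × (Fin (k + 1) → K) // s.2 0 ^ m * s.1 + eval s.2 β = c} :=
    E.subtypeEquiv (p := fun u => eval u (X 0 ^ m * X 1 + rename (Fin.succAbove 1) β) = c)
      (q := fun s : K × (Fin (k + 1) → K) => s.2 0 ^ m * s.1 + eval s.2 β = c) hE
  rw [Nat.card_congr e]
  exact card_graph_fiber K k m hm (fun w => eval w β) c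

/-- Reduction of the reflection symmetry of `b(0, z)` through a critical point. -/
theorem eval_cons_reflect_of_critical {k : ℕ} (b : MvPolynomial (Fin (k + 1)) ℂ)
    (hb : (aeval (Fin.cons 0 X : Fin (k + 1) → MvPolynomial (Fin k) ℂ) b).totalDegree ≤ 2)
    (p : Fin k → ℂ)
    (hp : ∀ i, eval p
      (pderiv i (aeval (Fin.cons 0 X : Fin (k + 1) → MvPolynomial (Fin k) ℂ) b)) = 0)
    (S : Subalgebra ℤ ℂ) {K : Type*} [Field K] (π : S →+* K)
    (b' : MvPolynomial (Fin (k + 1)) S) (hb' : MvPolynomial.map (S.val : S →+* ℂ) b' = b)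
    (p' : Fin k → S) (hp' : ∀ i, (S.val : S →+* ℂ) (p' i) = p i) (z : Fin k → K) :
    eval (Fin.cons 0 (fun i => 2 * π (p' i) - z i) : Fin (k + 1) → K) (MvPolynomial.map π b')
      = eval (Fin.cons 0 z : Fin (k + 1) → K) (MvPolynomial.map π b') := by
  have hrefl := reflect_eq_self_of_critical _ hb p hp
  let f : S →+* ℂ := (S.val : S →+* ℂ)
  have hf : Function.Injective f := Subtype.val_injective
  let u' : Fin (k + 1) → MvPolynomial (Fin k) S :=
    Fin.cons 0 (fun i => C (2 * p' i) - X i)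
  let v' : Fin (k + 1) → MvPolynomial (Fin k) S := Fin.cons 0 X
  have hu' : (fun i => MvPolynomial.map f (u' i))
      = Fin.cons 0 (fun i => C (2 * p i) - X i) := by
    rw [funext_cons_zero (MvPolynomial.map f) (map_zero _)]
    congr 1
    funext i
    simp [f, hp', map_ofNat]
  have hv' : (fun i => MvPolynomial.map f (v' i)) = Fin.cons 0 X := by
    rw [funext_cons_zero (MvPolynomial.map f) (map_zero _)]
    congr 1
    funext i
    simp
  have hS : bind₁ u' b' = bind₁ v' b' := by
    apply map_injective f hf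
    rw [map_bind₁, map_bind₁, hb', hu', hv']
    have h1 : reflect p (bind₁ (Fin.cons 0 X : Fin (k + 1) → MvPolynomial (Fin k) ℂ) b)
        = bind₁ (Fin.cons 0 (fun i => C (2 * p i) - X i)) b := by
      have h2 : reflect p = bind₁ (fun i => C (2 * p i) - X i) := rfl
      rw [h2, bind₁_bind₁,
        funext_cons_zero (bind₁ (fun i => (C (2 * p i) - X i : MvPolynomial (Fin k) ℂ)))
          (map_zero _)]
      congr 2
      funext i
      simp
    rw [← h1]
    exact hrefl
  have h1 := congrArg (fun q => eval z (MvPolynomial.map π q)) hS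
  simp only [map_bind₁, eval_bind₁'] at h1
  rw [funext_cons_zero (fun q => eval z (MvPolynomial.map π q)) (by simp),
    funext_cons_zero (fun q => eval z (MvPolynomial.map π q)) (by simp)] at h1
  have h3 : (fun i => eval z (MvPolynomial.map π (C (2 * p' i) - X i)))
      = fun i => 2 * π (p' i) - z i := by
    funext i
    simp [map_ofNat]
  have h4 : (fun i => eval z (MvPolynomial.map π (X i : MvPolynomial (Fin k) S))) = z := by
    funext i
    simp
  rw [h3, h4] at h1
  exact h1

/-- Evaluation commutes with ring homomorphisms. -/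
theorem map_eval_eq {R R' : Type*} [CommRing R] [CommRing R'] {σ : Type*} (f : R →+* R')
    (g : σ → R) (p : MvPolynomial σ R) :
    f (eval g p) = eval (fun i => f (g i)) (MvPolynomial.map f p) := by
  rw [eval_map, eval₂_comp]
  rfl

/-- **Cancellation for `x^m y + b(x, z) = 0` with smooth quadratic special fibre.** -/
theorem nonempty_equiv_of_xmy_smooth (k m n : ℕ) (hm : 1 ≤ m)
    (b : MvPolynomial (Fin (k + 1)) ℂ)
    (hb : (aeval (Fin.cons 0 X : Fin (k + 1) → MvPolynomial (Fin k) ℂ) b).totalDegree ≤ 2)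
    (hsm : ∀ p : Fin k → ℂ,
      eval p (aeval (Fin.cons 0 X : Fin (k + 1) → MvPolynomial (Fin k) ℂ) b) = 0 →
      ∃ i, eval p
        (pderiv i (aeval (Fin.cons 0 X : Fin (k + 1) → MvPolynomial (Fin k) ℂ) b)) ≠ 0)
    (e : Polynomial (MvPolynomial (Fin (k + 2)) ℂ ⧸
        Ideal.span {X 0 ^ m * X 1 + rename (Fin.succAbove 1) b}) ≃ₐ[ℂ]
      MvPolynomial (Fin (n + 1)) ℂ) :
    Nonempty ((MvPolynomial (Fin (k + 2)) ℂ ⧸
        Ideal.span {X 0 ^ m * X 1 + rename (Fin.succAbove 1) b}) ≃ₐ[ℂ]
      MvPolynomial (Fin n) ℂ) := by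
  classical
  by_cases hcrit : ∀ a : Fin k → ℂ, ∃ i, eval a
      (pderiv i (aeval (Fin.cons 0 X : Fin (k + 1) → MvPolynomial (Fin k) ℂ) b)) ≠ 0
  · obtain ⟨θ, i₀, hθ⟩ := exists_equiv_of_totalDegree_le_two _ hb hcrit
    obtain ⟨ψ, i, hψ⟩ := exists_equiv_of_coord_at_zero k m b θ i₀ hθ
    obtain ⟨e2⟩ := nonempty_quot_coord_equiv (n := k + 1) ψ i _ hψ
    have e3 : MvPolynomial (Fin (k + 1 + 1)) ℂ ≃ₐ[ℂ] MvPolynomial (Fin (n + 1)) ℂ :=
      (finSuccEquiv ℂ (k + 1)).trans ((Polynomial.mapAlgEquiv e2.symm).trans e)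
    have hN : k + 1 + 1 = n + 1 := eq_of_mvPolynomial_equiv e3
    have hN' : k + 1 = n := Nat.succ_injective hN
    subst hN'
    exact ⟨e2⟩
  · exfalso
    push Not at hcrit
    obtain ⟨p, hp⟩ := hcrit
    set μ : ℂ := eval p (aeval (Fin.cons 0 X : Fin (k + 1) → MvPolynomial (Fin k) ℂ) b)
      with hμ
    have hμ0 : μ ≠ 0 := by
      intro h0
      obtain ⟨i, hi⟩ := hsm p h0
      exact hi (hp i)
    obtain ⟨S, K, _, _, π, hT, h2, hbal⟩ :=
      exists_cylinder_reduction (k + 2) n (X 0 ^ m * X 1 + rename (Fin.succAbove 1) b) e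
        (b.coeffs ∪ Finset.univ.image p ∪ {μ⁻¹})
    let f : S →+* ℂ := (S.val : S →+* ℂ)
    have hf : Function.Injective f := Subtype.val_injective
    have hbr : b ∈ Set.range (MvPolynomial.map f) := by
      rw [mem_range_map_iff_coeffs_subset]
      intro c hc
      exact ⟨⟨c, hT c (Finset.mem_union_left _ (Finset.mem_union_left _ hc))⟩, rfl⟩
    obtain ⟨b', hb'⟩ := hbr
    let p' : Fin k → S := fun i =>
      ⟨p i, hT (p i) (Finset.mem_union_left _ (Finset.mem_union_right _
        (Finset.mem_image_of_mem p (Finset.mem_univ i))))⟩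
    have hp' : ∀ i, f (p' i) = p i := fun i => rfl
    let ν' : S := ⟨μ⁻¹, hT μ⁻¹ (Finset.mem_union_right _ (Finset.mem_singleton_self _))⟩
    set β : MvPolynomial (Fin (k + 1)) K := MvPolynomial.map π b' with hβ
    let pb : Fin k → K := fun i => π (p' i)
    have hsym : ∀ z : Fin k → K,
        eval (Fin.cons 0 (fun i => 2 * pb i - z i) : Fin (k + 1) → K) β
          = eval (Fin.cons 0 z : Fin (k + 1) → K) β :=
      fun z => eval_cons_reflect_of_critical b hb p hp S π b' hb' p' hp' z
    -- the value at the centre is a unit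
    let μ' : S := eval (Fin.cons 0 p' : Fin (k + 1) → S) b'
    have hμ' : f μ' = μ := by
      rw [map_eval_eq f, hb', funext_cons_zero f (map_zero f), hμ]
      have h1 : (fun i => f (p' i)) = p := funext hp'
      rw [h1]
      have h2 : eval p (bind₁ (Fin.cons 0 X : Fin (k + 1) → MvPolynomial (Fin k) ℂ) b)
          = eval (fun i => eval p ((Fin.cons 0 X : Fin (k + 1) → MvPolynomial (Fin k) ℂ) i))
            b := eval_bind₁' _ p b
      rw [funext_cons_zero (eval p) (map_zero _)] at h2
      have h3 : (fun i => eval p (X i : MvPolynomial (Fin k) ℂ)) = p := by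
        funext i
        simp
      rw [h3] at h2
      exact h2.symm
    have hμν : μ' * ν' = 1 := by
      apply hf
      rw [map_mul, hμ', map_one]
      exact mul_inv_cancel₀ hμ0
    have hπμ : π μ' = eval (Fin.cons 0 pb : Fin (k + 1) → K) β := by
      rw [map_eval_eq π, funext_cons_zero π (map_zero π)]
    have hcne : (0 : K) ≠ eval (Fin.cons 0 pb : Fin (k + 1) → K) β := by
      rw [← hπμ]
      intro h0
      have h1 := congrArg π hμν
      rw [map_mul, ← h0, zero_mul, map_one] at h1
      exact zero_ne_one h1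
    have heven := even_card_fiber_of_reflection K h2 k
      (fun z => eval (Fin.cons 0 z : Fin (k + 1) → K) β) pb hsym 0 hcne
    -- the counting identity
    let G' : MvPolynomial (Fin (k + 2)) S := X 0 ^ m * X 1 + rename (Fin.succAbove 1) b'
    have hG' : MvPolynomial.map f G' = X 0 ^ m * X 1 + rename (Fin.succAbove 1) b := by
      simp [G', map_rename, hb']
    have hGπ : MvPolynomial.map π G' = X 0 ^ m * X 1 + rename (Fin.succAbove 1) β := by
      simp [G', map_rename, hβ]
    have hcount := hbal G' hG'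
    rw [hGπ] at hcount
    have h5 := card_fiber_xmy_base K k m hm β 0
    set N := Nat.card {u : Fin (k + 2) → K //
        eval u (X 0 ^ m * X 1 + rename (Fin.succAbove 1) β) = 0} with hN
    set N₀ := Nat.card {z : Fin k → K // eval (Fin.cons 0 z : Fin (k + 1) → K) β = 0} with hN₀
    set q := Nat.card K with hq
    have hqodd : ¬ 2 ∣ q := by
      rw [hq, Nat.card_eq_fintype_card]
      exact not_two_dvd_card K h2
    have hpow : ∀ j : ℕ, ¬ 2 ∣ q ^ j := fun j hj => hqodd (Nat.prime_two.dvd_of_dvd_pow hj)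
    have hNodd : ¬ 2 ∣ N := by
      intro hdvd
      apply hpow (n + 1)
      rw [← hcount]
      exact Dvd.dvd.mul_right hdvd q
    have h6 : 2 ∣ q * N₀ := Dvd.dvd.mul_left (even_iff_two_dvd.mp heven) q
    have h7 := hpow k
    have h8 := hpow (k + 1)
    generalize q ^ k = A at h5 h7
    generalize q ^ (k + 1) = B at h5 h8
    generalize q * N₀ = D at h5 h6
    omega

end Vale.Agent.H79
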