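import Mathlib
import Vale.Agent.H79.Quad
import Vale.Agent.H79.Quadric
import Vale.Agent.H79.LinYGen
import Vale.Agent.H79.Spread
import Vale.Agent.H79.XmYCount
import Vale.Agent.H79.XmYCancel

/-!
# Stable coordinates of the form `a(x) y + g(z) + P(x) h(x, z)`

Variables of `ℂ[x_1, …, x_n, z_1, …, z_k, y]`, indexed by `Option (Fin n ⊕ Fin k)`:
`y = X none`, `x_i = X (some (inl i))`, `z_j = X (some (inr j))`.  Let `a, P ∈ ℂ[x]` with
`a ≠ 0`, `a ∣ P^r` and `a` having a zero, `g ∈ ℂ[z]` of total degree at most two and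
`h ∈ ℂ[x, z]` arbitrary.  If `f = a(x) y + g(z) + P(x) h(x, z)` is a stable coordinate, then
`f` is a coordinate.
-/

namespace Vale.Agent.H79

open MvPolynomial

section CountG

variable (K : Type*) [Field K] [Fintype K]

/-- Fibre count for `(y, x, z) ↦ α(x) y + (G(z) + ρ(x) H(x, z))` when `ρ` vanishes on the zeros
of `α`. -/
theorem card_affine_fiber {Xt Zt : Type*} [Fintype Xt] [Fintype Zt]
    (α ρ : Xt → K) (hαρ : ∀ x, α x = 0 → ρ x = 0) (G : Zt → K) (H : Xt → Zt → K) (c : K) :
    Nat.card {s : K × Xt × Zt // α s.2.1 * s.1 + (G s.2.2 + ρ s.2.1 * H s.2.1 s.2.2) = c}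
      = Nat.card {x : Xt // α x ≠ 0} * Nat.card Zt
        + Nat.card {x : Xt // α x = 0} * (Nat.card K * Nat.card {z : Zt // G z = c}) := by
  classical
  simp only [Nat.card_eq_fintype_card]
  have hinner : ∀ (x : Xt) (z : Zt),
      (∑ y : K, if α x * y + (G z + ρ x * H x z) = c then 1 else 0)
        = if α x = 0 then (if G z = c then Fintype.card K else 0) else 1 := by
    intro x z
    by_cases hx : α x = 0
    · rw [if_pos hx, hx, hαρ x hx]
      simp only [zero_mul, zero_add, add_zero]
      by_cases hGc : G z = c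
      · simp [hGc]
      · simp [hGc]
    · rw [if_neg hx]
      have hiff : ∀ y : K, (α x * y + (G z + ρ x * H x z) = c)
          ↔ y = (c - (G z + ρ x * H x z)) / α x := by
        intro y
        constructor
        · intro h
          rw [eq_div_iff hx]
          linear_combination h
        · intro h
          rw [h]
          field_simp
          ring
      simp only [hiff]
      simp
  have hx : ∀ x : Xt,
      (∑ z : Zt, if α x = 0 then (if G z = c then Fintype.card K else 0) else 1)
        = if α x = 0 then Fintype.card K * Fintype.card {z : Zt // G z = c}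
          else Fintype.card Zt := by
    intro x
    by_cases h : α x = 0
    · simp only [h, if_true]
      rw [Fintype.card_subtype, Finset.card_filter, Finset.mul_sum]
      apply Finset.sum_congr rfl
      intro z _
      split_ifs <;> simp
    · simp [h]
  have hsum : Fintype.card
      {s : K × Xt × Zt // α s.2.1 * s.1 + (G s.2.2 + ρ s.2.1 * H s.2.1 s.2.2) = c}
      = ∑ x : Xt, if α x = 0 then Fintype.card K * Fintype.card {z : Zt // G z = c}
          else Fintype.card Zt := by
    rw [Fintype.card_subtype, Finset.card_filter, Fintype.sum_prod_type_right,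
      Fintype.sum_prod_type]
    apply Finset.sum_congr rfl
    intro x _
    rw [← hx x]
    apply Finset.sum_congr rfl
    intro z _
    exact hinner x z
  rw [hsum, Finset.sum_ite, Finset.sum_const, Finset.sum_const, smul_eq_mul, smul_eq_mul,
    Fintype.card_subtype (fun x : Xt => α x = 0), Fintype.card_subtype (fun x : Xt => α x ≠ 0)]
  exact add_comm _ _

end CountG

/-- Fibre count of `a(x) y + g(z) + P(x) h(x, z)` over a finite field. -/
theorem card_fiber_multi (K : Type) [Field K] [Fintype K] (n k M : ℕ)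
    (a P : MvPolynomial (Fin n) K) (haP : ∀ x : Fin n → K, eval x a = 0 → eval x P = 0)
    (g : MvPolynomial (Fin k) K) (h : MvPolynomial (Fin n ⊕ Fin k) K) (c : K) :
    Nat.card {v : Option (Fin n ⊕ Fin k) ⊕ Fin M → K //
        eval v (rename Sum.inl (rename some (rename Sum.inl a) * X none
          + rename some (rename Sum.inr g + rename Sum.inl P * h))) = c}
      = (Nat.card {x : Fin n → K // eval x a ≠ 0} * Nat.card K ^ k
        + Nat.card {x : Fin n → K // eval x a = 0}
          * (Nat.card K * Nat.card {z : Fin k → K // eval z g = c})) * Nat.card K ^ M := by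
  classical
  let E : (Option (Fin n ⊕ Fin k) ⊕ Fin M → K)
      ≃ (K × (Fin n → K) × (Fin k → K)) × (Fin M → K) :=
    (Equiv.sumArrowEquivProdArrow (Option (Fin n ⊕ Fin k)) (Fin M) K).trans
      (Equiv.prodCongr
        ((Equiv.piOptionEquivProd (β := fun _ : Option (Fin n ⊕ Fin k) => K)).trans
          (Equiv.prodCongr (Equiv.refl K) (Equiv.sumArrowEquivProdArrow (Fin n) (Fin k) K)))
        (Equiv.refl _))
  have hE : ∀ v : Option (Fin n ⊕ Fin k) ⊕ Fin M → K,
      eval v (rename Sum.inl (rename some (rename Sum.inl a) * X none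
          + rename some (rename Sum.inr g + rename Sum.inl P * h))) = c ↔
        eval (E v).1.2.1 a * (E v).1.1
          + (eval (E v).1.2.2 g
            + eval (E v).1.2.1 P * eval (Sum.elim (E v).1.2.1 (E v).1.2.2) h) = c := by
    intro v
    have h1 : (E v).1.1 = v (Sum.inl none) := rfl
    have h2 : (E v).1.2.1 = fun i => v (Sum.inl (some (Sum.inl i))) := rfl
    have h3 : (E v).1.2.2 = fun i => v (Sum.inl (some (Sum.inr i))) := rfl
    have h4 : Sum.elim (E v).1.2.1 (E v).1.2.2 = fun i => v (Sum.inl (some i)) := by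
      funext i
      cases i with
      | inl i => rw [h2]; rfl
      | inr i => rw [h3]; rfl
    rw [h4, h1, h2, h3]
    simp only [eval_rename, map_add, map_mul, eval_X, Function.comp_apply]
    rfl
  let e : {v : Option (Fin n ⊕ Fin k) ⊕ Fin M → K //
        eval v (rename Sum.inl (rename some (rename Sum.inl a) * X none
          + rename some (rename Sum.inr g + rename Sum.inl P * h))) = c}
      ≃ {s : K × (Fin n → K) × (Fin k → K) //
          eval s.2.1 a * s.1 + (eval s.2.2 g + eval s.2.1 P * eval (Sum.elim s.2.1 s.2.2) h) = c}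
        × (Fin M → K) :=
    (E.subtypeEquiv (p := fun v => eval v
        (rename Sum.inl (rename some (rename Sum.inl a) * X none
          + rename some (rename Sum.inr g + rename Sum.inl P * h))) = c)
      (q := fun t : (K × (Fin n → K) × (Fin k → K)) × (Fin M → K) =>
        eval t.1.2.1 a * t.1.1
          + (eval t.1.2.2 g + eval t.1.2.1 P * eval (Sum.elim t.1.2.1 t.1.2.2) h) = c) hE).trans
      (Equiv.prodSubtypeFstEquivSubtypeProd
        (p := fun s : K × (Fin n → K) × (Fin k → K) =>
          eval s.2.1 a * s.1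
            + (eval s.2.2 g + eval s.2.1 P * eval (Sum.elim s.2.1 s.2.2) h) = c))
  have hgr := card_affine_fiber K (fun x : Fin n → K => eval x a) (fun x => eval x P) haP
    (fun z : Fin k → K => eval z g) (fun x z => eval (Sum.elim x z) h) c
  rw [Nat.card_congr e, Nat.card_prod, hgr, Nat.card_fun, Nat.card_fun,
    Nat.card_eq_fintype_card (α := Fin M), Nat.card_eq_fintype_card (α := Fin k),
    Fintype.card_fin, Fintype.card_fin]

section AssemblyG

/-- Extend an automorphism of `ℂ[z]` to an automorphism of `ℂ[x, z]` fixing `ℂ[x]`. -/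
theorem exists_extend_equiv_sum {n k : ℕ}
    (θ : MvPolynomial (Fin k) ℂ ≃ₐ[ℂ] MvPolynomial (Fin k) ℂ) :
    ∃ Θ : MvPolynomial (Fin n ⊕ Fin k) ℂ ≃ₐ[ℂ] MvPolynomial (Fin n ⊕ Fin k) ℂ,
      (∀ p, Θ (rename Sum.inl p) = rename Sum.inl p) ∧
      ∀ p, Θ (rename Sum.inr p) = rename Sum.inr (θ p) := by
  let T : (MvPolynomial (Fin k) ℂ ≃ₐ[ℂ] MvPolynomial (Fin k) ℂ) →
      (MvPolynomial (Fin n ⊕ Fin k) ℂ →ₐ[ℂ] MvPolynomial (Fin n ⊕ Fin k) ℂ) := fun θ =>
    aeval (Sum.elim (fun i => X (Sum.inl i)) (fun j => rename Sum.inr (θ (X j))))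
  have hl : ∀ (θ : MvPolynomial (Fin k) ℂ ≃ₐ[ℂ] MvPolynomial (Fin k) ℂ)
      (p : MvPolynomial (Fin n) ℂ), T θ (rename Sum.inl p) = rename Sum.inl p := by
    intro θ p
    have h1 : (T θ).comp (rename Sum.inl) = rename Sum.inl := by
      apply algHom_ext
      intro i
      simp [T]
    exact congrArg (fun F : MvPolynomial (Fin n) ℂ →ₐ[ℂ] MvPolynomial (Fin n ⊕ Fin k) ℂ =>
      F p) h1
  have hr : ∀ (θ : MvPolynomial (Fin k) ℂ ≃ₐ[ℂ] MvPolynomial (Fin k) ℂ)
      (p : MvPolynomial (Fin k) ℂ), T θ (rename Sum.inr p) = rename Sum.inr (θ p) := by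
    intro θ p
    have h1 : (T θ).comp (rename Sum.inr)
        = (rename Sum.inr : MvPolynomial (Fin k) ℂ →ₐ[ℂ] MvPolynomial (Fin n ⊕ Fin k) ℂ).comp
          (θ : MvPolynomial (Fin k) ℂ →ₐ[ℂ] MvPolynomial (Fin k) ℂ) := by
      apply algHom_ext
      intro i
      simp [T]
    exact congrArg (fun F : MvPolynomial (Fin k) ℂ →ₐ[ℂ] MvPolynomial (Fin n ⊕ Fin k) ℂ =>
      F p) h1
  have hcomp : ∀ θ : MvPolynomial (Fin k) ℂ ≃ₐ[ℂ] MvPolynomial (Fin k) ℂ,
      (T θ).comp (T θ.symm) = AlgHom.id ℂ _ := by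
    intro θ
    apply algHom_ext
    intro i
    cases i with
    | inl i =>
      have h1 : T θ.symm (X (Sum.inl i)) = X (Sum.inl i) := by simp [T]
      have h2 : T θ (X (Sum.inl i)) = X (Sum.inl i) := by simp [T]
      rw [AlgHom.comp_apply, h1, h2]
      rfl
    | inr j =>
      have h1 : T θ.symm (X (Sum.inr j)) = rename Sum.inr (θ.symm (X j)) := by simp [T]
      rw [AlgHom.comp_apply, h1, hr, AlgEquiv.apply_symm_apply, rename_X]
      rfl
  refine ⟨AlgEquiv.ofAlgHom (T θ) (T θ.symm) (hcomp θ) ?_, hl θ, hr θ⟩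
  have h1 := hcomp θ.symm
  rwa [AlgEquiv.symm_symm] at h1

/-- If `g` is a coordinate of `ℂ[z_1, …, z_k]`, then `a(x) y + g(z) + P(x) h(x, z)` is a
coordinate of `ℂ[x, z, y]`, for `a ≠ 0` dividing a power of `P`. -/
theorem exists_equiv_of_coord_multi (n k r : ℕ) (a P : MvPolynomial (Fin n) ℂ) (ha : a ≠ 0)
    (haP : a ∣ P ^ r) (g : MvPolynomial (Fin k) ℂ) (h : MvPolynomial (Fin n ⊕ Fin k) ℂ)
    (θ : MvPolynomial (Fin k) ℂ ≃ₐ[ℂ] MvPolynomial (Fin k) ℂ) (i₀ : Fin k)
    (hθ : θ (X i₀) = g) :
    ∃ (ψ : MvPolynomial (Option (Fin n ⊕ Fin k)) ℂ ≃ₐ[ℂ]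
        MvPolynomial (Option (Fin n ⊕ Fin k)) ℂ) (i : Option (Fin n ⊕ Fin k)),
      ψ (X i) = rename some (rename Sum.inl a) * X none
          + rename some (rename Sum.inr g + rename Sum.inl P * h) := by
  classical
  obtain ⟨Θ, hΘl, hΘr⟩ := exists_extend_equiv_sum (n := n) θ
  set t : Fin n ⊕ Fin k := Sum.inr i₀ with ht
  have hι : ∀ i : Fin n, (Sum.inl i : Fin n ⊕ Fin k) ≠ t := fun i => Sum.inl_ne_inr
  have ha' : rename (Sum.inl : Fin n → Fin n ⊕ Fin k) a ≠ 0 := by
    intro h0
    apply ha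
    apply rename_injective (Sum.inl : Fin n → Fin n ⊕ Fin k) Sum.inl_injective
    rw [h0, map_zero]
  obtain ⟨S, hS⟩ := exists_polyEquivG t (Sum.inl : Fin n → Fin n ⊕ Fin k) hι P a ha' r haP
    (Θ.symm h)
  let e : MvPolynomial (Option (Fin n ⊕ Fin k)) ℂ ≃ₐ[ℂ]
      Polynomial (MvPolynomial (Fin n ⊕ Fin k) ℂ) := optionEquivLeft ℂ (Fin n ⊕ Fin k)
  have he1 : e (X none) = Polynomial.X := optionEquivLeft_X_none ℂ _
  have hesome : ∀ p : MvPolynomial (Fin n ⊕ Fin k) ℂ, e (rename some p) = Polynomial.C p := by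
    have h1 : (e : MvPolynomial (Option (Fin n ⊕ Fin k)) ℂ →ₐ[ℂ]
          Polynomial (MvPolynomial (Fin n ⊕ Fin k) ℂ)).comp (rename some)
        = Polynomial.CAlgHom := by
      apply algHom_ext
      intro j
      simp only [AlgHom.comp_apply, rename_X, Polynomial.CAlgHom_apply]
      exact optionEquivLeft_X_some ℂ _ j
    intro p
    exact congrArg (fun Φ : MvPolynomial (Fin n ⊕ Fin k) ℂ →ₐ[ℂ]
      Polynomial (MvPolynomial (Fin n ⊕ Fin k) ℂ) => Φ p) h1
  have het : e (X (some t)) = Polynomial.C (X t) := optionEquivLeft_X_some ℂ _ t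
  refine ⟨e.trans ((S.trans (Polynomial.mapAlgEquiv Θ)).trans e.symm), some t, ?_⟩
  have hef : e (rename some (rename Sum.inl a) * X none
        + rename some (rename Sum.inr g + rename Sum.inl P * h))
      = Polynomial.C (rename Sum.inl a) * Polynomial.X
        + Polynomial.C (rename Sum.inr g + rename Sum.inl P * h) := by
    rw [map_add, map_mul, hesome, hesome, he1]
  simp only [AlgEquiv.trans_apply]
  rw [het, hS, AlgEquiv.symm_apply_eq, hef]
  have h2 : Polynomial.mapAlgEquiv Θ
        (Polynomial.C (X t + rename Sum.inl P * Θ.symm h)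
          + Polynomial.C (rename Sum.inl a) * Polynomial.X)
      = Polynomial.C (Θ (X t + rename Sum.inl P * Θ.symm h))
        + Polynomial.C (Θ (rename Sum.inl a)) * Polynomial.X := by
    simp [Polynomial.mapAlgEquiv]
  have h3 : Θ (X t) = rename Sum.inr g := by
    rw [← hθ, ← hΘr, rename_X]
  rw [h2, map_add, map_mul, hΘl, hΘl, AlgEquiv.apply_symm_apply, h3]
  ring

end AssemblyG

/-- A complex polynomial whose coefficients lie in a subring lifts to that subring. -/
theorem exists_lift_of_coeffs {σ : Type*} (S : Subalgebra ℤ ℂ) (q : MvPolynomial σ ℂ)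
    (hq : ∀ c ∈ q.coeffs, c ∈ S) :
    ∃ q' : MvPolynomial σ S, MvPolynomial.map (S.val : S →+* ℂ) q' = q := by
  have h1 : q ∈ Set.range (MvPolynomial.map (S.val : S →+* ℂ)) := by
    rw [mem_range_map_iff_coeffs_subset]
    intro c hc
    exact ⟨⟨c, hq c hc⟩, rfl⟩
  exact h1

/-- The two parts of `K^n` cut out by a polynomial. -/
theorem card_ne_add_card_eq (K : Type) [Field K] [Fintype K] (n : ℕ)
    (a : MvPolynomial (Fin n) K) :
    Nat.card {x : Fin n → K // eval x a ≠ 0} + Nat.card {x : Fin n → K // eval x a = 0}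
      = Nat.card K ^ n := by
  classical
  have e : {x : Fin n → K // eval x a = 0} ⊕ {x : Fin n → K // ¬ eval x a = 0}
      ≃ (Fin n → K) := Equiv.sumCompl (fun x : Fin n → K => eval x a = 0)
  have h1 := Nat.card_congr e
  rw [Nat.card_sum, Nat.card_fun, Nat.card_eq_fintype_card (α := Fin n), Fintype.card_fin] at h1
  rw [add_comm]
  exact h1

/-- **Stable coordinates `a(x) y + g(z) + P(x) h(x, z)` with `a ∣ P^r` and `deg g ≤ 2` are
coordinates**, and then `g` is a coordinate of `ℂ[z]`. -/
theorem exists_equiv_of_stable_multi (n k M r : ℕ) (a P : MvPolynomial (Fin n) ℂ) (ha : a ≠ 0)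
    (haP : a ∣ P ^ r) (x₀ : Fin n → ℂ) (hx₀ : eval x₀ a = 0)
    (g : MvPolynomial (Fin k) ℂ) (hg : g.totalDegree ≤ 2) (h : MvPolynomial (Fin n ⊕ Fin k) ℂ)
    (φ : MvPolynomial (Option (Fin n ⊕ Fin k) ⊕ Fin M) ℂ ≃ₐ[ℂ]
      MvPolynomial (Option (Fin n ⊕ Fin k) ⊕ Fin M) ℂ)
    (j : Option (Fin n ⊕ Fin k) ⊕ Fin M)
    (hφ : φ (X j) = rename Sum.inl (rename some (rename Sum.inl a) * X none
          + rename some (rename Sum.inr g + rename Sum.inl P * h))) :
    (∃ (θ : MvPolynomial (Fin k) ℂ ≃ₐ[ℂ] MvPolynomial (Fin k) ℂ) (i₀ : Fin k), θ (X i₀) = g) ∧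
    ∃ (ψ : MvPolynomial (Option (Fin n ⊕ Fin k)) ℂ ≃ₐ[ℂ]
        MvPolynomial (Option (Fin n ⊕ Fin k)) ℂ) (i : Option (Fin n ⊕ Fin k)),
      ψ (X i) = rename some (rename Sum.inl a) * X none
          + rename some (rename Sum.inr g + rename Sum.inl P * h) := by
  classical
  by_cases hcrit : ∀ p : Fin k → ℂ, ∃ i, eval p (pderiv i g) ≠ 0
  · obtain ⟨θ, i₀, hθ⟩ := exists_equiv_of_totalDegree_le_two g hg hcrit
    exact ⟨⟨θ, i₀, hθ⟩, exists_equiv_of_coord_multi n k r a P ha haP g h θ i₀ hθ⟩
  · exfalso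
    push Not at hcrit
    obtain ⟨p, hp⟩ := hcrit
    have hrefl := reflect_eq_self_of_critical g hg p hp
    obtain ⟨d, hd⟩ := haP
    obtain ⟨S, K, _, _, π, hT, h2, hbal⟩ :=
      exists_balanced_reduction φ (a.coeffs ∪ P.coeffs ∪ g.coeffs ∪ h.coeffs ∪ d.coeffs
        ∪ Finset.univ.image p ∪ Finset.univ.image x₀)
    let f : S →+* ℂ := (S.val : S →+* ℂ)
    have hf : Function.Injective f := Subtype.val_injective
    obtain ⟨a', ha'⟩ : ∃ a' : MvPolynomial (Fin n) S, MvPolynomial.map f a' = a :=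
      exists_lift_of_coeffs S a (fun c hc => hT c (by simp [hc]))
    obtain ⟨P', hP'⟩ : ∃ P' : MvPolynomial (Fin n) S, MvPolynomial.map f P' = P :=
      exists_lift_of_coeffs S P (fun c hc => hT c (by simp [hc]))
    obtain ⟨g', hg'⟩ : ∃ g' : MvPolynomial (Fin k) S, MvPolynomial.map f g' = g :=
      exists_lift_of_coeffs S g (fun c hc => hT c (by simp [hc]))
    obtain ⟨h', hh'⟩ : ∃ h' : MvPolynomial (Fin n ⊕ Fin k) S, MvPolynomial.map f h' = h :=
      exists_lift_of_coeffs S h (fun c hc => hT c (by simp [hc]))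
    obtain ⟨d', hd'⟩ : ∃ d' : MvPolynomial (Fin n) S, MvPolynomial.map f d' = d :=
      exists_lift_of_coeffs S d (fun c hc => hT c (by simp [hc]))
    let p' : Fin k → S := fun i => ⟨p i, hT (p i) (by simp)⟩
    let x₀' : Fin n → S := fun i => ⟨x₀ i, hT (x₀ i) (by simp)⟩
    have hp' : ∀ i, f (p' i) = p i := fun i => rfl
    have hx₀' : (fun i => f (x₀' i)) = x₀ := rfl
    -- identities over `S`
    have hS1 : P' ^ r = a' * d' := by
      apply map_injective f hf
      rw [map_pow, map_mul, hP', ha', hd', hd]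
    have hS2 : eval x₀' a' = 0 := by
      apply hf
      rw [map_eval_eq f, ha', map_zero, hx₀']
      exact hx₀
    have hS3 : bind₁ (fun i => (C (2 * p' i) - X i : MvPolynomial (Fin k) S)) g' = g' := by
      apply map_injective f hf
      rw [map_bind₁, hg']
      have h1 : (fun i => MvPolynomial.map f (C (2 * p' i) - X i : MvPolynomial (Fin k) S))
          = fun i => (C (2 * p i) - X i : MvPolynomial (Fin k) ℂ) := by
        funext i
        simp [hp', map_ofNat]
      rw [h1]
      exact hrefl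
    -- reduce to `K`
    set ab : MvPolynomial (Fin n) K := MvPolynomial.map π a' with hab
    set Pb : MvPolynomial (Fin n) K := MvPolynomial.map π P' with hPb
    set gb : MvPolynomial (Fin k) K := MvPolynomial.map π g' with hgb
    set hb : MvPolynomial (Fin n ⊕ Fin k) K := MvPolynomial.map π h' with hhb
    let pb : Fin k → K := fun i => π (p' i)
    have hK1 : ∀ x : Fin n → K, eval x ab = 0 → eval x Pb = 0 := by
      intro x hx
      have h1 := congrArg (fun q => eval x (MvPolynomial.map π q)) hS1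
      simp only [map_pow, map_mul] at h1
      rw [← hab, hx, zero_mul] at h1
      exact eq_zero_of_pow_eq_zero h1
    have hK2 : eval (fun i => π (x₀' i)) ab = 0 := by
      rw [hab, ← map_eval_eq π, hS2, map_zero]
    have hsym : ∀ z : Fin k → K, eval (fun i => 2 * pb i - z i) gb = eval z gb := by
      intro z
      have h1 := congrArg (fun q => eval z (MvPolynomial.map π q)) hS3
      simp only [map_bind₁, eval_bind₁'] at h1
      have h3 : (fun i => eval z (MvPolynomial.map π (C (2 * p' i) - X i)))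
          = fun i => 2 * pb i - z i := by
        funext i
        simp [pb, map_ofNat]
      rw [h3] at h1
      exact h1
    -- the counting identity
    let Fs : MvPolynomial (Option (Fin n ⊕ Fin k) ⊕ Fin M) S :=
      rename Sum.inl (rename some (rename Sum.inl a') * X none
          + rename some (rename Sum.inr g' + rename Sum.inl P' * h'))
    have hFs : MvPolynomial.map f Fs = φ (X j) := by
      rw [hφ]
      simp [Fs, map_rename, ha', hP', hg', hh']
    have hFπ : MvPolynomial.map π Fs
        = rename Sum.inl (rename some (rename Sum.inl ab) * X none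
          + rename some (rename Sum.inr gb + rename Sum.inl Pb * hb)) := by
      simp [Fs, map_rename, hab, hPb, hgb, hhb]
    have hcount := hbal j Fs hFs
    rw [hFπ] at hcount
    set c : K := eval pb gb + 1 with hc
    have hcne : c ≠ eval pb gb := by
      rw [hc]
      intro h0
      exact one_ne_zero (add_eq_left.mp h0)
    have heven := even_card_fiber_of_reflection K h2 k (fun z => eval z gb) pb hsym c hcne
    have h5 := card_fiber_multi K n k M ab Pb hK1 gb hb c
    have h6 := hcount c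
    have hcard : Fintype.card (Option (Fin n ⊕ Fin k) ⊕ Fin M) = n + k + 1 + M := by
      simp [Fintype.card_sum, Fintype.card_option]
    rw [hcard, h5] at h6
    have hsplit := card_ne_add_card_eq K n ab
    have hβ : 0 < Nat.card {x : Fin n → K // eval x ab = 0} := by
      have : Nonempty {x : Fin n → K // eval x ab = 0} := ⟨⟨_, hK2⟩⟩
      exact Nat.card_pos
    set α₁ := Nat.card {x : Fin n → K // eval x ab ≠ 0} with hα₁
    set β := Nat.card {x : Fin n → K // eval x ab = 0} with hβdef
    set N₀ := Nat.card {z : Fin k → K // eval z gb = c} with hN₀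
    set q := Nat.card K with hq
    have hqpos : 0 < q := Nat.card_pos
    have h8 : (α₁ * q ^ k + β * (q * N₀)) * q ^ (M + 1)
        = (α₁ * q ^ k + β * q ^ k) * q ^ (M + 1) := by
      have h9 : (α₁ * q ^ k + β * q ^ k) * q ^ (M + 1) = q ^ (n + k + 1 + M) := by
        rw [← add_mul, hsplit]
        ring
      rw [h9, ← h6]
      ring
    have h10 := Nat.eq_of_mul_eq_mul_right (pow_pos hqpos _) h8
    have h11 : β * (q * N₀) = β * q ^ k := Nat.add_left_cancel h10
    have h12 : q * N₀ = q ^ k := Nat.eq_of_mul_eq_mul_left hβ h11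
    have h13 : 2 ∣ q ^ k := by
      rw [← h12]
      exact Dvd.dvd.mul_left (even_iff_two_dvd.mp heven) q
    have h14 : 2 ∣ q := Nat.prime_two.dvd_of_dvd_pow h13
    rw [hq, Nat.card_eq_fintype_card] at h14
    exact not_two_dvd_card K h2 h14

end Vale.Agent.H79
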