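import Mathlib
import Vale.Agent.H79.MultiX
import Vale.Agent.H79.Dim
import Vale.Agent.H79.Cancel
import Vale.Agent.H79.Cylinder

/-!
# Cancellation for the hypersurfaces `a(x) y + g(z) + P(x) h(x, z) = 0`

Variables of `ℂ[x_1, …, x_n, z_1, …, z_k, y]`, indexed by `Option (Fin n ⊕ Fin k)`:
`y = X none`, `x_i = X (some (inl i))`, `z_j = X (some (inr j))`.  Let `a, P ∈ ℂ[x]` with
`a ≠ 0`, `a ∣ P^r` and `a` having a zero, `g ∈ ℂ[z]` of total degree at most two with smooth
zero set, and `h ∈ ℂ[x, z]` arbitrary.  If `A = ℂ[x, z, y]/(a y + g + P h)` satisfies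
`A[w] ≃ ℂ^[N+1]`, then `A ≃ ℂ^[N]`.
-/

namespace Vale.Agent.H79

open MvPolynomial

/-- `optionEquivLeft` on polynomials not involving the distinguished variable. -/
theorem optionEquivLeft_rename_some' {τ : Type*} (p : MvPolynomial τ ℂ) :
    optionEquivLeft ℂ τ (rename some p) = Polynomial.C p := by
  have h1 : (optionEquivLeft ℂ τ : MvPolynomial (Option τ) ℂ →ₐ[ℂ]
        Polynomial (MvPolynomial τ ℂ)).comp (rename some) = Polynomial.CAlgHom := by
    apply algHom_ext
    intro j
    simp only [AlgHom.comp_apply, rename_X, Polynomial.CAlgHom_apply]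
    exact optionEquivLeft_X_some ℂ _ j
  exact congrArg (fun Φ : MvPolynomial τ ℂ →ₐ[ℂ] Polynomial (MvPolynomial τ ℂ) => Φ p) h1

/-- The polynomial `a(x) y + g(z) + P(x) h(x, z)` is nonzero when `a ≠ 0`. -/
theorem multiF_ne_zero (n k : ℕ) (a P : MvPolynomial (Fin n) ℂ) (ha : a ≠ 0)
    (g : MvPolynomial (Fin k) ℂ) (h : MvPolynomial (Fin n ⊕ Fin k) ℂ) :
    (rename some (rename Sum.inl a) * X none
      + rename some (rename Sum.inr g + rename Sum.inl P * h) :
        MvPolynomial (Option (Fin n ⊕ Fin k)) ℂ) ≠ 0 := by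
  intro h0
  have h1 := congrArg (optionEquivLeft ℂ (Fin n ⊕ Fin k)) h0
  rw [map_add, map_mul, optionEquivLeft_rename_some', optionEquivLeft_rename_some',
    optionEquivLeft_X_none, map_zero] at h1
  have h2 := congrArg (fun q => Polynomial.coeff q 1) h1
  simp at h2
  apply ha
  apply rename_injective (Sum.inl : Fin n → Fin n ⊕ Fin k) Sum.inl_injective
  rw [h2, map_zero]

/-- Re-index the variables by `Fin (n + k + 1)`. -/
theorem exists_fin_model (n k : ℕ) (F : MvPolynomial (Option (Fin n ⊕ Fin k)) ℂ) :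
    ∃ ε : Option (Fin n ⊕ Fin k) ≃ Fin (n + k + 1),
      Nonempty ((MvPolynomial (Option (Fin n ⊕ Fin k)) ℂ ⧸ Ideal.span {F}) ≃ₐ[ℂ]
        (MvPolynomial (Fin (n + k + 1)) ℂ ⧸ Ideal.span {rename ε F})) := by
  have hcard : Fintype.card (Option (Fin n ⊕ Fin k)) = n + k + 1 := by
    simp [Fintype.card_option, Fintype.card_sum]
  refine ⟨Fintype.equivFinOfCardEq hcard,
    ⟨Ideal.quotientEquivAlg _ _ (renameEquiv ℂ (Fintype.equivFinOfCardEq hcard)) ?_⟩⟩
  rw [Ideal.map_span, Set.image_singleton]
  rfl

/-- Point count of the hypersurface `a(x) y + g(z) + P(x) h(x, z) = c` over a finite field. -/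
theorem card_fiber_multi_base (K : Type) [Field K] [Fintype K] (n k : ℕ)
    (a P : MvPolynomial (Fin n) K) (haP : ∀ x : Fin n → K, eval x a = 0 → eval x P = 0)
    (g : MvPolynomial (Fin k) K) (h : MvPolynomial (Fin n ⊕ Fin k) K) (c : K) :
    Nat.card {u : Option (Fin n ⊕ Fin k) → K //
        eval u (rename some (rename Sum.inl a) * X none
          + rename some (rename Sum.inr g + rename Sum.inl P * h)) = c}
      = Nat.card {x : Fin n → K // eval x a ≠ 0} * Nat.card K ^ k
        + Nat.card {x : Fin n → K // eval x a = 0}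
          * (Nat.card K * Nat.card {z : Fin k → K // eval z g = c}) := by
  classical
  let E : (Option (Fin n ⊕ Fin k) → K) ≃ K × (Fin n → K) × (Fin k → K) :=
    (Equiv.piOptionEquivProd (β := fun _ : Option (Fin n ⊕ Fin k) => K)).trans
      (Equiv.prodCongr (Equiv.refl K) (Equiv.sumArrowEquivProdArrow (Fin n) (Fin k) K))
  have hE : ∀ u : Option (Fin n ⊕ Fin k) → K,
      eval u (rename some (rename Sum.inl a) * X none
          + rename some (rename Sum.inr g + rename Sum.inl P * h)) = c ↔
        eval (E u).2.1 a * (E u).1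
          + (eval (E u).2.2 g
            + eval (E u).2.1 P * eval (Sum.elim (E u).2.1 (E u).2.2) h) = c := by
    intro u
    have h1 : (E u).1 = u none := rfl
    have h2 : (E u).2.1 = fun i => u (some (Sum.inl i)) := rfl
    have h3 : (E u).2.2 = fun i => u (some (Sum.inr i)) := rfl
    have h4 : Sum.elim (E u).2.1 (E u).2.2 = fun i => u (some i) := by
      funext i
      cases i with
      | inl i => rw [h2]; rfl
      | inr i => rw [h3]; rfl
    rw [h4, h1, h2, h3]
    simp only [eval_rename, map_add, map_mul, eval_X]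
    rfl
  have hgr := card_affine_fiber K (fun x : Fin n → K => eval x a) (fun x => eval x P) haP
    (fun z : Fin k → K => eval z g) (fun x z => eval (Sum.elim x z) h) c
  rw [Nat.card_congr (E.subtypeEquiv (p := fun u => eval u
        (rename some (rename Sum.inl a) * X none
          + rename some (rename Sum.inr g + rename Sum.inl P * h)) = c)
      (q := fun s : K × (Fin n → K) × (Fin k → K) =>
        eval s.2.1 a * s.1
          + (eval s.2.2 g + eval s.2.1 P * eval (Sum.elim s.2.1 s.2.2) h) = c) hE),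
    hgr, Nat.card_fun, Nat.card_eq_fintype_card (α := Fin k), Fintype.card_fin]

/-- **Cancellation for `a(x) y + g(z) + P(x) h(x, z) = 0` with smooth quadratic `g = 0`.** -/
theorem nonempty_equiv_of_multi_smooth (n k N r : ℕ) (a P : MvPolynomial (Fin n) ℂ)
    (ha : a ≠ 0) (haP : a ∣ P ^ r) (x₀ : Fin n → ℂ) (hx₀ : eval x₀ a = 0)
    (g : MvPolynomial (Fin k) ℂ) (hg : g.totalDegree ≤ 2)
    (hsm : ∀ p : Fin k → ℂ, eval p g = 0 → ∃ i, eval p (pderiv i g) ≠ 0)
    (h : MvPolynomial (Fin n ⊕ Fin k) ℂ)
    (e : Polynomial (MvPolynomial (Option (Fin n ⊕ Fin k)) ℂ ⧸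
        Ideal.span {rename some (rename Sum.inl a) * X none
          + rename some (rename Sum.inr g + rename Sum.inl P * h)}) ≃ₐ[ℂ]
      MvPolynomial (Fin (N + 1)) ℂ) :
    Nonempty ((MvPolynomial (Option (Fin n ⊕ Fin k)) ℂ ⧸
        Ideal.span {rename some (rename Sum.inl a) * X none
          + rename some (rename Sum.inr g + rename Sum.inl P * h)}) ≃ₐ[ℂ]
      MvPolynomial (Fin N) ℂ) := by
  classical
  set F : MvPolynomial (Option (Fin n ⊕ Fin k)) ℂ :=
    rename some (rename Sum.inl a) * X none
      + rename some (rename Sum.inr g + rename Sum.inl P * h) with hF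
  obtain ⟨ε, ⟨eQ⟩⟩ := exists_fin_model n k F
  set G : MvPolynomial (Fin (n + k + 1)) ℂ := rename ε F with hG
  have hFne : F ≠ 0 := multiF_ne_zero n k a P ha g h
  have hGne : G ≠ 0 := by
    intro h0
    apply hFne
    apply rename_injective ε ε.injective
    rw [map_zero]
    exact h0
  let e' : Polynomial (MvPolynomial (Fin (n + k + 1)) ℂ ⧸ Ideal.span {G}) ≃ₐ[ℂ]
      MvPolynomial (Fin (N + 1)) ℂ := (Polynomial.mapAlgEquiv eQ.symm).trans e
  have hN : n + k + 1 = N + 1 := eq_succ_of_cylinder (n + k + 1) N G hGne e'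
  have hN' : n + k = N := by omega
  subst hN'
  by_cases hcrit : ∀ p : Fin k → ℂ, ∃ i, eval p (pderiv i g) ≠ 0
  · obtain ⟨θ, i₀, hθ⟩ := exists_equiv_of_totalDegree_le_two g hg hcrit
    obtain ⟨ψ, i, hψ⟩ := exists_equiv_of_coord_multi n k r a P ha haP g h θ i₀ hθ
    let ψ' : MvPolynomial (Fin (n + k + 1)) ℂ ≃ₐ[ℂ] MvPolynomial (Fin (n + k + 1)) ℂ :=
      (renameEquiv ℂ ε).symm.trans (ψ.trans (renameEquiv ℂ ε))
    have hψ' : ψ' (X (ε i)) = G := by
      have h1 : (renameEquiv ℂ ε).symm (X (ε i)) = X i := by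
        rw [AlgEquiv.symm_apply_eq, renameEquiv_apply, rename_X]
      simp only [ψ', AlgEquiv.trans_apply]
      rw [h1, hψ, renameEquiv_apply]
    obtain ⟨e2⟩ := nonempty_quot_coord_equiv (n := n + k) ψ' (ε i) G hψ'
    exact ⟨eQ.trans e2⟩
  · exfalso
    push Not at hcrit
    obtain ⟨p, hp⟩ := hcrit
    set μ : ℂ := eval p g with hμ
    have hμ0 : μ ≠ 0 := by
      intro h0
      obtain ⟨i, hi⟩ := hsm p h0
      exact hi (hp i)
    have hrefl := reflect_eq_self_of_critical g hg p hp
    obtain ⟨d, hd⟩ := haP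
    obtain ⟨S, K, _, _, π, hT, h2, hbal⟩ :=
      exists_cylinder_reduction (n + k + 1) (n + k) G e'
        (a.coeffs ∪ P.coeffs ∪ g.coeffs ∪ h.coeffs ∪ d.coeffs
          ∪ Finset.univ.image p ∪ Finset.univ.image x₀ ∪ {μ⁻¹})
    let f : S →+* ℂ := (S.val : S →+* ℂ)
    have hf : Function.Injective f := Subtype.val_injective
    obtain ⟨a', ha'⟩ : ∃ a' : MvPolynomial (Fin n) S, MvPolynomial.map f a' = a :=
      exists_lift_of_coeffs S a (fun c hc => hT c (by simp [hc]))
    obtain ⟨P', hP'⟩ : ∃ P' : MvPolynomial (Fin n) S, MvPolynomial.map f P' = P :=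
      exists_lift_of_coeffs S P (fun c hc => hT c (by simp [hc]))
    obtain ⟨g', hg'⟩ : ∃ g' : MvPolynomial (Fin k) S, MvPolynomial.map f g' = g :=
      exists_lift_of_coeffs S g (fun c hc => hT c (by simp [hc]))
    obtain ⟨h', hh'⟩ : ∃ h' : MvPolynomial (Fin n ⊕ Fin k) S, MvPolynomial.map f h' = h :=
      exists_lift_of_coeffs S h (fun c hc => hT c (by simp [hc]))
    obtain ⟨d', hd'⟩ : ∃ d' : MvPolynomial (Fin n) S, MvPolynomial.map f d' = d :=
      exists_lift_of_coeffs S d (fun c hc => hT c (by simp [hc]))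
    let p' : Fin k → S := fun i => ⟨p i, hT (p i) (by simp)⟩
    let x₀' : Fin n → S := fun i => ⟨x₀ i, hT (x₀ i) (by simp)⟩
    let ν' : S := ⟨μ⁻¹, hT μ⁻¹ (by simp)⟩
    have hp' : ∀ i, f (p' i) = p i := fun i => rfl
    have hp'' : (fun i => f (p' i)) = p := rfl
    have hx₀' : (fun i => f (x₀' i)) = x₀ := rfl
    -- identities over `S`
    have hS1 : P' ^ r = a' * d' := by
      apply map_injective f hf
      rw [map_pow, map_mul, hP', ha', hd', hd]
    have hS2 : eval x₀' a' = 0 := by
      apply hf
      rw [map_eval_eq f, ha', map_zero, hx₀']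
      exact hx₀
    have hS3 : bind₁ (fun i => (C (2 * p' i) - X i : MvPolynomial (Fin k) S)) g' = g' := by
      apply map_injective f hf
      rw [map_bind₁, hg']
      have h1 : (fun i => MvPolynomial.map f (C (2 * p' i) - X i : MvPolynomial (Fin k) S))
          = fun i => (C (2 * p i) - X i : MvPolynomial (Fin k) ℂ) := by
        funext i
        simp [hp', map_ofNat]
      rw [h1]
      exact hrefl
    let μ' : S := eval p' g'
    have hμ' : f μ' = μ := by
      rw [map_eval_eq f, hg', hp'']
    have hμν : μ' * ν' = 1 := by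
      apply hf
      rw [map_mul, hμ', map_one]
      exact mul_inv_cancel₀ hμ0
    -- reduce to `K`
    set ab : MvPolynomial (Fin n) K := MvPolynomial.map π a' with hab
    set Pb : MvPolynomial (Fin n) K := MvPolynomial.map π P' with hPb
    set gb : MvPolynomial (Fin k) K := MvPolynomial.map π g' with hgb
    set hb : MvPolynomial (Fin n ⊕ Fin k) K := MvPolynomial.map π h' with hhb
    let pb : Fin k → K := fun i => π (p' i)
    have hK1 : ∀ x : Fin n → K, eval x ab = 0 → eval x Pb = 0 := by
      intro x hx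
      have h1 := congrArg (fun q => eval x (MvPolynomial.map π q)) hS1
      simp only [map_pow, map_mul] at h1
      rw [← hab, hx, zero_mul] at h1
      exact eq_zero_of_pow_eq_zero h1
    have hK2 : eval (fun i => π (x₀' i)) ab = 0 := by
      rw [hab, ← map_eval_eq π, hS2, map_zero]
    have hsym : ∀ z : Fin k → K, eval (fun i => 2 * pb i - z i) gb = eval z gb := by
      intro z
      have h1 := congrArg (fun q => eval z (MvPolynomial.map π q)) hS3
      simp only [map_bind₁, eval_bind₁'] at h1
      have h3 : (fun i => eval z (MvPolynomial.map π (C (2 * p' i) - X i)))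
          = fun i => 2 * pb i - z i := by
        funext i
        simp [pb, map_ofNat]
      rw [h3] at h1
      exact h1
    have hπμ : π μ' = eval pb gb := by
      rw [map_eval_eq π]
    have hcne : (0 : K) ≠ eval pb gb := by
      rw [← hπμ]
      intro h0
      have h1 := congrArg π hμν
      rw [map_mul, ← h0, zero_mul, map_one] at h1
      exact zero_ne_one h1
    have heven := even_card_fiber_of_reflection K h2 k (fun z => eval z gb) pb hsym 0 hcne
    -- the counting identity
    let Fs : MvPolynomial (Option (Fin n ⊕ Fin k)) S :=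
      rename some (rename Sum.inl a') * X none
        + rename some (rename Sum.inr g' + rename Sum.inl P' * h')
    have hFs : MvPolynomial.map f Fs = F := by
      simp [Fs, hF, map_rename, ha', hP', hg', hh']
    have hFπ : MvPolynomial.map π Fs
        = rename some (rename Sum.inl ab) * X none
          + rename some (rename Sum.inr gb + rename Sum.inl Pb * hb) := by
      simp [Fs, map_rename, hab, hPb, hgb, hhb]
    have hGs : MvPolynomial.map f (rename ε Fs) = G := by
      rw [map_rename, hFs]
    have hcount := hbal (rename ε Fs) hGs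
    have hequiv : Nat.card {v : Fin (n + k + 1) → K //
          eval v (MvPolynomial.map π (rename ε Fs)) = 0}
        = Nat.card {u : Option (Fin n ⊕ Fin k) → K //
          eval u (MvPolynomial.map π Fs) = 0} := by
      apply Nat.card_congr
      let Φ : (Fin (n + k + 1) → K) ≃ (Option (Fin n ⊕ Fin k) → K) :=
        { toFun := fun v => v ∘ ε
          invFun := fun u => u ∘ ε.symm
          left_inv := by
            intro v
            funext i
            simp
          right_inv := by
            intro u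
            funext i
            simp }
      exact Φ.subtypeEquiv (fun v => by
        rw [map_rename, eval_rename]
        exact Iff.rfl)
    rw [hequiv, hFπ] at hcount
    have h5 := card_fiber_multi_base K n k ab Pb hK1 gb hb 0
    rw [h5] at hcount
    have hsplit := card_ne_add_card_eq K n ab
    have hβ : 0 < Nat.card {x : Fin n → K // eval x ab = 0} := by
      have : Nonempty {x : Fin n → K // eval x ab = 0} := ⟨⟨_, hK2⟩⟩
      exact Nat.card_pos
    set α₁ := Nat.card {x : Fin n → K // eval x ab ≠ 0} with hα₁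
    set β := Nat.card {x : Fin n → K // eval x ab = 0} with hβdef
    set N₀ := Nat.card {z : Fin k → K // eval z gb = 0} with hN₀
    set q := Nat.card K with hq
    have hqpos : 0 < q := Nat.card_pos
    have h8 : (α₁ * q ^ k + β * (q * N₀)) * q = (α₁ * q ^ k + β * q ^ k) * q := by
      have h9 : (α₁ * q ^ k + β * q ^ k) * q = q ^ (n + k + 1) := by
        rw [← add_mul, hsplit]
        ring
      rw [h9, ← hcount]
    have h10 := Nat.eq_of_mul_eq_mul_right hqpos h8
    have h11 : β * (q * N₀) = β * q ^ k := Nat.add_left_cancel h10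
    have h12 : q * N₀ = q ^ k := Nat.eq_of_mul_eq_mul_left hβ h11
    have h13 : 2 ∣ q ^ k := by
      rw [← h12]
      exact Dvd.dvd.mul_left (even_iff_two_dvd.mp heven) q
    have h14 : 2 ∣ q := Nat.prime_two.dvd_of_dvd_pow h13
    rw [hq, Nat.card_eq_fintype_card] at h14
    exact not_two_dvd_card K h2 h14

end Vale.Agent.H79
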