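import Mathlib
import Vale.Agent.H79.MultiX
import Vale.Agent.H79.MultiXCancel

/-!
# The family `a(x) y + g(z) + P(x) h(x, z)` with a single `z`-variable

For one `z`-variable the restriction on the degree of `g` can be dropped: a polynomial of degree
at least two in one variable takes some value at two different points, and this persists after
reduction to a finite field, so its fibres cannot all have exactly one point.
-/

namespace Vale.Agent.H79

open MvPolynomial

section OneVar

/-- A complex polynomial of degree at least two takes the value at a non-critical point `w₀` at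
a second point. -/
theorem exists_ne_eval_eq (G : Polynomial ℂ) (hG : 2 ≤ G.natDegree) (w₀ : ℂ)
    (hw : (Polynomial.derivative G).eval w₀ ≠ 0) :
    ∃ z₁ : ℂ, z₁ ≠ w₀ ∧ G.eval z₁ = G.eval w₀ := by
  set Q : Polynomial ℂ := G - Polynomial.C (G.eval w₀) with hQ
  have hroot : Q.IsRoot w₀ := by
    simp [hQ]
  obtain ⟨Q₁, hQ₁⟩ := Polynomial.dvd_iff_isRoot.mpr hroot
  have hder : Polynomial.derivative Q = Polynomial.derivative G := by
    simp [hQ]
  have hder2 : Polynomial.derivative Q
      = Q₁ + (Polynomial.X - Polynomial.C w₀) * Polynomial.derivative Q₁ := by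
    rw [hQ₁, Polynomial.derivative_mul]
    simp
  have hQ₁w : Q₁.eval w₀ ≠ 0 := by
    have h1 : (Polynomial.derivative G).eval w₀ = Q₁.eval w₀ := by
      rw [← hder, hder2]
      simp
    rwa [h1] at hw
  have hQdeg : Q.natDegree = G.natDegree := by
    rw [hQ, Polynomial.natDegree_sub_C]
  have hQ₁0 : Q₁ ≠ 0 := by
    intro h0
    rw [h0] at hQ₁w
    simp at hQ₁w
  have hXne : (Polynomial.X - Polynomial.C w₀ : Polynomial ℂ) ≠ 0 :=
    Polynomial.X_sub_C_ne_zero w₀
  have hdeg : Q.natDegree = 1 + Q₁.natDegree := by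
    rw [hQ₁, Polynomial.natDegree_mul hXne hQ₁0, Polynomial.natDegree_X_sub_C]
  have hQ₁deg : Q₁.degree ≠ 0 := by
    rw [Polynomial.degree_eq_natDegree hQ₁0]
    intro h0
    have h1 : Q₁.natDegree = 0 := by exact_mod_cast h0
    omega
  obtain ⟨z₁, hz₁⟩ := IsAlgClosed.exists_root Q₁ hQ₁deg
  refine ⟨z₁, ?_, ?_⟩
  · intro h0
    rw [h0] at hz₁
    exact hQ₁w hz₁
  · have h1 : Q.eval z₁ = 0 := by
      rw [hQ₁, Polynomial.eval_mul, hz₁.eq_zero, mul_zero]
    rw [hQ] at h1
    simp only [Polynomial.eval_sub, Polynomial.eval_C] at h1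
    exact sub_eq_zero.mp h1

/-- A complex polynomial of degree at least one has a non-critical point. -/
theorem exists_derivative_eval_ne_zero (G : Polynomial ℂ) (hG : 1 ≤ G.natDegree) :
    ∃ w₀ : ℂ, (Polynomial.derivative G).eval w₀ ≠ 0 := by
  by_contra hcon
  push Not at hcon
  have h1 : Polynomial.derivative G = 0 := Polynomial.funext (fun w => by simp [hcon w])
  have h2 := Polynomial.derivative_eq_zero.mp h1
  omega

/-- The one-variable polynomial attached to a polynomial in `Fin 1` variables. -/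
theorem eval_aeval_X_fin_one (g : MvPolynomial (Fin 1) ℂ) (w : ℂ) :
    Polynomial.eval w (aeval (fun _ : Fin 1 => (Polynomial.X : Polynomial ℂ)) g)
      = eval (fun _ : Fin 1 => w) g := by
  have h1 : ((Polynomial.aeval w : Polynomial ℂ →ₐ[ℂ] ℂ).comp
      (aeval (fun _ : Fin 1 => (Polynomial.X : Polynomial ℂ)))) = aeval (fun _ : Fin 1 => w) := by
    apply algHom_ext
    intro i
    simp
  have h2 := congrArg (fun F : MvPolynomial (Fin 1) ℂ →ₐ[ℂ] ℂ => F g) h1
  simpa [coe_aeval_eq_eval, Polynomial.coe_aeval_eq_eval] using h2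

/-- If the attached one-variable polynomial has degree at most one, the total degree is at
most two. -/
theorem totalDegree_le_two_of_natDegree_le_one (g : MvPolynomial (Fin 1) ℂ)
    (hd : (aeval (fun _ : Fin 1 => (Polynomial.X : Polynomial ℂ)) g).natDegree ≤ 1) :
    g.totalDegree ≤ 2 := by
  set Gu : Polynomial ℂ := aeval (fun _ : Fin 1 => (Polynomial.X : Polynomial ℂ)) g with hGu
  have h1 : ((Polynomial.aeval (X 0 : MvPolynomial (Fin 1) ℂ) :
        Polynomial ℂ →ₐ[ℂ] MvPolynomial (Fin 1) ℂ).comp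
      (aeval (fun _ : Fin 1 => (Polynomial.X : Polynomial ℂ)))) = AlgHom.id ℂ _ := by
    apply algHom_ext
    intro i
    have hi : i = 0 := Subsingleton.elim i 0
    subst hi
    simp
  have h2 : Polynomial.aeval (X 0 : MvPolynomial (Fin 1) ℂ) Gu = g :=
    congrArg (fun F : MvPolynomial (Fin 1) ℂ →ₐ[ℂ] MvPolynomial (Fin 1) ℂ => F g) h1
  have h3 := Polynomial.eq_X_add_C_of_natDegree_le_one hd
  rw [h3] at h2
  simp only [map_add, map_mul, Polynomial.aeval_C, Polynomial.aeval_X, algebraMap_eq] at h2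
  rw [← h2]
  have h4 : (C (Gu.coeff 1) * X 0 : MvPolynomial (Fin 1) ℂ).totalDegree ≤ 1 := by
    refine (totalDegree_mul _ _).trans ?_
    rw [totalDegree_C, totalDegree_X, zero_add]
  have h5 : (C (Gu.coeff 0) : MvPolynomial (Fin 1) ℂ).totalDegree ≤ 1 := by
    rw [totalDegree_C]
    exact Nat.zero_le 1
  exact ((totalDegree_add _ _).trans (max_le h4 h5)).trans (by norm_num)

end OneVar

section Balanced

/-- **Balanced fibres.**  If `a(x) y + g(z) + P(x) h(x, z)` is a stable coordinate (with
`a ∣ P^r` and `a` having a zero), then after spreading out and reduction to a suitable finite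
field `K` every fibre of `g` over `K` has exactly `|K|^(k-1)` points. -/
theorem exists_balanced_g (n k M r : ℕ) (a P : MvPolynomial (Fin n) ℂ)
    (haP : a ∣ P ^ r) (x₀ : Fin n → ℂ) (hx₀ : eval x₀ a = 0)
    (g : MvPolynomial (Fin k) ℂ) (h : MvPolynomial (Fin n ⊕ Fin k) ℂ)
    (φ : MvPolynomial (Option (Fin n ⊕ Fin k) ⊕ Fin M) ℂ ≃ₐ[ℂ]
      MvPolynomial (Option (Fin n ⊕ Fin k) ⊕ Fin M) ℂ)
    (j : Option (Fin n ⊕ Fin k) ⊕ Fin M)
    (hφ : φ (X j) = rename Sum.inl (rename some (rename Sum.inl a) * X none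
          + rename some (rename Sum.inr g + rename Sum.inl P * h)))
    (T₁ : Finset ℂ) :
    ∃ (S : Subalgebra ℤ ℂ) (K : Type) (_ : Field K) (_ : Fintype K) (π : S →+* K)
      (g' : MvPolynomial (Fin k) S),
      (∀ c ∈ T₁, c ∈ S) ∧ (2 : K) ≠ 0 ∧ MvPolynomial.map (S.val : S →+* ℂ) g' = g ∧
      ∀ c : K, Nat.card K * Nat.card {z : Fin k → K // eval z (MvPolynomial.map π g') = c}
        = Nat.card K ^ k := by
  classical
  obtain ⟨d, hd⟩ := haP
  obtain ⟨S, K, _, _, π, hT, h2, hbal⟩ :=
    exists_balanced_reduction φ (a.coeffs ∪ P.coeffs ∪ g.coeffs ∪ h.coeffs ∪ d.coeffs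
      ∪ Finset.univ.image x₀ ∪ T₁)
  let f : S →+* ℂ := (S.val : S →+* ℂ)
  have hf : Function.Injective f := Subtype.val_injective
  obtain ⟨a', ha'⟩ : ∃ a' : MvPolynomial (Fin n) S, MvPolynomial.map f a' = a :=
    exists_lift_of_coeffs S a (fun c hc => hT c (by simp [hc]))
  obtain ⟨P', hP'⟩ : ∃ P' : MvPolynomial (Fin n) S, MvPolynomial.map f P' = P :=
    exists_lift_of_coeffs S P (fun c hc => hT c (by simp [hc]))
  obtain ⟨g', hg'⟩ : ∃ g' : MvPolynomial (Fin k) S, MvPolynomial.map f g' = g :=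
    exists_lift_of_coeffs S g (fun c hc => hT c (by simp [hc]))
  obtain ⟨h', hh'⟩ : ∃ h' : MvPolynomial (Fin n ⊕ Fin k) S, MvPolynomial.map f h' = h :=
    exists_lift_of_coeffs S h (fun c hc => hT c (by simp [hc]))
  obtain ⟨d', hd'⟩ : ∃ d' : MvPolynomial (Fin n) S, MvPolynomial.map f d' = d :=
    exists_lift_of_coeffs S d (fun c hc => hT c (by simp [hc]))
  let x₀' : Fin n → S := fun i => ⟨x₀ i, hT (x₀ i) (by simp)⟩
  have hx₀' : (fun i => f (x₀' i)) = x₀ := rfl
  have hS1 : P' ^ r = a' * d' := by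
    apply map_injective f hf
    rw [map_pow, map_mul, hP', ha', hd', hd]
  have hS2 : eval x₀' a' = 0 := by
    apply hf
    rw [map_eval_eq f, ha', map_zero, hx₀']
    exact hx₀
  refine ⟨S, K, inferInstance, inferInstance, π, g', fun c hc => hT c (by simp [hc]), h2, hg', ?_⟩
  intro c
  set ab : MvPolynomial (Fin n) K := MvPolynomial.map π a' with hab
  set Pb : MvPolynomial (Fin n) K := MvPolynomial.map π P' with hPb
  set gb : MvPolynomial (Fin k) K := MvPolynomial.map π g' with hgb
  set hb : MvPolynomial (Fin n ⊕ Fin k) K := MvPolynomial.map π h' with hhb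
  have hK1 : ∀ x : Fin n → K, eval x ab = 0 → eval x Pb = 0 := by
    intro x hx
    have h1 := congrArg (fun q => eval x (MvPolynomial.map π q)) hS1
    simp only [map_pow, map_mul] at h1
    rw [← hab, hx, zero_mul] at h1
    exact eq_zero_of_pow_eq_zero h1
  have hK2 : eval (fun i => π (x₀' i)) ab = 0 := by
    rw [hab, ← map_eval_eq π, hS2, map_zero]
  let Fs : MvPolynomial (Option (Fin n ⊕ Fin k) ⊕ Fin M) S :=
    rename Sum.inl (rename some (rename Sum.inl a') * X none
        + rename some (rename Sum.inr g' + rename Sum.inl P' * h'))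
  have hFs : MvPolynomial.map f Fs = φ (X j) := by
    rw [hφ]
    simp [Fs, map_rename, ha', hP', hg', hh']
  have hFπ : MvPolynomial.map π Fs
      = rename Sum.inl (rename some (rename Sum.inl ab) * X none
        + rename some (rename Sum.inr gb + rename Sum.inl Pb * hb)) := by
    simp [Fs, map_rename, hab, hPb, hgb, hhb]
  have hcount := hbal j Fs hFs
  rw [hFπ] at hcount
  have h5 := card_fiber_multi K n k M ab Pb hK1 gb hb c
  have h6 := hcount c
  have hcard : Fintype.card (Option (Fin n ⊕ Fin k) ⊕ Fin M) = n + k + 1 + M := by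
    simp [Fintype.card_sum, Fintype.card_option]
  rw [hcard, h5] at h6
  have hsplit := card_ne_add_card_eq K n ab
  have hβ : 0 < Nat.card {x : Fin n → K // eval x ab = 0} := by
    have : Nonempty {x : Fin n → K // eval x ab = 0} := ⟨⟨_, hK2⟩⟩
    exact Nat.card_pos
  set α₁ := Nat.card {x : Fin n → K // eval x ab ≠ 0} with hα₁
  set β := Nat.card {x : Fin n → K // eval x ab = 0} with hβdef
  set N₀ := Nat.card {z : Fin k → K // eval z gb = c} with hN₀
  set q := Nat.card K with hq
  have hqpos : 0 < q := Nat.card_pos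
  have h8 : (α₁ * q ^ k + β * (q * N₀)) * q ^ (M + 1)
      = (α₁ * q ^ k + β * q ^ k) * q ^ (M + 1) := by
    have h9 : (α₁ * q ^ k + β * q ^ k) * q ^ (M + 1) = q ^ (n + k + 1 + M) := by
      rw [← add_mul, hsplit]
      ring
    rw [h9, ← h6]
    ring
  have h10 := Nat.eq_of_mul_eq_mul_right (pow_pos hqpos _) h8
  have h11 : β * (q * N₀) = β * q ^ k := Nat.add_left_cancel h10
  exact Nat.eq_of_mul_eq_mul_left hβ h11

end Balanced

/-- **Stable coordinates `a(x) y + g(z) + P(x) h(x, z)`** with `a ∣ P^r` and either `deg g ≤ 2`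
or a single `z`-variable are coordinates, and then `g` is a coordinate of `ℂ[z]`. -/
theorem exists_equiv_of_stable_multi_one (n k M r : ℕ) (a P : MvPolynomial (Fin n) ℂ)
    (ha : a ≠ 0) (haP : a ∣ P ^ r) (x₀ : Fin n → ℂ) (hx₀ : eval x₀ a = 0)
    (g : MvPolynomial (Fin k) ℂ) (hg : g.totalDegree ≤ 2 ∨ k = 1)
    (h : MvPolynomial (Fin n ⊕ Fin k) ℂ)
    (φ : MvPolynomial (Option (Fin n ⊕ Fin k) ⊕ Fin M) ℂ ≃ₐ[ℂ]
      MvPolynomial (Option (Fin n ⊕ Fin k) ⊕ Fin M) ℂ)
    (j : Option (Fin n ⊕ Fin k) ⊕ Fin M)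
    (hφ : φ (X j) = rename Sum.inl (rename some (rename Sum.inl a) * X none
          + rename some (rename Sum.inr g + rename Sum.inl P * h))) :
    (∃ (θ : MvPolynomial (Fin k) ℂ ≃ₐ[ℂ] MvPolynomial (Fin k) ℂ) (i₀ : Fin k), θ (X i₀) = g) ∧
    ∃ (ψ : MvPolynomial (Option (Fin n ⊕ Fin k)) ℂ ≃ₐ[ℂ]
        MvPolynomial (Option (Fin n ⊕ Fin k)) ℂ) (i : Option (Fin n ⊕ Fin k)),
      ψ (X i) = rename some (rename Sum.inl a) * X none
          + rename some (rename Sum.inr g + rename Sum.inl P * h) := by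
  classical
  by_cases hd2 : g.totalDegree ≤ 2
  · exact exists_equiv_of_stable_multi n k M r a P ha haP x₀ hx₀ g hd2 h φ j hφ
  · exfalso
    have hk : k = 1 := hg.resolve_left hd2
    subst hk
    set Gu : Polynomial ℂ := aeval (fun _ : Fin 1 => (Polynomial.X : Polynomial ℂ)) g with hGu
    have hdeg : 2 ≤ Gu.natDegree := by
      by_contra hlt
      have h1 : Gu.natDegree ≤ 1 := by omega
      exact hd2 (totalDegree_le_two_of_natDegree_le_one g h1)
    obtain ⟨w₀, hw₀⟩ := exists_derivative_eval_ne_zero Gu (by omega)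
    obtain ⟨z₁, hz₁, hzw⟩ := exists_ne_eval_eq Gu hdeg w₀ hw₀
    rw [hGu, eval_aeval_X_fin_one, eval_aeval_X_fin_one] at hzw
    obtain ⟨S, K, _, _, π, g', hT, h2, hg', hbal⟩ :=
      exists_balanced_g n 1 M r a P haP x₀ hx₀ g h φ j hφ {w₀, z₁, (z₁ - w₀)⁻¹}
    let f : S →+* ℂ := (S.val : S →+* ℂ)
    have hf : Function.Injective f := Subtype.val_injective
    let w' : S := ⟨w₀, hT w₀ (by simp)⟩
    let z' : S := ⟨z₁, hT z₁ (by simp)⟩
    let ν' : S := ⟨(z₁ - w₀)⁻¹, hT _ (by simp)⟩
    have hν : (z' - w') * ν' = 1 := by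
      apply hf
      rw [map_mul, map_sub, map_one]
      exact mul_inv_cancel₀ (sub_ne_zero.mpr hz₁)
    have hSeq : eval (fun _ : Fin 1 => z') g' = eval (fun _ : Fin 1 => w') g' := by
      apply hf
      rw [map_eval_eq f, map_eval_eq f]
      have hg'' : MvPolynomial.map f g' = g := hg'
      rw [hg'']
      exact hzw
    have hKne : π z' ≠ π w' := by
      intro h0
      have h1 := congrArg π hν
      rw [map_mul, map_sub, h0, sub_self, zero_mul, map_one] at h1
      exact zero_ne_one h1
    have hKeq : eval (fun _ : Fin 1 => π z') (MvPolynomial.map π g')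
        = eval (fun _ : Fin 1 => π w') (MvPolynomial.map π g') := by
      have h1 := congrArg π hSeq
      rw [map_eval_eq π, map_eval_eq π] at h1
      exact h1
    have h3 := hbal (eval (fun _ : Fin 1 => π w') (MvPolynomial.map π g'))
    have hqpos : 0 < Nat.card K := Nat.card_pos
    have hN : Nat.card {z : Fin 1 → K // eval z (MvPolynomial.map π g')
        = eval (fun _ : Fin 1 => π w') (MvPolynomial.map π g')} = 1 := by
      rw [pow_one] at h3
      exact Nat.eq_of_mul_eq_mul_left hqpos (by rw [h3, mul_one])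
    have hsub := (Nat.card_eq_one_iff_unique.mp hN).1
    have h4 : (⟨fun _ => π z', hKeq⟩ : {z : Fin 1 → K // eval z (MvPolynomial.map π g')
        = eval (fun _ : Fin 1 => π w') (MvPolynomial.map π g')}) = ⟨fun _ => π w', rfl⟩ :=
      Subsingleton.elim _ _
    have h5 := congrFun (congrArg Subtype.val h4) 0
    exact hKne h5

/-- The derivative of the attached one-variable polynomial. -/
theorem derivative_aeval_X_fin_one (g : MvPolynomial (Fin 1) ℂ) :
    Polynomial.derivative (aeval (fun _ : Fin 1 => (Polynomial.X : Polynomial ℂ)) g)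
      = aeval (fun _ : Fin 1 => (Polynomial.X : Polynomial ℂ)) (pderiv 0 g) := by
  induction g using MvPolynomial.induction_on with
  | C c => simp
  | add p q hp hq => simp [hp, hq]
  | mul_X p i hp =>
    have hi : i = 0 := Subsingleton.elim i 0
    subst hi
    rw [map_mul, aeval_X, Polynomial.derivative_mul, hp, Derivation.leibniz, pderiv_X_self]
    simp only [smul_eq_mul, mul_one, map_add, map_mul, aeval_X, Polynomial.derivative_X]
    ring

/-- **Balanced zero fibre.**  If the hypersurface `a(x) y + g(z) + P(x) h(x, z) = 0` has a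
polynomial cylinder (with `a ≠ 0`, `a ∣ P^r` and `a` having a zero), then after spreading out
and reduction to a suitable finite field `K` the zero set of `g` over `K` has exactly
`|K|^(k-1)` points. -/
theorem exists_zero_balanced_g (n k N r : ℕ) (a P : MvPolynomial (Fin n) ℂ)
    (ha : a ≠ 0) (haP : a ∣ P ^ r) (x₀ : Fin n → ℂ) (hx₀ : eval x₀ a = 0)
    (g : MvPolynomial (Fin k) ℂ) (h : MvPolynomial (Fin n ⊕ Fin k) ℂ)
    (e : Polynomial (MvPolynomial (Option (Fin n ⊕ Fin k)) ℂ ⧸
        Ideal.span {rename some (rename Sum.inl a) * X none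
          + rename some (rename Sum.inr g + rename Sum.inl P * h)}) ≃ₐ[ℂ]
      MvPolynomial (Fin (N + 1)) ℂ)
    (T₁ : Finset ℂ) :
    ∃ (S : Subalgebra ℤ ℂ) (K : Type) (_ : Field K) (_ : Fintype K) (π : S →+* K)
      (g' : MvPolynomial (Fin k) S),
      (∀ c ∈ T₁, c ∈ S) ∧ (2 : K) ≠ 0 ∧ MvPolynomial.map (S.val : S →+* ℂ) g' = g ∧
      Nat.card K * Nat.card {z : Fin k → K // eval z (MvPolynomial.map π g') = 0}
        = Nat.card K ^ k := by
  classical
  set F : MvPolynomial (Option (Fin n ⊕ Fin k)) ℂ :=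
    rename some (rename Sum.inl a) * X none
      + rename some (rename Sum.inr g + rename Sum.inl P * h) with hF
  obtain ⟨ε, ⟨eQ⟩⟩ := exists_fin_model n k F
  set G : MvPolynomial (Fin (n + k + 1)) ℂ := rename ε F with hG
  have hFne : F ≠ 0 := multiF_ne_zero n k a P ha g h
  have hGne : G ≠ 0 := by
    intro h0
    apply hFne
    apply rename_injective ε ε.injective
    rw [map_zero]
    exact h0
  let e' : Polynomial (MvPolynomial (Fin (n + k + 1)) ℂ ⧸ Ideal.span {G}) ≃ₐ[ℂ]
      MvPolynomial (Fin (N + 1)) ℂ := (Polynomial.mapAlgEquiv eQ.symm).trans e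
  have hN : n + k + 1 = N + 1 := eq_succ_of_cylinder (n + k + 1) N G hGne e'
  have hN' : n + k = N := by omega
  subst hN'
  obtain ⟨d, hd⟩ := haP
  obtain ⟨S, K, _, _, π, hT, h2, hbal⟩ :=
    exists_cylinder_reduction (n + k + 1) (n + k) G e'
      (a.coeffs ∪ P.coeffs ∪ g.coeffs ∪ h.coeffs ∪ d.coeffs ∪ Finset.univ.image x₀ ∪ T₁)
  let f : S →+* ℂ := (S.val : S →+* ℂ)
  have hf : Function.Injective f := Subtype.val_injective
  obtain ⟨a', ha'⟩ : ∃ a' : MvPolynomial (Fin n) S, MvPolynomial.map f a' = a :=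
    exists_lift_of_coeffs S a (fun c hc => hT c (by simp [hc]))
  obtain ⟨P', hP'⟩ : ∃ P' : MvPolynomial (Fin n) S, MvPolynomial.map f P' = P :=
    exists_lift_of_coeffs S P (fun c hc => hT c (by simp [hc]))
  obtain ⟨g', hg'⟩ : ∃ g' : MvPolynomial (Fin k) S, MvPolynomial.map f g' = g :=
    exists_lift_of_coeffs S g (fun c hc => hT c (by simp [hc]))
  obtain ⟨h', hh'⟩ : ∃ h' : MvPolynomial (Fin n ⊕ Fin k) S, MvPolynomial.map f h' = h :=
    exists_lift_of_coeffs S h (fun c hc => hT c (by simp [hc]))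
  obtain ⟨d', hd'⟩ : ∃ d' : MvPolynomial (Fin n) S, MvPolynomial.map f d' = d :=
    exists_lift_of_coeffs S d (fun c hc => hT c (by simp [hc]))
  let x₀' : Fin n → S := fun i => ⟨x₀ i, hT (x₀ i) (by simp)⟩
  have hx₀' : (fun i => f (x₀' i)) = x₀ := rfl
  have hS1 : P' ^ r = a' * d' := by
    apply map_injective f hf
    rw [map_pow, map_mul, hP', ha', hd', hd]
  have hS2 : eval x₀' a' = 0 := by
    apply hf
    rw [map_eval_eq f, ha', map_zero, hx₀']
    exact hx₀
  refine ⟨S, K, inferInstance, inferInstance, π, g', fun c hc => hT c (by simp [hc]), h2, hg', ?_⟩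
  set ab : MvPolynomial (Fin n) K := MvPolynomial.map π a' with hab
  set Pb : MvPolynomial (Fin n) K := MvPolynomial.map π P' with hPb
  set gb : MvPolynomial (Fin k) K := MvPolynomial.map π g' with hgb
  set hb : MvPolynomial (Fin n ⊕ Fin k) K := MvPolynomial.map π h' with hhb
  have hK1 : ∀ x : Fin n → K, eval x ab = 0 → eval x Pb = 0 := by
    intro x hx
    have h1 := congrArg (fun q => eval x (MvPolynomial.map π q)) hS1
    simp only [map_pow, map_mul] at h1
    rw [← hab, hx, zero_mul] at h1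
    exact eq_zero_of_pow_eq_zero h1
  have hK2 : eval (fun i => π (x₀' i)) ab = 0 := by
    rw [hab, ← map_eval_eq π, hS2, map_zero]
  let Fs : MvPolynomial (Option (Fin n ⊕ Fin k)) S :=
    rename some (rename Sum.inl a') * X none
      + rename some (rename Sum.inr g' + rename Sum.inl P' * h')
  have hFs : MvPolynomial.map f Fs = F := by
    simp [Fs, hF, map_rename, ha', hP', hg', hh']
  have hFπ : MvPolynomial.map π Fs
      = rename some (rename Sum.inl ab) * X none
        + rename some (rename Sum.inr gb + rename Sum.inl Pb * hb) := by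
    simp [Fs, map_rename, hab, hPb, hgb, hhb]
  have hGs : MvPolynomial.map f (rename ε Fs) = G := by
    rw [map_rename, hFs]
  have hcount := hbal (rename ε Fs) hGs
  have hequiv : Nat.card {v : Fin (n + k + 1) → K //
        eval v (MvPolynomial.map π (rename ε Fs)) = 0}
      = Nat.card {u : Option (Fin n ⊕ Fin k) → K //
        eval u (MvPolynomial.map π Fs) = 0} := by
    apply Nat.card_congr
    let Φ : (Fin (n + k + 1) → K) ≃ (Option (Fin n ⊕ Fin k) → K) :=
      { toFun := fun v => v ∘ ε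
        invFun := fun u => u ∘ ε.symm
        left_inv := by
          intro v
          funext i
          simp
        right_inv := by
          intro u
          funext i
          simp }
    exact Φ.subtypeEquiv (fun v => by
      rw [map_rename, eval_rename]
      exact Iff.rfl)
  rw [hequiv, hFπ] at hcount
  have h5 := card_fiber_multi_base K n k ab Pb hK1 gb hb 0
  rw [h5] at hcount
  have hsplit := card_ne_add_card_eq K n ab
  have hβ : 0 < Nat.card {x : Fin n → K // eval x ab = 0} := by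
    have : Nonempty {x : Fin n → K // eval x ab = 0} := ⟨⟨_, hK2⟩⟩
    exact Nat.card_pos
  set α₁ := Nat.card {x : Fin n → K // eval x ab ≠ 0} with hα₁
  set β := Nat.card {x : Fin n → K // eval x ab = 0} with hβdef
  set N₀ := Nat.card {z : Fin k → K // eval z gb = 0} with hN₀
  set q := Nat.card K with hq
  have hqpos : 0 < q := Nat.card_pos
  have h8 : (α₁ * q ^ k + β * (q * N₀)) * q = (α₁ * q ^ k + β * q ^ k) * q := by
    have h9 : (α₁ * q ^ k + β * q ^ k) * q = q ^ (n + k + 1) := by
      rw [← add_mul, hsplit]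
      ring
    rw [h9, ← hcount]
  have h10 := Nat.eq_of_mul_eq_mul_right hqpos h8
  have h11 : β * (q * N₀) = β * q ^ k := Nat.add_left_cancel h10
  exact Nat.eq_of_mul_eq_mul_left hβ h11

/-- **Cancellation for `a(x) y + g(z) + P(x) h(x, z) = 0`** with smooth `g = 0`, where either
`deg g ≤ 2` or there is a single `z`-variable. -/
theorem nonempty_equiv_of_multi_smooth_one (n k N r : ℕ) (a P : MvPolynomial (Fin n) ℂ)
    (ha : a ≠ 0) (haP : a ∣ P ^ r) (x₀ : Fin n → ℂ) (hx₀ : eval x₀ a = 0)
    (g : MvPolynomial (Fin k) ℂ) (hg : g.totalDegree ≤ 2 ∨ k = 1)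
    (hsm : ∀ p : Fin k → ℂ, eval p g = 0 → ∃ i, eval p (pderiv i g) ≠ 0)
    (h : MvPolynomial (Fin n ⊕ Fin k) ℂ)
    (e : Polynomial (MvPolynomial (Option (Fin n ⊕ Fin k)) ℂ ⧸
        Ideal.span {rename some (rename Sum.inl a) * X none
          + rename some (rename Sum.inr g + rename Sum.inl P * h)}) ≃ₐ[ℂ]
      MvPolynomial (Fin (N + 1)) ℂ) :
    Nonempty ((MvPolynomial (Option (Fin n ⊕ Fin k)) ℂ ⧸
        Ideal.span {rename some (rename Sum.inl a) * X none
          + rename some (rename Sum.inr g + rename Sum.inl P * h)}) ≃ₐ[ℂ]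
      MvPolynomial (Fin N) ℂ) := by
  classical
  by_cases hd2 : g.totalDegree ≤ 2
  · exact nonempty_equiv_of_multi_smooth n k N r a P ha haP x₀ hx₀ g hd2 hsm h e
  · exfalso
    have hk : k = 1 := hg.resolve_left hd2
    subst hk
    set Gu : Polynomial ℂ := aeval (fun _ : Fin 1 => (Polynomial.X : Polynomial ℂ)) g with hGu
    have hdeg : 2 ≤ Gu.natDegree := by
      by_contra hlt
      have h1 : Gu.natDegree ≤ 1 := by omega
      exact hd2 (totalDegree_le_two_of_natDegree_le_one g h1)
    have hGu0 : Gu ≠ 0 := by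
      intro h0
      rw [h0] at hdeg
      simp at hdeg
    have hdeg' : Gu.degree ≠ 0 := by
      rw [Polynomial.degree_eq_natDegree hGu0]
      intro h0
      have h1 : Gu.natDegree = 0 := by exact_mod_cast h0
      omega
    obtain ⟨w₀, hw₀⟩ := IsAlgClosed.exists_root Gu hdeg'
    have hgw : eval (fun _ : Fin 1 => w₀) g = 0 := by
      rw [← eval_aeval_X_fin_one]
      exact hw₀
    obtain ⟨i, hi⟩ := hsm (fun _ => w₀) hgw
    have hi0 : i = 0 := Subsingleton.elim i 0
    subst hi0
    have hder : (Polynomial.derivative Gu).eval w₀ ≠ 0 := by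
      rw [hGu, derivative_aeval_X_fin_one, eval_aeval_X_fin_one]
      exact hi
    obtain ⟨z₁, hz₁, hzw⟩ := exists_ne_eval_eq Gu hdeg w₀ hder
    have hgz : eval (fun _ : Fin 1 => z₁) g = 0 := by
      rw [← eval_aeval_X_fin_one, ← hGu, hzw]
      exact hw₀
    obtain ⟨S, K, _, _, π, g', hT, h2, hg', hbal⟩ :=
      exists_zero_balanced_g n 1 N r a P ha haP x₀ hx₀ g h e {w₀, z₁, (z₁ - w₀)⁻¹}
    let f : S →+* ℂ := (S.val : S →+* ℂ)
    have hf : Function.Injective f := Subtype.val_injective
    have hg'' : MvPolynomial.map f g' = g := hg'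
    let w' : S := ⟨w₀, hT w₀ (by simp)⟩
    let z' : S := ⟨z₁, hT z₁ (by simp)⟩
    let ν' : S := ⟨(z₁ - w₀)⁻¹, hT _ (by simp)⟩
    have hν : (z' - w') * ν' = 1 := by
      apply hf
      rw [map_mul, map_sub, map_one]
      exact mul_inv_cancel₀ (sub_ne_zero.mpr hz₁)
    have hKne : π z' ≠ π w' := by
      intro h0
      have h1 := congrArg π hν
      rw [map_mul, map_sub, h0, sub_self, zero_mul, map_one] at h1
      exact zero_ne_one h1
    have hSz : eval (fun _ : Fin 1 => z') g' = 0 := by
      apply hf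
      rw [map_eval_eq f, hg'', map_zero]
      exact hgz
    have hSw : eval (fun _ : Fin 1 => w') g' = 0 := by
      apply hf
      rw [map_eval_eq f, hg'', map_zero]
      exact hgw
    have hKz : eval (fun _ : Fin 1 => π z') (MvPolynomial.map π g') = 0 := by
      have h1 := congrArg π hSz
      rw [map_eval_eq π, map_zero] at h1
      exact h1
    have hKw : eval (fun _ : Fin 1 => π w') (MvPolynomial.map π g') = 0 := by
      have h1 := congrArg π hSw
      rw [map_eval_eq π, map_zero] at h1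
      exact h1
    have hqpos : 0 < Nat.card K := Nat.card_pos
    have hN : Nat.card {z : Fin 1 → K // eval z (MvPolynomial.map π g') = 0} = 1 := by
      rw [pow_one] at hbal
      exact Nat.eq_of_mul_eq_mul_left hqpos (by rw [hbal, mul_one])
    have hsub := (Nat.card_eq_one_iff_unique.mp hN).1
    have h4 : (⟨fun _ => π z', hKz⟩ : {z : Fin 1 → K // eval z (MvPolynomial.map π g') = 0})
        = ⟨fun _ => π w', hKw⟩ := Subsingleton.elim _ _
    have h5 := congrFun (congrArg Subtype.val h4) 0
    exact hKne h5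

end Vale.Agent.H79
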